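import Crest.Agent.N218.Pm.Kit1
import Crest.Agent.N218.Pm.Adm0
import Crest.Agent.N218.C.Lya
import Crest.Agent.N218.Rd.Defs

/-! Row 218, PIECE (helper69): a criterion for `Ec` to be a problem; cyclically monotone maps. -/

set_option autoImplicit false
set_option linter.unusedSectionVars false
open Set Filter Topology
open scoped RealInnerProductSpace

noncomputable section

namespace Crest.Agent.N218.Pc
open Pm

section norm
variable {B : Type} [TopologicalSpace B] {k : ℕ} {E : Type} [NormedAddCommGroup E]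
  [NormedSpace ℝ E]

/-- the equation of `Ec` -/
def Eqn (f : E → E) (s : ℝ) (z : V k E) : Prop := ∀ i, z i + s • mn z i = f (z (i - 1))

variable (k) in
/-- no free solution near the constant sequence `y` -/
def Loc (F : B × E → E) (b : B) (y : E) : Prop :=
  ∀ᶠ x : B × V k E in 𝓝 (b, fun _ => y),
    ∀ s, 0 ≤ s → Eqn (fun y => F (x.1, y)) s x.2 → mn x.2 = 0

theorem ev_all {P : B × E → Prop} {b : B} {y : E} (h : ∀ᶠ p in 𝓝 (b, y), P p) :
    ∀ᶠ x : B × V k E in 𝓝 (b, fun _ => y), ∀ i, P (x.1, x.2 i) :=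
  eventually_all.2 fun i => (Continuous.tendsto' (f := fun x : B × V k E => (x.1, x.2 i))
    (by fun_prop) _ _ rfl).eventually h

theorem Loc.congr {F G : B × E → E} {b : B} {y : E} (h : Loc k G b y)
    (e : ∀ᶠ p in 𝓝 (b, y), F p = G p) : Loc k F b y := by
  filter_upwards [h, ev_all (k := k) e] with x a c s s0 d
  exact a s s0 fun i => (d i).trans (c _)

theorem Loc.pull {B' : Type} [TopologicalSpace B'] {F : B × E → E} {φ : B' → B} {b : B'} {y : E}
    (hφ : ContinuousAt φ b) (h : Loc k F (φ b) y) : Loc k (fun p => F (φ p.1, p.2)) b y :=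
  (ContinuousAt.tendsto (f := fun x : B' × V k E => (φ x.1, x.2)) (x := (b, fun _ => y))
    ((hφ.comp_of_eq continuousAt_fst rfl).prodMk continuousAt_snd)).eventually h

theorem mem_Z {F : B × E → E} {x : (B × ℝ) × V k E} : x ∈ (Ec k univ F).Z ↔
    mn x.2 ≠ 0 ∧ Eqn (fun y => F (x.1.1, y)) (Real.exp x.1.2) x.2 := by
  refine ⟨fun h => ⟨h.1.1, fun i => ?_⟩, fun h => ⟨⟨h.1, fun _ => mem_univ _⟩, funext fun i => ?_⟩⟩
  · have : x.2 i - F (x.1.1, x.2 (i - 1)) + Real.exp x.1.2 • mn x.2 i = 0 := congrFun h.2 i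
    rw [← sub_eq_zero, ← this]; abel
  · show x.2 i - F (x.1.1, x.2 (i - 1)) + Real.exp x.1.2 • mn x.2 i = 0
    rw [← show _ = F (x.1.1, x.2 (i - 1)) from h.2 i]; abel

/-- **criterion**: the free solutions lie in a compact set `K` whose periodic orbits are good -/
theorem ec_ok {F : B × E → E} (hF : Continuous F) {K : Set (B × V k E)} (hK : IsCompact K)
    (hz : ∀ b s z, 0 < s → mn z ≠ 0 → Eqn (fun y => F (b, y)) s z → (b, z) ∈ K)
    (hp : ∀ x ∈ K, Eqn (fun y => F (x.1, y)) 0 x.2 → ∃ y, x.2 = (fun _ => y) ∧ Loc k F x.1 y) :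
    (Ec k univ F).Ok := by
  have eO : (Ec k univ F).O = {x | mn x.2 ≠ 0} := by ext x; simp [Ec, PM.Ec, Psi]
  set P : B × V k E → V k E := fun x i => x.2 i - F (x.1, x.2 (i - 1)) with hP
  have Pc : Continuous P := by fun_prop
  have hc : Continuous (Ec k univ F).h := by
    show Continuous fun x : (B × ℝ) × V k E => P (x.1.1, x.2) + Real.exp x.1.2 • mn x.2
    fun_prop
  refine ⟨eO ▸ isOpen_ne_fun (by fun_prop) continuous_const, fun x a => ?_, hc.continuousOn,
    fun x _ => ?_, ?_, fun x a => a.1⟩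
  · rw [eO] at a ⊢; exact sh_ne a
  · show P (x.1.1, sh k E x.2) + Real.exp x.1.2 • mn (sh k E x.2) =
      sh k E (P (x.1.1, x.2) + Real.exp x.1.2 • mn x.2)
    rw [mn_sh, map_add, map_smul]; rfl
  set U := interior {x : B × V k E | ∀ s, 0 ≤ s → Eqn (fun y => F (x.1, y)) s x.2 → mn x.2 = 0}
  set K2 := (K \ U) ∩ {x | P x - mn (P x) = 0}
  have k2 : IsCompact K2 := (hK.diff isOpen_interior).inter_right
    (isClosed_eq (by fun_prop) continuous_const)
  have p0 : ∀ x ∈ K2, P x ≠ 0 := fun x hx e => by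
    obtain ⟨y, a, b⟩ := hp x hx.1.1 fun i => by
      rw [zero_smul, add_zero]; exact sub_eq_zero.1 (congrFun e i)
    exact hx.1.2 (mem_interior_iff_mem_nhds.2 (by rw [← Prod.mk.eta (p := x), a]; exact b))
  have m0 : ∀ x ∈ K2, mn x.2 ≠ 0 := fun x hx e => p0 x hx (by
    have h1 : mn (P x) = 0 := by
      have t := mn_eq_zero.1 e
      refine mn_eq_zero.2 (funext fun i => ?_)
      have t1 := congrFun t i
      have t2 := congrFun t (i - 1)
      simp only [tL_apply] at t1 t2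
      simp only [tL_apply, hP]
      rw [t1, add_sub_right_comm, t2]
    simpa [h1] using (show P x - mn (P x) = 0 from hx.2))
  have lc : ContinuousOn (fun x : B × V k E => Real.log (‖P x‖ / ‖mn x.2‖)) K2 :=
    ContinuousOn.log (Pc.norm.continuousOn.div (by fun_prop) fun x hx => norm_ne_zero_iff.2 (m0 x hx))
      fun x hx => div_ne_zero (norm_ne_zero_iff.2 (p0 x hx)) (norm_ne_zero_iff.2 (m0 x hx))
  have k3 := k2.image_of_continuousOn (f := fun x : B × V k E =>
    ((x.1, Real.log (‖P x‖ / ‖mn x.2‖)), x.2)) ((continuousOn_fst.prodMk lc).prodMk continuousOn_snd)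
  have k4 := k3.inter_right (isClosed_eq hc (continuous_const (y := 0)))
  refine (congrArg IsCompact (Set.ext fun x => ?_)).mp k4
  refine ⟨?_, fun hx => ⟨?_, hx.2⟩⟩
  · rintro ⟨⟨w, hw, rfl⟩, e⟩
    exact ⟨eO ▸ m0 w hw, e⟩
  · obtain ⟨a, b⟩ := mem_Z.1 hx
    have e : P (x.1.1, x.2) = -(Real.exp x.1.2 • mn x.2) := eq_neg_of_add_eq_zero_left hx.2
    refine ⟨(x.1.1, x.2), ⟨⟨hz _ _ _ (Real.exp_pos _) a b,
      fun u => a (interior_subset u _ (Real.exp_pos _).le b)⟩, ?_⟩, ?_⟩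
    · show P (x.1.1, x.2) - mn (P (x.1.1, x.2)) = 0
      rw [e, mn_neg, mn_smul, mn_mn, sub_self]
    · simp only [e, norm_neg, norm_smul, Real.norm_eq_abs, abs_of_pos (Real.exp_pos _)]
      rw [mul_div_cancel_right₀ _ (norm_ne_zero_iff.2 a), Real.log_exp]

/-- solutions for a bounded map are bounded -/
theorem Eqn.norm_le {f : E → E} {s C : ℝ} {z : V k E} (h : Eqn f s z) (s0 : 0 ≤ s)
    (hC : ∀ i, ‖f (z i)‖ ≤ C) : ‖z‖ ≤ 3 * C := by
  have C0 : 0 ≤ C := (norm_nonneg _).trans (hC 0)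
  have e : z + s • mn z = fun i => f (z (i - 1)) := funext h
  have n : ‖z + s • mn z‖ ≤ C := e ▸ (pi_norm_le_iff_of_nonneg C0).2 fun i => hC _
  have a := (norm_mn _).trans n
  rw [mn_add, mn_smul, mn_mn, show mn z + s • mn z = (1 + s) • mn z by module, norm_smul,
    Real.norm_of_nonneg (by positivity)] at a
  have b := norm_sub_le (z + s • mn z) (s • mn z)
  rw [add_sub_cancel_right, norm_smul, Real.norm_of_nonneg s0] at b
  nlinarith [norm_nonneg (mn z)]

variable [FiniteDimensional ℝ E]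

/-- the criterion for bounded families over a compact base -/
theorem ec_ok_bd [CompactSpace B] {F : B × E → E} (hF : Continuous F) {C : ℝ}
    (hC : ∀ p, ‖F p‖ ≤ C) (hp : ∀ b (z : V k E), (∀ i, z i = F (b, z (i - 1))) →
      ∃ y, z = (fun _ => y) ∧ Loc k F b y) : (Ec k univ F).Ok := by
  have : ProperSpace (V k E) := FiniteDimensional.proper ℝ _
  exact ec_ok hF (isCompact_univ.prod (isCompact_closedBall 0 (3 * C)))
    (fun b s z s0 _ h => ⟨mem_univ _, mem_closedBall_zero_iff.2 (h.norm_le s0.le fun _ => hC _)⟩)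
    fun x _ h => hp x.1 x.2 fun i => by simpa using h i

/-- first-order criterion -/
theorem Loc.of_sd {F : B × E → E} {D : E →L[ℝ] E} {b : B} {y : E} (hk : 1 ≤ k)
    (hD : Ad.Sd F D (b, y)) (hN : Rd.Nn D) : Loc k F b y := by
  let DV : V k E →L[ℝ] V k E := 1 - ContinuousLinearMap.pi fun i =>
    D.comp (ContinuousLinearMap.proj (R := ℝ) (φ := fun _ : Ix k => E) (i - 1))
  have sd : Ad.Sd (fun x : B × V k E => fun i => x.2 i - F (x.1, x.2 (i - 1))) DV
      (b, fun _ => y) := fun ε e => by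
    have := eventually_all.2 fun i : Ix k => (Continuous.tendsto'
      (f := fun x : B × V k E × V k E => (x.1, x.2.1 i, x.2.2 i)) (by fun_prop)
      (b, fun _ => y, fun _ => y) _ rfl).eventually (hD ε e)
    filter_upwards [this] with x hx
    refine (pi_norm_le_iff_of_nonneg (by positivity)).2 fun i => ?_
    have a := (hx (i - 1)).trans (mul_le_mul_of_nonneg_left
      (norm_le_pi_norm (x.2.1 - x.2.2) (i - 1)) e.le)
    rw [← norm_neg] at a
    refine le_of_eq_of_le (congrArg norm ?_) a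
    show x.2.1 i - F (x.1, x.2.1 (i - 1)) - (x.2.2 i - F (x.1, x.2.2 (i - 1))) -
      (x.2.1 i - x.2.2 i - D (x.2.1 (i - 1) - x.2.2 (i - 1))) = _
    abel
  have := Ad.loc (tL k E) tL_tL (n := fun _ : B => (1 : V k E →L[ℝ] V k E)) continuousAt_const sd
    rfl fun a c v a0 c0 e hv h => funext fun i => by
      obtain ⟨k, rfl⟩ := Nat.exists_eq_add_of_le' hk
      have := hN a (fun n : ℕ => v (i + n)) (2 ^ k) (fun n => by
        have t : a • (v (i + (n + 1 : ℕ)) - D (v (i + (n + 1 : ℕ) - 1))) +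
          c • v (i + (n + 1 : ℕ)) = 0 := congrFun h (i + (n + 1 : ℕ))
        rw [show i + ((n + 1 : ℕ) : Ix (k + 1)) - 1 = i + n by push_cast; ring,
          show c = 1 - a by linarith] at t
        rw [← sub_eq_zero, ← t]; module) (by
          rw [← pow_succ']; push_cast; rw [add_zero]; exact congrFun hv i)
      simpa using this
  filter_upwards [this] with x hx s s0 h
  refine mn_eq_zero.2 (hx (1 / 2 * (1 + s) - 1 / 2 + s / 2) (by linarith) (funext fun i => ?_))
  have t1 : _ = F (x.1, _) := h i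
  have t2 : _ = F (x.1, _) := h (i + 2 ^ k)
  have t3 : mn x.2 (i + 2 ^ k) = -mn x.2 i := congrFun (tL_mn x.2) i
  have t4 : mn x.2 i = (1 / 2 : ℝ) • (x.2 i - x.2 (i + 2 ^ k)) := rfl
  rw [t3, add_sub_right_comm] at t2
  simp only [Pi.add_apply, Pi.sub_apply, Pi.smul_apply, tL_apply, one_apply_eq_self,
    Pi.zero_apply]
  rw [← t1, ← t2, t4]
  module

theorem Loc.of_c1 {F : B × E → E} {D : B × E → E →L[ℝ] E} {b : B} {y : E} (hk : 1 ≤ k)
    (hD : ContinuousAt D (b, y))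
    (h : ∀ᶠ p in 𝓝 (b, y), HasFDerivAt (fun w => F (p.1, w)) (D p) p.2) (hN : Rd.Nn (D (b, y))) :
    Loc k F b y := Loc.of_sd hk (Ad.Sd.of_c1 hD h) hN
end norm

section inner
variable {B : Type} [TopologicalSpace B] {k : ℕ} {E : Type} [NormedAddCommGroup E]
  [InnerProductSpace ℝ E]

theorem nn_sym {L : E →L[ℝ] E} (h : ∀ x y, ⟪L x, y⟫ = ⟪x, L y⟫) : Rd.Nn L := fun c z j a b =>
  Ad.sym_seq (M := c • (L : E →ₗ[ℝ] E)) (fun x y => by simp [inner_smul_left, inner_smul_right, h])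
    one_ne_zero (fun i => by simpa using a i) b

theorem nn_one : Rd.Nn (1 : E →L[ℝ] E) := nn_sym fun _ _ => rfl

variable (k) in
/-- cyclically monotone -/
def CM (G : E → E) : Prop := ∀ z : V k E, ∑ i, ⟪G (z (i - 1)), z i - z (i - 1)⟫ ≤ 0

theorem sum_sh (a : Ix k → ℝ) (j : Ix k) : ∑ i, a (i - j) = ∑ i, a i :=
  (Equiv.subRight j).sum_comp a

theorem CM.of_pot {G : E → E} (ψ : E → ℝ) (h : ∀ x x', ⟪G x, x' - x⟫ ≤ ψ x' - ψ x) : CM k G :=
  fun z => (Finset.sum_le_sum fun i _ => h _ _).trans (by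
    rw [Finset.sum_sub_distrib, sum_sh (fun i => ψ (z i)), sub_self])

theorem CM.add {G G' : E → E} (h : CM k G) (h' : CM k G') : CM k fun y => G y + G' y := fun z => by
  simp only [inner_add_left, Finset.sum_add_distrib]; linarith [h z, h' z]

theorem CM.smul {G : E → E} (h : CM k G) {c : ℝ} (hc : 0 ≤ c) : CM k fun y => c • G y := fun z => by
  simp only [real_inner_smul_left, ← Finset.mul_sum]; exact mul_nonpos_of_nonneg_of_nonpos hc (h z)

theorem CM.const (c : E) : CM k fun _ => c :=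
  CM.of_pot (fun y => ⟪c, y⟫) fun _ _ => (inner_sub_right _ _ _).le

/-- symmetric non-negative linear maps -/
theorem CM.clm {L : E →L[ℝ] E} (h : ∀ x y, ⟪L x, y⟫ = ⟪x, L y⟫) (h0 : ∀ x, 0 ≤ ⟪L x, x⟫) :
    CM k L := CM.of_pot (fun y => 1 / 2 * ⟪L y, y⟫) fun x x' => by
  have := h0 (x' - x)
  rw [map_sub, inner_sub_left, inner_sub_right, inner_sub_right, h x' x,
    real_inner_comm (L x) x'] at this
  rw [inner_sub_right]; linarith

/-- a short gradient step -/
theorem CM.grad [CompleteSpace E] {g : E → ℝ} {gr : E → E} (hg : ∀ z, HasGradientAt g (gr z) z)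
    {L ε : ℝ} (hL : ∀ z w, ‖gr z - gr w‖ ≤ L * ‖z - w‖) (h0 : 0 ≤ ε) (h1 : ε * L ≤ 1) :
    CM k fun y => y - ε • gr y := CM.of_pot (fun y => 1 / 2 * ‖y‖ ^ 2 - ε * g y) fun x x' => by
  have a := C.taylor_le (g' := fun z => InnerProductSpace.toDual ℝ E (gr z)) hg (L := L) (z := x)
    (v := x' - x) fun t ht => by
      rw [← map_sub, LinearIsometryEquiv.norm_map]
      refine (hL _ _).trans_eq ?_
      rw [add_sub_cancel_left, norm_smul, Real.norm_of_nonneg ht.1]
  rw [add_sub_cancel, InnerProductSpace.toDual_apply_apply] at a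
  have b := norm_add_sq_real x (x' - x)
  rw [add_sub_cancel] at b
  rw [inner_sub_left, real_inner_smul_left]
  nlinarith [mul_le_mul_of_nonneg_left a h0, mul_le_mul_of_nonneg_right h1 (sq_nonneg ‖x' - x‖)]

/-- monotone radial maps of an orthogonal projection -/
theorem CM.radial {p : E →L[ℝ] E} (hp : ∀ x y, ⟪p x, y⟫ = ⟪p x, p y⟫) {κ : ℝ → ℝ}
    (h0 : ∀ t, 0 ≤ t → 0 ≤ κ t) (hm : MonotoneOn (fun t => κ t * t) (Ici 0)) :
    CM k fun y => κ ‖p y‖ • p y := fun z => by
  have mv : Monovary (fun i => κ ‖p (z i)‖ * ‖p (z i)‖) fun i => ‖p (z i)‖ := fun i j h =>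
    hm (norm_nonneg _) (norm_nonneg _) h.le
  have r := mv.sum_mul_comp_perm_le_sum_mul (σ := Equiv.addRight (1 : Ix k))
  rw [← sum_sh _ (-1)]
  simp only [sub_neg_eq_add, add_sub_cancel_right]
  refine le_trans (Finset.sum_le_sum (g := fun i => κ ‖p (z i)‖ * ‖p (z i)‖ * ‖p (z (i + 1))‖ -
    κ ‖p (z i)‖ * ‖p (z i)‖ * ‖p (z i)‖) fun i _ => ?_) ?_
  · rw [real_inner_smul_left, hp, map_sub, inner_sub_right, real_inner_self_eq_norm_sq]
    nlinarith [mul_le_mul_of_nonneg_left (real_inner_le_norm (p (z i)) (p (z (i + 1))))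
      (h0 _ (norm_nonneg (p (z i))))]
  · rw [Finset.sum_sub_distrib]; exact sub_nonpos.2 r

theorem sum_self (z : V k E) : ∑ i, ⟪z i, z i - z (i - 1)⟫ = 1 / 2 * ∑ i, ‖z i - z (i - 1)‖ ^ 2 := by
  have : ∀ i, ⟪z i, z i - z (i - 1)⟫ =
      1 / 2 * ‖z i - z (i - 1)‖ ^ 2 + 1 / 2 * (‖z i‖ ^ 2 - ‖z (i - 1)‖ ^ 2) := fun i => by
    rw [norm_sub_sq_real, inner_sub_right, real_inner_self_eq_norm_sq]; ring
  simp only [this, Finset.sum_add_distrib, ← Finset.mul_sum, Finset.sum_sub_distrib]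
  rw [sum_sh fun i => ‖z i‖ ^ 2]; ring

theorem sum_mn (z w : V k E) : ∑ i, ⟪mn z i, w i⟫ = ∑ i, ⟪mn z i, mn w i⟫ := by
  have a : ∑ i, ⟪mn z i, w (i + 2 ^ k)⟫ = -∑ i, ⟪mn z i, w i⟫ := by
    rw [← Equiv.sum_comp (Equiv.addRight (2 ^ k : Ix k)), ← Finset.sum_neg_distrib]
    refine Finset.sum_congr rfl fun i _ => ?_
    rw [Equiv.coe_addRight, add_assoc, two_half, add_zero,
      show mn z (i + 2 ^ k) = -mn z i from congrFun (tL_mn z) i, inner_neg_left]
  have b : ∀ i, ⟪mn z i, mn w i⟫ = 1 / 2 * (⟪mn z i, w i⟫ - ⟪mn z i, w (i + 2 ^ k)⟫) := fun i => by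
    rw [show mn w i = (1 / 2 : ℝ) • (w i - w (i + 2 ^ k)) from rfl, real_inner_smul_right,
      inner_sub_right]
  simp only [b, ← Finset.mul_sum, Finset.sum_sub_distrib, a]; ring

theorem cm_sum {f G : E → E} (hG : CM k G) {s C : ℝ} {z : V k E} (h : Eqn f s z) (s0 : 0 ≤ s)
    (hC : ∀ i, ‖f (z i) - G (z i)‖ ≤ C) :
    ∑ i, ‖z i - z (i - 1)‖ ^ 2 ≤ 2 * C * ∑ i, ‖z i - z (i - 1)‖ := by
  have a : 0 ≤ ∑ i, ⟪mn z i, z i - z (i - 1)⟫ := by
    have := sum_mn z (z - sh k E z)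
    rw [mn_sub, mn_sh] at this
    refine le_of_le_of_eq ?_ this.symm
    exact le_of_le_of_eq (by positivity) (sum_self (mn z)).symm
  have b : ∑ i, ⟪z i + s • mn z i, z i - z (i - 1)⟫ ≤ ∑ i, (⟪G (z (i - 1)), z i - z (i - 1)⟫ +
      C * ‖z i - z (i - 1)‖) := Finset.sum_le_sum fun i _ => by
    rw [h i, ← sub_le_iff_le_add', ← inner_sub_left]
    exact (real_inner_le_norm _ _).trans (mul_le_mul_of_nonneg_right (hC _) (norm_nonneg _))
  simp only [inner_add_left, real_inner_smul_left, Finset.sum_add_distrib, ← Finset.mul_sum,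
    sum_self] at b
  nlinarith [hG z, mul_nonneg s0 a]

theorem step_le {z : V k E} {c : ℝ} (h : ∀ i, ‖z i - z (i - 1)‖ ≤ c) (i j : Ix k) :
    ‖z i - z j‖ ≤ 2 ^ (k + 1) * c := by
  have a : ∀ n : ℕ, ‖z (j + n) - z j‖ ≤ n * c := fun n => by
    induction n with
    | zero => simp
    | succ n ih =>
      have := h (j + (n + 1 : ℕ))
      rw [show j + ((n + 1 : ℕ) : Ix k) - 1 = j + n by push_cast; ring] at this
      push_cast at this ⊢
      linarith [norm_sub_le_norm_sub_add_norm_sub (z (j + (n + 1))) (z (j + n)) (z j)]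
  have b := a (i - j).val
  rw [ZMod.natCast_zmod_val, add_sub_cancel] at b
  refine b.trans (mul_le_mul_of_nonneg_right ?_ ((norm_nonneg _).trans (h i)))
  exact_mod_cast (ZMod.val_lt (i - j)).le

/-- **a-priori bound** for bounded perturbations of cyclically monotone maps -/
theorem cm_bound {f G : E → E} (hG : CM k G) {s C : ℝ} {z : V k E} (h : Eqn f s z) (s0 : 0 ≤ s)
    (hC : ∀ i, ‖f (z i) - G (z i)‖ ≤ C) (i j : Ix k) :
    ‖z i - z j‖ ≤ 2 ^ (k + 1) * ((2 ^ (k + 1) + 1) * C) := by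
  have C0 : 0 ≤ C := (norm_nonneg _).trans (hC 0)
  refine step_le (fun i => ?_) i j
  have a := cm_sum hG h s0 hC
  have b : ∑ i, (‖z i - z (i - 1)‖ - C) ^ 2 ≤ 2 ^ (k + 1) * C ^ 2 := by
    simp only [sub_sq, Finset.sum_add_distrib, Finset.sum_sub_distrib, Finset.sum_const,
      Finset.card_univ, ZMod.card, nsmul_eq_mul, ← Finset.sum_mul, ← Finset.mul_sum]
    push_cast; linarith
  have c := (Finset.single_le_sum (f := fun i => (‖z i - z (i - 1)‖ - C) ^ 2)
    (fun _ _ => sq_nonneg _) (Finset.mem_univ i)).trans b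
  have q : (1 : ℝ) ≤ 2 ^ (k + 1) := one_le_pow₀ one_le_two
  have := abs_le_of_sq_le_sq' (c.trans (show _ ≤ (2 ^ (k + 1) * C) ^ 2 by
    nlinarith [mul_le_mul_of_nonneg_right q (mul_nonneg (zero_le_one.trans q) (sq_nonneg C))]))
    (by positivity)
  linarith [this.2]

/-- solutions that only see a cyclically monotone map are constant -/
theorem cm_const {f G : E → E} (hG : CM k G) {s : ℝ} {z : V k E} (h : Eqn f s z) (s0 : 0 ≤ s)
    (hC : ∀ i, f (z i) = G (z i)) : z = fun _ => z 0 := funext fun i => by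
  have := cm_bound hG h s0 (C := 0) (fun i => by simp [hC i]) i 0
  simpa [sub_eq_zero] using this

theorem mn_const (y : E) : mn (fun _ : Ix k => y) = 0 := funext fun _ => by simp [mn]

theorem Loc.of_cm {F G : B × E → E} {b : B} {y : E} (hG : ∀ b, CM k fun y => G (b, y))
    (e : ∀ᶠ p in 𝓝 (b, y), F p = G p) : Loc k F b y :=
  Loc.congr (Eventually.of_forall fun x s s0 h => by
    rw [cm_const (hG x.1) h s0 fun _ => rfl, mn_const]) e
end inner

end Crest.Agent.N218.Pc
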