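import Crest.Agent.N218.Pc.Defs
import Crest.Agent.N218.Pm.Kit3

/-! Row 218, block PIECE (helper28): `Sy` implies `Gf`. -/

set_option autoImplicit false
set_option linter.unusedVariables false
set_option maxHeartbeats 400000
open Set Topology

noncomputable section

namespace Crest.Agent.N218.Pc
open Sk Pm

variable {X E : Type} [TopologicalSpace X] [CompactSpace X] [T2Space X] [NormedAddCommGroup E] {k : ℕ}

theorem per_it {E : Type} {f : E → E} {w : Ix k → E} (h : ∀ i, w i = f (w (i - 1))) (i : Ix k)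
    (n : ℕ) : f^[n] (w i) = w (i + n) := by
  induction n with
  | zero => simp
  | succ n ih =>
    rw [Function.iterate_succ_apply', ih, h (i + (n + 1 : ℕ))]
    congr 2; push_cast; ring

/-- cyclic orbits are constant when periodic points are fixed -/
theorem per_const {E : Type} {f : E → E} {w : Ix k → E} (h : ∀ i, w i = f (w (i - 1)))
    (p : ∀ y N, 0 < N → f^[N] y = y → f y = y) : f (w 0) = w 0 ∧ ∀ i, w i = w 0 := by
  have a := p (w 0) (2 ^ (k + 1)) (by positivity) (by rw [per_it h, ZMod.natCast_self, add_zero])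
  refine ⟨a, fun i => ?_⟩
  have := per_it h 0 i.val
  rw [Function.iterate_fixed a, zero_add, ZMod.natCast_zmod_val] at this
  exact this.symm

/-- good families from first-order data at the cyclic orbits -/
theorem gf_of [NormedSpace ℝ E] [FiniteDimensional ℝ E] {f : X × E → E} (hk : 1 ≤ k)
    (hf : Continuous f) {A : E →L[ℝ] E} (hA : LA k A) {C : ℝ} (hC : ∀ x, ‖f x - A x.2‖ ≤ C)
    (z : ∀ b (w : V k E), (∀ i, w i = f (b, w (i - 1))) →
      ∃ y M, (∀ i, w i = y) ∧ Ad.Sd f M (b, y) ∧ Nap M) : Gf k f := by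
  have ok : (Psi k univ f).Ok := psi_ok_lin hf (A := fun _ => A) continuous_const
    (fun b v e => hA 0 v le_rfl fun i => by simp [← e i]) fun K _ => ⟨C, fun b _ y => hC (b, y)⟩
  obtain ⟨d, d0, hd⟩ := Ad.glob ok.ct one_pos (by simpa using ok.pp univ isCompact_univ 1)
    (Q := (Psi k univ f).Nf) fun x a e => by
      obtain ⟨y, M, c, s, p⟩ := z x.1 x.2 fun i => sub_eq_zero.1 (congrFun e i)
      exact PM.nf_of_sd ok (mn_eq_zero.2 (funext fun i => by simp [c])) (psi_sd c s) (p.pen hk)
  refine ⟨hf, ⟨A, C, hA, hC⟩, d, d0, fun b s w s0 a e => ?_⟩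
  have e' : (Psi k univ f).P (b, w) + s • (Psi k univ f).n b (mn w) = 0 := funext e
  exact hd (b, w) (fun _ => mem_univ _)
    (by rw [eq_neg_of_add_eq_zero_left e', norm_neg]; exact a) (fun _ => mem_univ _) s s0 e'

theorem la_zero [InnerProductSpace ℝ E] (hk : 1 ≤ k) : LA k (0 : E →L[ℝ] E) :=
  LA.of_sym (fun _ _ => by simp) (fun v h => by simpa using h.symm) hk

theorem Sy.gf [InnerProductSpace ℝ E] [FiniteDimensional ℝ E] {f : X × E → E} (h : Sy f)
    (hk : 1 ≤ k) : Gf k f :=
  let ⟨C, hC⟩ := h.bd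
  gf_of hk h.ct (la_zero hk) (C := C) (fun x => by simpa using hC x) fun b w e =>
    let ⟨a, c⟩ := per_const (f := fun y => f (b, y)) e (h.per b)
    let ⟨M, m, s⟩ := h.sym b _ a
    ⟨w 0, M, c, s, Nap.of_sym m⟩

theorem ads : ADS := fun _ _ _ _ _ _ _ _ _ _ hk h => h.gf hk

end Crest.Agent.N218.Pc
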