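import Crest.Agent.N218.Pc.Gen

/-! Row 218, PIECE (helper69): the abstract steps of the chain. -/

set_option autoImplicit false
set_option linter.unusedSectionVars false
open Set Filter Topology
open scoped RealInnerProductSpace ContDiff

noncomputable section

namespace Crest.Agent.N218.Pc
open Pm

section c1
variable {B B' : Type} [TopologicalSpace B] [TopologicalSpace B'] {E : Type} [NormedAddCommGroup E]
  [NormedSpace ℝ E]

/-- jointly `C¹` in the fibre variable -/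
structure C1 (F : B × E → E) : Prop where
  ct : Continuous F
  d : ∀ p : B × E, DifferentiableAt ℝ (fun y => F (p.1, y)) p.2
  dc : Continuous fun p : B × E => fderiv ℝ (fun y => F (p.1, y)) p.2

theorem C1.pull {F : B × E → E} (h : C1 F) {φ : B' → B} (hφ : Continuous φ) :
    C1 fun p : B' × E => F (φ p.1, p.2) :=
  have c : Continuous fun p : B' × E => (φ p.1, p.2) := by fun_prop
  ⟨h.ct.comp c, fun p => h.d (φ p.1, p.2), h.dc.comp c⟩

theorem C1.comp {F G : B × E → E} (h : C1 F) (h' : C1 G) : C1 fun p => F (p.1, G p) := by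
  have c : Continuous fun p : B × E => (p.1, G p) := continuous_fst.prodMk h'.ct
  refine ⟨h.ct.comp c, fun p => DifferentiableAt.comp (g := fun y => F (p.1, y))
    (f := fun y => G (p.1, y)) p.2 (h.d (p.1, G p)) (h'.d p), ?_⟩
  refine ((h.dc.comp c).clm_comp h'.dc).congr fun p => ?_
  exact (fderiv_comp (g := fun y => F (p.1, y)) (f := fun y => G (p.1, y)) p.2 (h.d (p.1, G p))
    (h'.d p)).symm

theorem C1.add {F G : B × E → E} (h : C1 F) (h' : C1 G) : C1 fun p => F p + G p :=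
  ⟨h.ct.add h'.ct, fun p => (h.d p).add (h'.d p),
    (h.dc.add h'.dc).congr fun p => (fderiv_fun_add (h.d p) (h'.d p)).symm⟩

theorem C1.sub {F G : B × E → E} (h : C1 F) (h' : C1 G) : C1 fun p => F p - G p :=
  ⟨h.ct.sub h'.ct, fun p => (h.d p).sub (h'.d p),
    (h.dc.sub h'.dc).congr fun p => (fderiv_fun_sub (h.d p) (h'.d p)).symm⟩

theorem fderiv_slice {P : Type} [NormedAddCommGroup P] [NormedSpace ℝ P] {F : P × E → E}
    {p : P × E} (h : DifferentiableAt ℝ F p) : HasFDerivAt (fun y => F (p.1, y))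
      ((fderiv ℝ F p).comp (ContinuousLinearMap.inr ℝ P E)) p.2 :=
  h.hasFDerivAt.comp p.2 (hasFDerivAt_prodMk_right p.1 p.2)

/-- smooth maps are `C1` -/
theorem C1.of_smooth {P : Type} [NormedAddCommGroup P] [NormedSpace ℝ P] {F : P × E → E}
    (h : ContDiff ℝ ∞ F) : C1 F :=
  have d := h.differentiable (by simp)
  ⟨h.continuous, fun p => (fderiv_slice (d p)).differentiableAt,
    ((h.continuous_fderiv (by simp)).clm_comp continuous_const).congr
      fun p => (fderiv_slice (d p)).fderiv.symm⟩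

/-- local criterion: near every point `F` is the pull-back of a smooth map -/
theorem C1.of_loc {P : Type} [NormedAddCommGroup P] [NormedSpace ℝ P] {F : B × E → E} {φ : B → P}
    (hφ : Continuous φ) (h : ∀ b, ∃ G : P × E → E, (∀ y, ContDiffAt ℝ ∞ G (φ b, y)) ∧
      ∀ᶠ b' in 𝓝 b, ∀ y, F (b', y) = G (φ b', y)) : C1 F := by
  have c : Continuous fun p : B × E => (φ p.1, p.2) := by fun_prop
  refine ⟨continuous_iff_continuousAt.2 fun p => ?_, fun p => ?_,
    continuous_iff_continuousAt.2 fun p => ?_⟩ <;> obtain ⟨G, h1, h2⟩ := h p.1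
  · refine ((h1 p.2).continuousAt.comp_of_eq c.continuousAt rfl).congr ?_
    filter_upwards [continuousAt_fst.eventually h2] with q hq using (hq q.2).symm
  · rw [funext h2.self_of_nhds]
    exact (fderiv_slice (p := (φ p.1, p.2)) ((h1 p.2).differentiableAt (by simp))).differentiableAt
  · have a := (((h1 p.2).continuousAt_fderiv (by simp)).comp_of_eq c.continuousAt rfl).clm_comp
      (continuousAt_const (y := ContinuousLinearMap.inr ℝ P E))
    refine a.congr ?_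
    filter_upwards [continuousAt_fst.eventually h2, c.continuousAt.eventually
      (((h1 p.2).of_le (m := 1) (by simp)).eventually (by simp))] with q hq hd
    rw [funext hq]
    exact (fderiv_slice (p := (φ q.1, q.2)) (hd.differentiableAt one_ne_zero)).fderiv.symm

/-- weak retractions onto `{ρ ≤ 0}` with a collar of width `w` -/
structure WR (ρ : B × E → ℝ) (w : ℝ) (r : B × E → E) : Prop where
  ρc : Continuous ρ
  w0 : 0 < w
  ct : Continuous r
  bd : ∃ C, ∀ p, ‖r p‖ ≤ C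
  id : ∀ p, ρ p ≤ 0 → r p = p.2
  lt : ∀ p, 0 < ρ p → ρ p ≤ w → ρ (p.1, r p) < ρ p
  inn : ∀ p, ρ (p.1, r p) ≤ w / 2

/-- `C¹` retractions onto a regular domain -/
structure RT (ρ : B × E → ℝ) (w : ℝ) (r : B × E → E) : Prop extends WR ρ w r where
  c1 : C1 r
  cl : ∀ p, ρ p ≤ 0 → p.2 ∈ closure {y | ρ (p.1, y) < 0}

theorem WR.pull {ρ : B × E → ℝ} {w : ℝ} {r : B × E → E} (h : WR ρ w r) {φ : B' → B}
    (hφ : Continuous φ) : WR (fun p => ρ (φ p.1, p.2)) w fun p => r (φ p.1, p.2) :=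
  have c : Continuous fun p : B' × E => (φ p.1, p.2) := by fun_prop
  ⟨h.ρc.comp c, h.w0, h.ct.comp c, h.bd.imp fun _ a _ => a _, fun _ => h.id _, fun _ => h.lt _,
    fun p => h.inn (φ p.1, p.2)⟩

theorem RT.pull {ρ : B × E → ℝ} {w : ℝ} {r : B × E → E} (h : RT ρ w r) {φ : B' → B}
    (hφ : Continuous φ) : RT (fun p => ρ (φ p.1, p.2)) w fun p => r (φ p.1, p.2) :=
  ⟨h.toWR.pull hφ, h.c1.pull hφ, fun p => h.cl (φ p.1, p.2)⟩

theorem WR.near {ρ : B × E → ℝ} {w : ℝ} {r : B × E → E} (h : WR ρ w r) {p : B × E} (hp : ρ p < 0) :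
    ∀ᶠ q in 𝓝 p, r q = q.2 :=
  (h.ρc.continuousAt.eventually_lt continuousAt_const hp).mono fun q a => h.id q a.le

theorem RT.fd {ρ : B × E → ℝ} {w : ℝ} {r : B × E → E} (h : RT ρ w r) {p : B × E} (hp : ρ p ≤ 0) :
    fderiv ℝ (fun y => r (p.1, y)) p.2 = 1 := by
  have c : Continuous fun y : E => (p.1, y) := by fun_prop
  refine closure_minimal (s := {y | ρ (p.1, y) < 0})
    (t := {y | fderiv ℝ (fun y => r (p.1, y)) y = 1}) (fun y hy => ?_)
    (isClosed_eq (h.c1.dc.comp c) continuous_const) (h.cl p hp)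
  exact ((hasFDerivAt_id y).congr_of_eventuallyEq
    (c.continuousAt.eventually (h.toWR.near (p := (p.1, y)) hy))).fderiv

variable [FiniteDimensional ℝ E]

theorem bd_comp [CompactSpace B] {D r : B × E → E} (hD : Continuous D) (h : ∃ C, ∀ p, ‖r p‖ ≤ C) :
    ∃ C, ∀ p, ‖D (p.1, r p)‖ ≤ C := by
  have : ProperSpace E := FiniteDimensional.proper ℝ _
  obtain ⟨C, h⟩ := h
  obtain ⟨C', h'⟩ := (isCompact_univ.prod (isCompact_closedBall (0 : E) C)).exists_bound_of_continuousOn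
    hD.continuousOn
  exact ⟨C', fun p => h' _ ⟨mem_univ _, mem_closedBall_zero_iff.2 (h p)⟩⟩

theorem WR.conj [CompactSpace B] {ρ : B × E → ℝ} {w : ℝ} {r D D' : B × E → E} (h : WR ρ w r)
    (hD : Continuous D) (hD' : Continuous D') (l : ∀ p : B × E, D' (p.1, D p) = p.2)
    (l' : ∀ p : B × E, D (p.1, D' p) = p.2) :
    WR (fun p => ρ (p.1, D' p)) w fun p => D (p.1, r (p.1, D' p)) :=
  have c : Continuous fun p : B × E => (p.1, D' p) := continuous_fst.prodMk hD'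
  ⟨h.ρc.comp c, h.w0, hD.comp (continuous_fst.prodMk (h.ct.comp c)),
    bd_comp hD (h.bd.imp fun _ a p => a (p.1, D' p)), fun p a => by rw [h.id _ a, l'],
    fun p a b => (congrArg (fun y => ρ (p.1, y)) (l (p.1, _))).trans_lt (h.lt (p.1, D' p) a b),
    fun p => (congrArg (fun y => ρ (p.1, y)) (l (p.1, _))).trans_le (h.inn (p.1, D' p))⟩

theorem RT.conj [CompactSpace B] {ρ : B × E → ℝ} {w : ℝ} {r D D' : B × E → E} (h : RT ρ w r)
    (hD : C1 D) (hD' : C1 D') (l : ∀ p : B × E, D' (p.1, D p) = p.2)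
    (l' : ∀ p : B × E, D (p.1, D' p) = p.2) :
    RT (fun p => ρ (p.1, D' p)) w fun p => D (p.1, r (p.1, D' p)) := by
  refine ⟨h.toWR.conj hD.ct hD'.ct l l', hD.comp (h.c1.comp hD'), fun p a => ?_⟩
  have := map_mem_closure (f := fun y => D (p.1, y)) (hD.ct.comp (by fun_prop)) (h.cl _ a)
    (t := {y | ρ (p.1, D' (p.1, y)) < 0}) fun y hy => by
      show ρ (p.1, D' (p.1, D (p.1, y))) < 0
      rw [l (p.1, y)]; exact hy
  rwa [l'] at this

/-- compose a weak retraction with an inward push of the collar -/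
theorem WR.push [CompactSpace B] {ρ : B × E → ℝ} {w : ℝ} {r κ : B × E → E} (h : WR ρ w r)
    (hc : Continuous κ) (h0 : ∀ p, ρ p ≤ 0 → κ p = p.2)
    (h1 : ∀ p, ρ p ≤ w → ρ (p.1, κ p) ≤ ρ p) : WR ρ w fun p => κ (p.1, r p) :=
  have a : ∀ p, ρ (p.1, κ (p.1, r p)) ≤ ρ (p.1, r p) := fun p =>
    h1 (p.1, r p) (by linarith [h.inn p, h.w0])
  ⟨h.ρc, h.w0, hc.comp (continuous_fst.prodMk h.ct), bd_comp hc h.bd,
    fun p b => by rw [h.id p b]; exact h0 p b, fun p b c => (a p).trans_lt (h.lt p b c),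
    fun p => (a p).trans (h.inn p)⟩
end c1

section inner
variable {B : Type} [TopologicalSpace B] [CompactSpace B] {k : ℕ} {E : Type} [NormedAddCommGroup E]
  [InnerProductSpace ℝ E] [FiniteDimensional ℝ E]

theorem cyc_le {a : Ix k → ℝ} (h : ∀ i, a i ≤ a (i - 1)) (i : Ix k) : a i = a (i - 1) := by
  have := C.cyc_eq (Equiv.addRight (1 : Ix k)) (a := a) (b := fun i => a i - a (i + 1))
    (fun i => by simpa using h (i + 1)) (fun i => by simp) (i - 1)
  rw [sub_add_cancel] at this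
  linarith

theorem eqn_zero {f : E → E} {z : V k E} (h : ∀ i, z i = f (z (i - 1))) : Eqn f 0 z :=
  fun i => by simpa using h i

/-- a step `G` after a weak retraction -/
theorem WR.ok_step {ρ : B × E → ℝ} {w : ℝ} {r G : B × E → E} (h : WR ρ w r) (hG : Continuous G)
    (cm : ∀ b, CM k fun y => G (b, y)) (mono : ∀ p, ρ (p.1, G p) ≤ max (ρ p) 0)
    (fx : ∀ p, ρ p ≤ 0 → G p = p.2 → ρ p < 0 ∨ Loc k (fun p => G (p.1, r p)) p.1 p.2) :
    (Ec k univ fun p => G (p.1, r p)).Ok := by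
  obtain ⟨C, hC⟩ := bd_comp hG h.bd
  refine ec_ok_bd (hG.comp (continuous_fst.prodMk h.ct)) hC fun b z hz => ?_
  have w0 := h.w0
  have a : ∀ i, ρ (b, z i) ≤ max (ρ (b, r (b, z (i - 1)))) 0 := fun i => by
    rw [hz i]; exact mono (b, r (b, z (i - 1)))
  have a1 : ∀ i, ρ (b, z i) ≤ w := fun i =>
    (a i).trans (max_le (by linarith [h.inn (b, z (i - 1))]) w0.le)
  have a2 : ∀ i, max (ρ (b, z i)) 0 ≤ max (ρ (b, z (i - 1))) 0 := fun i => by
    refine max_le ((a i).trans (max_le_max ?_ le_rfl)) (le_max_right _ _)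
    rcases le_or_gt (ρ (b, z (i - 1))) 0 with c | c
    · rw [h.id _ c]
    · exact (h.lt _ c (a1 _)).le
  have a3 : ∀ i, ρ (b, z i) ≤ 0 := fun i => le_of_not_gt fun c => by
    have e := cyc_le a2 (i + 1)
    have t := a (i + 1)
    rw [add_sub_cancel_right] at e t
    rw [max_eq_left c.le] at e
    have := max_lt (h.lt _ c (a1 i)) c
    exact absurd (max_lt (t.trans_lt this) c) (by rw [e]; exact lt_irrefl _)
  have e := cm_const (cm b) (eqn_zero (f := fun y => G (b, r (b, y))) hz) le_rfl fun i => by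
    rw [h.id _ (a3 i)]
  refine ⟨z 0, e, ?_⟩
  have f0 : G (b, z 0) = z 0 := by
    have := hz 0
    rw [h.id _ (a3 _), congrFun e (0 - 1)] at this
    exact this.symm
  refine (fx (b, z 0) (a3 0) f0).elim (fun c => Loc.of_cm cm ?_) fun x => x
  exact (h.near c).mono fun q hq => by rw [hq]

theorem cm_id : CM k fun y : E => y := CM.clm (L := 1) (fun _ _ => rfl) fun _ => real_inner_self_nonneg

theorem RT.loc {ρ : B × E → ℝ} {w : ℝ} {r G : B × E → E} (h : RT ρ w r) (hk : 1 ≤ k) (hG : C1 G)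
    {p : B × E} (hp : ρ p ≤ 0) (e : ∀ y, G (p.1, y) = y) :
    Loc k (fun p => G (p.1, r p)) p.1 p.2 := by
  have c := hG.comp h.c1
  refine Loc.of_c1 hk c.dc.continuousAt (Eventually.of_forall fun q => (c.d q).hasFDerivAt) ?_
  simp only [e]
  rw [h.fd hp]; exact nn_one

theorem RT.ok {ρ : B × E → ℝ} {w : ℝ} {r : B × E → E} (h : RT ρ w r) (hk : 1 ≤ k) :
    (Ec k univ r).Ok :=
  h.toWR.ok_step (G := fun p => p.2) continuous_snd (fun _ => cm_id) (fun _ => le_max_left _ _)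
    fun _ a _ => .inr (h.loc hk (G := fun p => p.2) ⟨continuous_snd, fun _ => differentiableAt_id,
      by simpa using continuous_const⟩ a fun _ => rfl)

theorem CM.conj {G : E → E} (h : CM k G) {L : E →L[ℝ] E} (hL : ∀ x y, ⟪L x, y⟫ = ⟪x, L y⟫) :
    CM k fun y => L (G (L y)) := fun z => by
  simpa only [hL, map_sub] using h fun i => L (z i)

/-- scale the complement of `p` by `1 - t θ` -/
def kl (p : E →L[ℝ] E) (θ : ℝ → ℝ) (t : ℝ) (y : E) : E := y - (t * θ ‖p y‖) • (y - p y)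

theorem kl_cont (p : E →L[ℝ] E) {θ : ℝ → ℝ} (hθ : Continuous θ) {T : Type} [TopologicalSpace T]
    {t : T → ℝ} {y : T → E} (ht : Continuous t) (hy : Continuous y) :
    Continuous fun x => kl p θ (t x) (y x) := by unfold kl; fun_prop

theorem kl_fix {p : E →L[ℝ] E} {θ : ℝ → ℝ} {t : ℝ} {y : E} (h : p y = y) : kl p θ t y = y := by
  simp [kl, h]

/-- a gradient step on `K = {g ≤ 0}` whose fixed points are `0` and a rim in the range of `p` -/
structure GK (p : E →L[ℝ] E) (θ : ℝ → ℝ) (a₀ a₁ : ℝ) (g : B × E → ℝ) (G : B × E → E) : Prop where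
  sy : ∀ x y, ⟪p x, y⟫ = ⟪x, p y⟫
  θc : Continuous θ
  a0 : 0 < a₀
  θ0 : ∀ t, t ≤ a₀ → θ t = 0
  θ1 : ∀ t, a₁ ≤ t → θ t = 1
  gc : Continuous g
  Gc : Continuous G
  cm : ∀ k b, CM k fun y => G (b, y)
  le : ∀ q, g q ≤ 0 → g (q.1, G q) ≤ g q
  eq : ∀ q, g q ≤ 0 → g (q.1, G q) = g q → G q = q.2
  fx : ∀ q, g q ≤ 0 → G q = q.2 → g q < 0 ∧ p q.2 = q.2 ∧ (q.2 = 0 ∨ a₁ < ‖q.2‖)
  kl : ∀ t ∈ Icc (0 : ℝ) 1, ∀ q, g q ≤ 0 → g (q.1, kl p θ t q.2) ≤ g q

theorem GK.pull {B' : Type} [TopologicalSpace B'] {p : E →L[ℝ] E} {θ : ℝ → ℝ} {a₀ a₁ : ℝ}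
    {g : B × E → ℝ} {G : B × E → E} (h : GK p θ a₀ a₁ g G) {φ : B' → B} (hφ : Continuous φ) :
    GK p θ a₀ a₁ (fun q => g (φ q.1, q.2)) fun q => G (φ q.1, q.2) :=
  have c : Continuous fun q : B' × E => (φ q.1, q.2) := by fun_prop
  ⟨h.sy, h.θc, h.a0, h.θ0, h.θ1, h.gc.comp c, h.Gc.comp c, fun k b => h.cm k (φ b),
    fun q => h.le (φ q.1, q.2), fun q => h.eq (φ q.1, q.2), fun q => h.fx (φ q.1, q.2),
    fun t a q => h.kl t a (φ q.1, q.2)⟩

/-- periodic orbits of `A G R A` -/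
theorem GK.per {p : E →L[ℝ] E} {θ : ℝ → ℝ} {a₀ a₁ : ℝ} {g : B × E → ℝ} {G R : B × E → E}
    (h : GK p θ a₀ a₁ g G) (hK : ∀ q, g (q.1, R q) ≤ 0) (hid : ∀ q, g q ≤ 0 → R q = q.2)
    {t : B → ℝ} (tc : Continuous t) (ht : ∀ b, t b ∈ Icc (0 : ℝ) 1) {F : B × E → E}
    (hF : ∀ q, F q = Pc.kl p θ (t q.1) (G (q.1, R (q.1, Pc.kl p θ (t q.1) q.2)))) (b : B)
    (z : V k E) (hz : ∀ i, z i = F (b, z (i - 1))) : ∃ y, z = (fun _ => y) ∧ Loc k F b y := by
  simp only [hF] at hz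
  set A := Pc.kl p θ (t b)
  have k0 : ∀ y, g (b, y) ≤ 0 → g (b, A y) ≤ g (b, y) := fun y => h.kl _ (ht b) (b, y)
  have k1 : ∀ y, g (b, G (b, R (b, y))) ≤ 0 := fun y => (h.le (b, _) (hK (b, y))).trans (hK (b, y))
  have k2 : ∀ i, g (b, z i) ≤ 0 := fun i => by rw [hz i]; exact (k0 _ (k1 _)).trans (k1 _)
  have k3 : ∀ i, g (b, A (z i)) ≤ 0 := fun i => (k0 _ (k2 i)).trans (k2 i)
  have hz' : ∀ i, z i = A (G (b, A (z (i - 1)))) := fun i => by rw [hz i, hid (b, _) (k3 _)]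
  have k4 : ∀ i, g (b, z i) ≤ g (b, G (b, A (z (i - 1)))) := fun i => by
    conv_lhs => rw [hz' i]
    exact k0 _ ((h.le (b, _) (k3 _)).trans (k3 _))
  have k5 := cyc_le (a := fun i => g (b, z i)) fun i =>
    (k4 i).trans ((h.le (b, _) (k3 _)).trans (k0 _ (k2 _)))
  have k6 : ∀ i, G (b, A (z (i - 1))) = A (z (i - 1)) := fun i => h.eq (b, _) (k3 _)
    (le_antisymm (h.le (b, _) (k3 _)) ((k0 _ (k2 _)).trans ((k5 i).ge.trans (k4 i))))
  have k7 : ∀ i, z i = A (z (i - 1)) := fun i => by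
    rw [hz' i, k6 i]; exact kl_fix (h.fx (b, _) (k3 _) (k6 i)).2.1
  have k8 : ∀ i, G (b, z i) = z i := fun i => by rw [k7 i]; exact k6 i
  have k9 : ∀ i, z i = z (i - 1) := fun i => (k7 i).trans (kl_fix (h.fx (b, _) (k2 _) (k8 _)).2.1)
  have e := cm_const cm_id (eqn_zero (f := fun y => y) k9) le_rfl fun _ => rfl
  refine ⟨z 0, e, ?_⟩
  obtain ⟨f1, f2, f3⟩ := h.fx (b, z 0) (k2 0) (k8 0)
  have cA : Continuous fun q : B × E => (q.1, Pc.kl p θ (t q.1) q.2) :=
    continuous_fst.prodMk (kl_cont p h.θc (by fun_prop) continuous_snd)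
  have n1 : ∀ᶠ q : B × E in 𝓝 (b, z 0), g (q.1, Pc.kl p θ (t q.1) q.2) < 0 :=
    (h.gc.comp cA).continuousAt.eventually_lt continuousAt_const (by
      simpa only [Function.comp, kl_fix f2] using f1)
  have c1 : Continuous fun q : B × E => ‖p q.2‖ := by fun_prop
  have c2 : Continuous fun q : B × E => ‖p (G (q.1, Pc.kl p θ (t q.1) q.2))‖ :=
    (p.continuous.comp (h.Gc.comp cA)).norm
  have v2 : ‖p (G (b, Pc.kl p θ (t b) (z 0)))‖ = ‖z 0‖ := by
    rw [kl_fix (show p (z 0) = z 0 from f2), k8, show p (z 0) = z 0 from f2]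
  have v1 : ‖p (z 0)‖ = ‖z 0‖ := congrArg norm f2
  rcases f3 with f3 | f3
  · have n0 : ‖z 0‖ < a₀ := by rw [show z 0 = 0 from f3, norm_zero]; exact h.a0
    refine Loc.of_cm (h.cm k) ?_
    filter_upwards [n1, c1.continuousAt.eventually_lt continuousAt_const (v1.trans_lt n0),
      c2.continuousAt.eventually_lt continuousAt_const (v2.trans_lt n0)] with q a c d
    rw [hF, hid (q.1, _) a.le, Pc.kl, h.θ0 _ d.le, Pc.kl, h.θ0 _ c.le]
    simp
  · refine Loc.of_cm (G := fun q => (1 - t q.1 • (1 - p) : E →L[ℝ] E)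
      (G (q.1, (1 - t q.1 • (1 - p) : E →L[ℝ] E) q.2)))
      (fun b => (h.cm k b).conj (L := 1 - t b • (1 - p)) fun x y => by
        simp [inner_sub_left, inner_sub_right, inner_smul_left, inner_smul_right, h.sy]) ?_
    filter_upwards [n1, continuousAt_const.eventually_lt c1.continuousAt (f3.trans_eq v1.symm),
      continuousAt_const.eventually_lt c2.continuousAt (f3.trans_eq v2.symm)] with q a c d
    rw [hF, hid (q.1, _) a.le, Pc.kl, h.θ1 _ d.le, Pc.kl, h.θ1 _ c.le]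
    simp

theorem GK.ok {p : E →L[ℝ] E} {θ : ℝ → ℝ} {a₀ a₁ : ℝ} {g : B × E → ℝ} {G R : B × E → E}
    (h : GK p θ a₀ a₁ g G) (Rc : Continuous R) (Rb : ∃ C, ∀ q, ‖R q‖ ≤ C)
    (hK : ∀ q, g (q.1, R q) ≤ 0) (hid : ∀ q, g q ≤ 0 → R q = q.2)
    {t : B → ℝ} (tc : Continuous t) (ht : ∀ b, t b ∈ Icc (0 : ℝ) 1) {F : B × E → E}
    (hF : ∀ q, F q = Pc.kl p θ (t q.1) (G (q.1, R (q.1, Pc.kl p θ (t q.1) q.2)))) :
    Continuous F ∧ (∃ C, ∀ q, ‖F q‖ ≤ C) ∧ (Ec k univ F).Ok := by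
  have cA : Continuous fun q : B × E => Pc.kl p θ (t q.1) q.2 :=
    kl_cont p h.θc (by fun_prop) continuous_snd
  have cB : Continuous fun q : B × E => Pc.kl p θ (t q.1) (G q) := kl_cont p h.θc (by fun_prop) h.Gc
  have c : Continuous F := (cB.comp (continuous_fst.prodMk (Rc.comp (continuous_fst.prodMk cA)))).congr
    fun q => (hF q).symm
  obtain ⟨C, hC⟩ := bd_comp cB (r := fun q => R (q.1, Pc.kl p θ (t q.1) q.2))
    (Rb.imp fun _ a _ => a _)
  have hC' : ∀ q, ‖F q‖ ≤ C := fun q => by rw [hF]; exact hC q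
  exact ⟨c, ⟨C, hC'⟩, ec_ok_bd c hC' (h.per hK hid tc ht hF)⟩

theorem norm_le_of {z g : V k E} {s C : ℝ} (s0 : 0 ≤ s) (e : z + s • mn z = g)
    (hC : ∀ i, ‖g i‖ ≤ C) : ‖z‖ ≤ 3 * C := by
  have C0 : 0 ≤ C := (norm_nonneg _).trans (hC 0)
  have n : ‖z + s • mn z‖ ≤ C := e ▸ (pi_norm_le_iff_of_nonneg C0).2 hC
  have a := (norm_mn _).trans n
  rw [mn_add, mn_smul, mn_mn, show mn z + s • mn z = (1 + s) • mn z by module, norm_smul,
    Real.norm_of_nonneg (by positivity)] at a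
  have b := norm_sub_le (z + s • mn z) (s • mn z)
  rw [add_sub_cancel_right, norm_smul, Real.norm_of_nonneg s0] at b
  nlinarith [norm_nonneg (mn z)]

/-- **removing the rim**: `F` is a bounded perturbation, supported in `‖p y‖ < a`, of cyclically
monotone maps `G` into the range of `p` that keep `a ≤ ‖p y‖` -/
theorem ok_rim {p : E →L[ℝ] E} {F G : B × E → E} {a C : ℝ} (hF : Continuous F)
    (pn : ∀ y, ‖p y‖ ≤ ‖y‖) (cm : ∀ b, CM k fun y => G (b, y)) (pG : ∀ q, p (G q) = G q)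
    (bd : ∀ q, ‖F q - G q‖ ≤ C) (out : ∀ q : B × E, a ≤ ‖p q.2‖ → F q = G q ∧ a < ‖G q‖)
    (inn : ∀ b (z : V k E), (∀ i, ‖p (z i)‖ < a) → (∀ i, z i = F (b, z (i - 1))) →
      ∃ y, z = (fun _ => y) ∧ Loc k F b y) : (Ec k univ F).Ok := by
  have : ProperSpace (V k E) := FiniteDimensional.proper ℝ _
  refine ec_ok hF (isCompact_univ.prod (isCompact_closedBall 0
    (|a| + 2 ^ (k + 1) * ((2 ^ (k + 1) + 1) * C) + 3 * (2 * C)))) (fun b s z s0 m h => ?_)
    fun x _ h => ?_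
  · have C0 : 0 ≤ C := (norm_nonneg _).trans (bd (b, 0))
    obtain ⟨j, hj⟩ : ∃ j, ‖p (z j)‖ < a := by
      by_contra! n
      exact m (by rw [cm_const (cm b) h s0.le fun i => (out (b, z i) (n i)).1, mn_const])
    have r : ‖fun i => z i - p (z i)‖ ≤ 3 * (2 * C) := norm_le_of s0.le
      (g := fun i => (1 - p : E →L[ℝ] E) (F (b, z (i - 1)) - G (b, z (i - 1)))) (funext fun i => by
        rw [map_sub, ← show _ = F (b, _) from h i]
        simp [pG, mn, smul_sub]; abel) fun i =>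
      (norm_sub_le _ _).trans ((add_le_add (bd (b, z (i - 1))) ((pn _).trans
        (bd (b, z (i - 1))))).trans_eq (two_mul C).symm)
    refine ⟨mem_univ _, mem_closedBall_zero_iff.2 ((pi_norm_le_iff_of_nonneg (by positivity)).2
      fun i => ?_)⟩
    have a1 := (pn _).trans (cm_bound (cm b) h s0.le (fun i => bd (b, z i)) i j)
    rw [map_sub] at a1
    have a2 := (norm_le_pi_norm (fun i => z i - p (z i)) i).trans r
    linarith [norm_le_norm_sub_add (p (z i)) (p (z j)), norm_le_norm_sub_add (z i) (p (z i)),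
      le_abs_self a]
  · have hz : ∀ i, x.2 i = F (x.1, x.2 (i - 1)) := fun i => by simpa using h i
    by_cases n : ∀ i, ‖p (x.2 i)‖ < a
    · exact inn _ _ n hz
    push Not at n
    obtain ⟨j, hj⟩ := n
    have st : ∀ i, a ≤ ‖p (x.2 (i - 1))‖ → a < ‖p (x.2 i)‖ := fun i c => by
      rw [hz i, (out (x.1, _) c).1, pG]; exact (out (x.1, _) c).2
    have al : ∀ n : ℕ, a ≤ ‖p (x.2 (j + n))‖ := fun n => by
      induction n with
      | zero => simpa using hj
      | succ n ih => exact (st _ (by push_cast; rwa [← add_assoc, add_sub_cancel_right])).le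
    have al' : ∀ i, a ≤ ‖p (x.2 i)‖ := fun i => by simpa using al (i - j).val
    refine ⟨_, cm_const (cm x.1) h le_rfl fun i => (out (x.1, _) (al' i)).1, Loc.of_cm cm ?_⟩
    exact (continuousAt_const.eventually_lt (by fun_prop : Continuous
      fun q : B × E => ‖p q.2‖).continuousAt (st 0 (al' _))).mono fun q c => (out q c.le).1
end inner

end Crest.Agent.N218.Pc
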