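import Crest.Agent.N218.Pc.Defs
import Crest.Agent.N218.Pc.Ch
import Crest.Agent.N218.P.Isop
import Crest.Agent.N218.P.Path
import Crest.Agent.N218.P.Crit
import Crest.Agent.N218.P.Bo
import Crest.Agent.N218.P.Kit

/-! Row 218, PIECE (helper69): leaf CNJ, conjugation along the isotopy. -/

set_option autoImplicit false
set_option linter.unusedSectionVars false
open Set Filter Topology
open scoped ContDiff RealInnerProductSpace

noncomputable section

namespace Crest.Agent.N218.Pc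
open P Sk

namespace Cnj
section sd
variable {T T' V : Type} [TopologicalSpace T] [TopologicalSpace T'] [NormedAddCommGroup V]
  [NormedSpace ℝ V]

theorem sd_comp {P Q : T × V → V} {M N : V →L[ℝ] V} {x : T × V} (hP : Ad.Sd P M (x.1, Q x))
    (hQ : Ad.Sd Q N x) (c : Continuous Q) : Ad.Sd (fun y => P (y.1, Q y)) (M.comp N) x := by
  intro ε e
  have K : 0 < ‖N‖ + 1 + ‖M‖ := by positivity
  have t : Tendsto (fun y : T × V × V => (y.1, Q (y.1, y.2.1), Q (y.1, y.2.2)))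
      (𝓝 (x.1, x.2, x.2)) (𝓝 (x.1, Q x, Q x)) := Continuous.tendsto' (by fun_prop) _ _ rfl
  obtain ⟨δ, d0, d1, d2⟩ : ∃ δ : ℝ, 0 < δ ∧ δ ≤ 1 ∧ δ * (‖N‖ + 1 + ‖M‖) ≤ ε :=
    ⟨min 1 (ε / (‖N‖ + 1 + ‖M‖)), by positivity, min_le_left _ _,
      (le_div_iff₀ K).1 (min_le_right _ _)⟩
  filter_upwards [t.eventually (hP δ d0), hQ δ d0] with y a b
  set u := Q (y.1, y.2.1) - Q (y.1, y.2.2)
  set v := y.2.1 - y.2.2
  have a1 : ‖u‖ ≤ δ * ‖v‖ + ‖N‖ * ‖v‖ :=
    (norm_le_norm_sub_add u (N v)).trans (add_le_add b (N.le_opNorm v))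
  have a2 : ‖M (u - N v)‖ ≤ ‖M‖ * (δ * ‖v‖) :=
    (M.le_opNorm _).trans (mul_le_mul_of_nonneg_left b (norm_nonneg _))
  have a3 := (norm_add_le _ _).trans (add_le_add a a2)
  rw [map_sub M u, sub_add_sub_cancel] at a3
  refine a3.trans ?_
  have v0 := norm_nonneg v
  have := mul_le_mul_of_nonneg_left a1 d0.le
  have := mul_le_mul_of_nonneg_right d2 v0
  have := mul_le_mul_of_nonneg_right d1 (mul_nonneg d0.le v0)
  nlinarith

theorem sd_pull {P : T × V → V} {M : V →L[ℝ] V} {φ : T' → T} (hφ : Continuous φ) {x : T' × V}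
    (h : Ad.Sd P M (φ x.1, x.2)) : Ad.Sd (fun y : T' × V => P (φ y.1, y.2)) M x := fun ε e => by
  have t : Tendsto (fun y : T' × V × V => (φ y.1, y.2)) (𝓝 (x.1, x.2, x.2)) (𝓝 (φ x.1, x.2, x.2)) :=
    Continuous.tendsto' (by fun_prop) _ _ rfl
  filter_upwards [t.eventually (h ε e)] with y a using a

theorem sd_c1 [FiniteDimensional ℝ V] {D : T × V → V} (h : C1 D) (x : T × V) :
    Ad.Sd D (fderiv ℝ (fun y => D (x.1, y)) x.2) x :=
  Ad.Sd.of_c1 h.dc.continuousAt (.of_forall fun y => (h.d y).hasFDerivAt)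

theorem sd_conj [FiniteDimensional ℝ V] {f D D' : T × V → V} (hD : C1 D) (hD' : C1 D')
    (fc : Continuous f) (l' : ∀ p : T × V, D (p.1, D' p) = p.2) {x : T × V}
    (e : f (x.1, D' x) = D' x) (h : Ad.Sd f 1 (x.1, D' x)) :
    Ad.Sd (fun y => D (y.1, f (y.1, D' y))) 1 x := by
  have a := sd_comp h (sd_c1 hD' x) hD'.ct
  have b := sd_comp (P := D) (Q := fun y => f (y.1, D' y)) (x := x)
    (by rw [e]; exact sd_c1 hD (x.1, D' x)) a (fc.comp (continuous_fst.prodMk hD'.ct))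
  have c := (HasFDerivAt.comp (g := fun y => D (x.1, y)) (f := fun y => D' (x.1, y)) x.2
    (hD.d (x.1, D' x)).hasFDerivAt (hD'.d x).hasFDerivAt).unique
    ((hasFDerivAt_id x.2).congr_of_eventuallyEq (.of_forall fun y => l' (x.1, y)))
  exact (show _ = (1 : V →L[ℝ] V) from c) ▸ b
end sd

theorem per {ρ : S × Y → ℝ} {f : S × Y → Y} {w : ℝ} (h : Rt ρ f w) {σ : S} {y : Y} {N : ℕ}
    (hN : 0 < N) (e : (fun y => f (σ, y))^[N] y = y) : ρ (σ, y) ≤ 0 := by
  obtain ⟨n, rfl⟩ := Nat.exists_eq_succ_of_ne_zero hN.ne'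
  have i : ∀ n, ρ (σ, (fun y => f (σ, y))^[n + 1] y) ≤ w := fun n => by
    rw [Function.iterate_succ_apply']; exact h.inn (σ, _)
  by_contra! c
  have k : ∀ n, ρ (σ, (fun y => f (σ, y))^[n + 1] y) < ρ (σ, y) := fun m => by
    induction m with
    | zero => exact h.lt (σ, y) c (e ▸ i n)
    | succ m ih =>
      rw [Function.iterate_succ_apply']
      rcases le_or_gt (ρ (σ, (fun y => f (σ, y))^[m + 1] y)) 0 with d | d
      · rw [h.id _ d]; exact ih
      · exact (h.lt _ d (i m)).trans ih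
  exact (k n).ne (by rw [← Nat.succ_eq_add_one, e])

theorem key {u v a b w c : ℝ} (e0 : a = smin (3 / 4) u) (h1 : |a| ≤ w → b = a) (h2 : w < a → w < b)
    (h3 : a < -w → b < -w) (h4 : b ≤ 1 / 2 ∨ v ≤ 1 / 2 → b = v) (c0 : 0 ≤ c)
    (c1 : c ≤ min w (1 / 4)) : u ≤ c ↔ v ≤ c := by
  have c2 := c1.trans (min_le_left _ _)
  have c3 := c1.trans (min_le_right _ _)
  have k : a ≤ 1 / 4 ∨ u ≤ 1 / 4 → a = u := fun d => by
    rcases le_or_gt (u + 1 / 1000) (3 / 4) with p | p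
    · rw [e0, smin_right p]
    · have := min_le_smin (3 / 4) u
      rw [← e0] at this
      rcases min_cases (3 / 4) u with q | q <;> rcases d with d | d <;> linarith [q.1]
  rcases lt_or_ge a (-w) with p | p
  · have := h3 p
    have := h4 (.inl (by linarith))
    have := k (.inl (by linarith))
    exact iff_of_true (by linarith) (by linarith)
  rcases le_or_gt a w with q | q
  · have := h1 (abs_le.2 ⟨p, q⟩)
    refine ⟨fun d => ?_, fun d => ?_⟩
    · have := k (.inr (by linarith))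
      have := h4 (.inl (by linarith))
      linarith
    · have := h4 (.inr (by linarith))
      have := k (.inl (by linarith))
      linarith
  · have := h2 q
    refine iff_of_false (fun d => ?_) fun d => ?_
    · have := k (.inr (by linarith))
      linarith
    · have := h4 (.inr (by linarith))
      linarith

theorem lb_ct (s : ℝ) : Continuous fun σ : S => (lb s σ).1 := by
  simp only [lb, lab]; fun_prop

theorem rl_lb (s : ℝ) {σ σ' : S} {c : ℂ} (h : Rl σ σ' c) :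
    ‖c‖ = 1 ∧ (lb s σ').1 = c * (lb s σ).1 := by
  obtain ⟨t, t', a, b, rfl⟩ := h
  refine ⟨by rw [norm_mul, t.norm_coe, t'.norm_coe, one_mul], ?_⟩
  simp only [lb, lab, a, b, PiLp.smul_apply, smul_eq_mul]; ring

/-- an equivariant isotopy -/
structure Iso (D D' : (S × unitInterval) × Y → Y) : Prop where
  c : C1 D
  c' : C1 D'
  l : ∀ b y, D' (b, D (b, y)) = y
  l' : ∀ b y, D (b, D' (b, y)) = y
  ev : ∀ t σ σ' c η, Rl σ σ' c → D ((σ', t), act c η) = act c (D ((σ, t), η))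
  d0 : ∀ σ y, D ((σ, 0), y) = y

/-- the conjugate -/
def cj (D D' : (S × unitInterval) × Y → Y) (f : S × Y → Y) (p : (S × unitInterval) × Y) : Y :=
  D (p.1, f (p.1.1, D' p))

variable {ρ ρ' : S × Y → ℝ} {f : S × Y → Y} {w : ℝ} {D D' : (S × unitInterval) × Y → Y}

theorem cj_ct (h : Rt ρ f w) (i : Iso D D') : Continuous (cj D D' f) :=
  i.c.ct.comp (continuous_fst.prodMk (h.ct.comp (continuous_fst.fst.prodMk i.c'.ct)))

theorem cj_bd (h : Rt ρ f w) (i : Iso D D') : ∃ C, ∀ p, ‖cj D D' f p‖ ≤ C := by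
  obtain ⟨C, hC⟩ := h.bd
  obtain ⟨C', hC'⟩ := bd_comp (B := S × unitInterval) (E := Y) (D := D) i.c.ct
    (r := fun p => f (p.1.1, D' p)) ⟨C, fun p => hC (p.1.1, D' p)⟩
  exact ⟨C', fun p => hC' p⟩

theorem cj_sd (h : Rt ρ f w) (i : Iso D D') {b : S × unitInterval} {y : Y}
    (a : ρ (b.1, D' (b, y)) ≤ 0) : Ad.Sd (cj D D' f) 1 (b, y) := by
  have c : Continuous fun p : (S × unitInterval) × Y => f (p.1.1, p.2) :=
    h.ct.comp (continuous_fst.fst.prodMk continuous_snd)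
  have s : Ad.Sd (fun p : (S × unitInterval) × Y => f (p.1.1, p.2)) 1 (b, D' (b, y)) :=
    sd_pull (P := f) (φ := Prod.fst) continuous_fst (x := (b, D' (b, y))) (h.sd (b.1, D' (b, y)) a)
  exact sd_conj (x := (b, y)) i.c i.c' c (fun p => i.l' p.1 p.2) (h.id (b.1, D' (b, y)) a) s

theorem cj_id (h : Rt ρ f w) (i : Iso D D') {b : S × unitInterval} {y : Y}
    (a : ρ (b.1, D' (b, y)) ≤ 0) : cj D D' f (b, y) = y := by
  rw [cj, h.id _ a]; exact i.l' b y

theorem cj_per (h : Rt ρ f w) (i : Iso D D') {b : S × unitInterval} {y : Y} {N : ℕ} (n : 0 < N)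
    (e : (fun y => cj D D' f (b, y))^[N] y = y) : ρ (b.1, D' (b, y)) ≤ 0 := by
  refine per h n ?_
  have s : Function.Semiconj (fun y => D' (b, y)) (fun y => cj D D' f (b, y))
    fun y => f (b.1, y) := fun y => i.l b _
  rw [← (s.iterate_right N).eq y, e]

theorem cj_ev (h : Rt ρ f w) (i : Iso D D') (t : unitInterval) :
    Ev fun z => cj D D' f ((z.1, t), z.2) := fun σ σ' c η r => by
  have a : D' ((σ', t), act c η) = act c (D' ((σ, t), η)) := by
    have := i.ev t σ σ' c (D' ((σ, t), η)) r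
    rw [i.l'] at this
    rw [← this, i.l]
  show D ((σ', t), f (σ', D' ((σ', t), act c η))) = act c (D ((σ, t), f (σ, D' ((σ, t), η))))
  rw [a, h.eq σ σ' c _ r, i.ev t σ σ' c _ r]

theorem cj_ch (h : Rt ρ f w) (i : Iso D D') : Ch f fun z => cj D D' f ((z.1, 1), z.2) := by
  refine ⟨cj D D' f, ⟨cj_ct h i, cj_bd h i, fun b y N n e => cj_id h i (cj_per h i n e),
    fun b y e => ⟨1, fun _ _ => rfl, cj_sd h i (cj_per h i one_pos e)⟩⟩, cj_ev h i, fun z => ?_,
    fun _ => rfl⟩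
  have := i.l (z.1, 0) z.2
  rw [i.d0] at this
  show _ = D ((z.1, 0), f (z.1, D' ((z.1, 0), z.2)))
  rw [i.d0, this]

theorem cj_rt (h : Rt ρ f w) (i : Iso D D')
    (d1 : ∀ σ y c, 0 ≤ c → c ≤ w → (ρ (σ, y) ≤ c ↔ ρ' (σ, D ((σ, 1), y)) ≤ c)) :
    Rt ρ' (fun z => cj D D' f ((z.1, 1), z.2)) w := by
  have e1 : ∀ (z : S × Y) c, 0 ≤ c → c ≤ w → (ρ (z.1, D' ((z.1, 1), z.2)) ≤ c ↔ ρ' z ≤ c) :=
    fun z c a b => by rw [d1 _ _ c a b, i.l']
  have φ : Continuous fun σ : S => (σ, (1 : unitInterval)) := continuous_id.prodMk continuous_const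
  obtain ⟨C, hC⟩ := cj_bd h i
  refine ⟨h.w0, (cj_ct h i).comp ((φ.comp continuous_fst).prodMk continuous_snd), cj_ev h i 1,
    ⟨C, fun z => hC _⟩, fun z a => cj_id h i ((e1 z 0 le_rfl h.w0.le).2 a), fun z a b => ?_,
    fun z => (d1 z.1 _ w h.w0.le le_rfl).1 (h.inn (z.1, D' ((z.1, 1), z.2))),
    fun z a => sd_pull (P := cj D D' f) φ (cj_sd h i ((e1 z 0 le_rfl h.w0.le).2 a))⟩
  have a1 := (e1 z _ a.le b).2 le_rfl
  have a2 := h.lt _ (lt_of_not_ge fun c => a.not_ge ((e1 z 0 le_rfl h.w0.le).1 c)) (a1.trans b)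
  have a3 := max_lt (a2.trans_le a1) a
  exact ((d1 _ _ _ (le_max_right _ _) (a3.le.trans b)).1 (le_max_left _ _)).trans_lt a3
end Cnj

open Cnj in
theorem cnj : CNJ := fun Φ h => by
  obtain ⟨g, a, sm, o, t0, t1, rg, iv, g0, g1⟩ := path sm (crit sm) (bo_ sm) h.M h.hM h.ε⁻¹
    ((one_le_inv₀ h.ε0).2 (by linarith [h.ε1]))
  obtain ⟨β, hβ⟩ := isCompact_univ.exists_bound_of_continuousOn (lb_ct h.s).continuousOn
  obtain ⟨w, w0, D, D', s, s', l, l', d0, -, d1, ev⟩ :=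
    isop g a β sm (fun t b z c => by rw [o t b z c, o 0 b z c]) t0 t1 rg
  have φ : Continuous fun b : S × unitInterval => ((b.2 : ℝ), (lb h.s b.1).1) :=
    (continuous_subtype_val.comp continuous_snd).prodMk ((lb_ct _).comp continuous_fst)
  have as : ContDiff ℝ ∞ fun p : (ℝ × ℂ) × Y => (p.1.1, p.1.2, p.2) := by fun_prop
  have i : Iso (fun p => D (p.1.2, (lb h.s p.1.1).1, p.2))
      fun p => D' (p.1.2, (lb h.s p.1.1).1, p.2) :=
    ⟨(C1.of_smooth (s.comp as)).pull φ, (C1.of_smooth (s'.comp as)).pull φ, fun _ _ => l _ _ _,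
      fun _ _ => l' _ _ _, fun t σ σ' c η r => by
        obtain ⟨n, e⟩ := rl_lb h.s r
        dsimp only
        rw [e]; exact ev iv c t _ η n,
      fun σ y => d0 _ _ _ (.inl le_rfl)⟩
  refine ⟨min w (1 / 4), by positivity, fun v f hv hf => ⟨_, cj_ch hf i, cj_rt hf i
    fun σ y c c0 c1 => ?_⟩⟩
  obtain ⟨k1, k2, k3⟩ := d1 1 _ y (hβ σ (mem_univ _))
  exact key (g0 _ y) k1 k2 k3 (g1 _ _) c0 (c1.trans hv)

end Crest.Agent.N218.Pc
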