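import Crest.Agent.N218.Pc.Defs
import Crest.Agent.N218.En.Wrb0

/-! Row 218, block PIECE (helper21): descent. -/

set_option autoImplicit false
set_option linter.unusedVariables false
open Set Topology
open scoped RealInnerProductSpace

noncomputable section

namespace Crest.Agent.N218.Pc
open P Sk

section cm
variable {E : Type} [NormedAddCommGroup E] [NormedSpace ℝ E]

@[fun_prop] theorem cm_ct {T : Type} [TopologicalSpace T] {e : T → E} (h : Continuous e) :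
    Continuous fun t => cm (e t) := by
  unfold cm
  fun_prop (disch := intro; positivity)

theorem cm_le (e : E) : ‖cm e‖ ≤ ‖e‖ / 2 ∧ ‖cm e‖ ≤ 1 / 2 := by
  have a := le_max_left 1 ‖e‖
  have b := le_max_right 1 ‖e‖
  rw [cm, norm_smul, Real.norm_of_nonneg (by positivity), inv_mul_le_iff₀ (by positivity),
    inv_mul_le_iff₀ (by positivity)]
  constructor <;> nlinarith [norm_nonneg e]
end cm

namespace Emb
variable {n : ℕ} (B : Emb n)

theorem in_io (σ : S) (η η' : Y) : ⟪B.ι σ η, B.ι σ η'⟫ = ⟪η, η'⟫ := by rw [B.ad, B.li]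
theorem n_io (σ : S) (η : Y) : ‖B.ι σ η‖ = ‖η‖ := by
  rw [← sq_eq_sq₀ (norm_nonneg _) (norm_nonneg _), ← real_inner_self_eq_norm_sq,
    ← real_inner_self_eq_norm_sq, in_io]
theorem n_io' (σ : S) (e : Cn n) : ‖B.ι' σ e‖ ≤ ‖e‖ := by
  have a : ‖B.ι' σ e‖ ^ 2 ≤ ‖B.ι' σ e‖ * ‖e‖ := by
    rw [← real_inner_self_eq_norm_sq, ← B.ad, ← B.n_io σ]; exact real_inner_le_norm _ _
  nlinarith [norm_nonneg e, norm_nonneg (B.ι' σ e)]
theorem io'_pp (σ : S) (e : Cn n) : B.ι' σ (B.pp σ e) = 0 := by rw [pp, map_sub, B.li, sub_self]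
theorem io'_am (σ : S) (f : Y → Y) (e : Cn n) : B.ι' σ (B.am σ f e) = f (B.ι' σ e) := by
  rw [am, map_add, B.li, cm, map_smul, io'_pp, smul_zero, add_zero]
theorem pp_am (σ : S) (f : Y → Y) (e : Cn n) : B.pp σ (B.am σ f e) = cm (B.pp σ e) := by
  rw [pp, io'_am, am, add_sub_cancel_left]
theorem n_am (σ : S) (f : Y → Y) (e : Cn n) : ‖B.am σ f e‖ ≤ ‖f (B.ι' σ e)‖ + 1 / 2 :=
  (norm_add_le _ _).trans (add_le_add (B.n_io _ _).le (cm_le _).2)

theorem eq' {σ σ' : S} {c : ℂ} (h : Rl σ σ' c) (k : B.hp σ' = B.hp σ) (e : Cn n) :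
    B.ι' σ' e = act c (B.ι' σ e) := by
  obtain ⟨c', h'⟩ := B.rl σ' σ k
  refine ext_inner_left ℝ fun ξ => ?_
  rw [← B.ad, ← B.in_io σ', B.eq _ _ _ _ h, ← B.eq _ _ _ _ h', B.in_io, B.ad]

theorem ds_at {f : S × Y → Y} (hf : Ev f) (σ : S) (e : Cn n) :
    B.ds f (B.hp σ, e) = B.am σ (fun η => f (σ, η)) e := by
  obtain ⟨c, h⟩ := B.rl σ (B.lf (B.hp σ)) (B.hl _).symm
  simp only [ds, am, pp, B.eq' h (B.hl _), hf _ _ _ _ h, B.eq _ _ _ _ h]

theorem dsc_ct {Λ : Type} [TopologicalSpace Λ] {Φ : (S × Λ) × Y → Y} (h : Continuous Φ)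
    (hf : ∀ t, Ev fun z => Φ ((z.1, t), z.2)) : Continuous (B.dsc Φ) := by
  have q := ((B.hc.isProperMap.prodMap (isProperMap_id (X := Λ))).prodMap
    (isProperMap_id (X := Cn n)))
  rw [(q.isClosedMap.isQuotientMap q.continuous fun z =>
    ⟨((B.lf z.1.1, z.1.2), z.2), by simp [B.hl]⟩).continuous_iff]
  have a := B.ic
  have b := B.ic'
  refine Continuous.congr (f := fun z : (S × Λ) × Cn n => B.ι z.1.1 (Φ (z.1, B.ι' z.1.1 z.2)) +
    cm (z.2 - B.ι z.1.1 (B.ι' z.1.1 z.2))) (by fun_prop) fun z => (B.ds_at (hf z.1.2) z.1.1 z.2).symm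
end Emb

theorem dsc : DSC where
  at' n B f σ e h := B.ds_at h σ e
  ct n B f h hf := (B.dsc_ct (Φ := fun w : (S × Unit) × Y => f (w.1.1, w.2)) (by fun_prop)
    fun _ => hf).comp (f := fun z : X22 × Cn n => ((z.1, ()), z.2)) (by fun_prop)
  gf n B Φ k hk h hb hf := by
    obtain ⟨C, hC⟩ := hb
    obtain ⟨δ, d0, hd⟩ := h.adm
    refine ⟨B.dsc_ct h.ct hf, ⟨0, C + 1 / 2, LA.of_sym (fun _ _ => by simp) (fun v e => e.symm) hk,
      fun x => ?_⟩, δ, d0, fun b s z s0 a e => ?_⟩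
    · rw [ContinuousLinearMap.zero_apply, sub_zero]
      exact (B.n_am _ _ _).trans (add_le_add (hC _) le_rfl)
    let σ := B.lf b.1
    let y : Pm.V k Y := fun i => B.ι' σ (z i)
    let u : Pm.V k (Cn n) := fun i => B.pp σ (z i)
    have m : ∀ i, B.ι' σ (Pm.mn z i) = Pm.mn y i := fun i => by simp [Pm.mn, y]
    have y0 : Pm.mn y = 0 := hd (σ, b.2) s y s0 (le_trans ((pi_norm_le_iff_of_nonneg
      (norm_nonneg _)).2 fun i => by
        rw [Pi.smul_apply, ← m, ← map_smul]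
        exact (B.n_io' _ _).trans (norm_le_pi_norm (s • Pm.mn z) i)) a) fun i => by
      have := congrArg (B.ι' σ) (e i)
      rwa [map_add, map_sub, map_smul, map_zero, m, Emb.dsc, B.io'_am] at this
    have u0 : ‖u + s • Pm.mn u‖ ≤ ‖u‖ / 2 := (pi_norm_le_iff_of_nonneg (by positivity)).2 fun i => by
      have c : (u + s • Pm.mn u) i = cm (u (i - 1)) := by
        rw [← B.pp_am σ fun η => Φ ((σ, b.2), η)]
        change _ = B.pp σ (B.dsc Φ (b, z (i - 1)))
        rw [show B.dsc Φ (b, z (i - 1)) = z i + s • Pm.mn z i by rw [← sub_eq_zero, ← neg_eq_zero, ← e i]; abel]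
        simp only [u, Emb.pp, Pm.mn, Pi.add_apply, Pi.smul_apply, map_add, map_sub, map_smul]
        module
      rw [c]
      linarith [(cm_le (u (i - 1))).1, norm_le_pi_norm u (i - 1)]
    have u1 : u = 0 := norm_le_zero_iff.1 (by linarith [En.Wb.le_mn s0 u])
    funext i
    have c : ∀ i, z i = B.ι σ (y i) := fun i => sub_eq_zero.1 (congrFun u1 i)
    have := congrArg (B.ι σ) (congrFun y0 i)
    simpa [Pm.mn, ← c] using this

end Crest.Agent.N218.Pc

end
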