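import Crest.Agent.N218.Pc.Defs
import Crest.Agent.N218.P.Desc

/-! Row 218, block PIECE, leaf EMB (helper39): the bundle as a summand of a trivial bundle. -/

set_option autoImplicit false
set_option linter.unusedVariables false
open Set Topology
open scoped InnerProductSpace ComplexConjugate

noncomputable section

namespace Crest.Agent.N218.Pc
open P Sk

namespace Em

/-- the Hopf map -/
def h1 (a : S3) : S2 := ⟨hfv a.1, by
  rw [mem_sphere_zero_iff_norm, ← Hf_eq, Ds.nH, norm_eq_of_mem_sphere a, one_pow]⟩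

theorem h1_ct : Continuous h1 := Continuous.subtype_mk (by unfold hfv; fun_prop) _

theorem h1_sur (x : S2) : ∃ a, h1 a = x := by
  obtain ⟨a, h, k⟩ := Ds.ex (y := x.1) (ne_zero_of_mem_unit_sphere x)
  rw [norm_eq_of_mem_sphere x, one_smul] at k
  exact ⟨⟨a, mem_sphere_zero_iff_norm.2 h⟩, Subtype.ext k⟩

theorem h1_fib {a b : S3} (h : h1 a = h1 b) : ∃ t : Circle, (b : Cn 2) = (t : ℂ) • (a : Cn 2) := by
  have u : ∀ c : S3, Ds.Up (h1 c).1 c.1 := fun c =>
    ⟨norm_eq_of_mem_sphere c, by rw [norm_eq_of_mem_sphere (h1 c), one_smul]; rfl⟩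
  obtain ⟨c, k, k0, k1⟩ := Ds.uniq (ne_zero_of_mem_unit_sphere (h1 a)) (u a) (h ▸ u b)
  refine ⟨⟨c, mem_sphere_zero_iff_norm.2 k⟩, ?_⟩
  ext i; fin_cases i
  · exact k0
  · exact k1

/-- the product of two Hopf maps -/
def hp (σ : S) : X22 := (h1 σ.1, h1 σ.2)
/-- a section -/
def lf (x : X22) : S := ((h1_sur x.1).choose, (h1_sur x.2).choose)

theorem hp_ct : Continuous hp := (h1_ct.comp continuous_fst).prodMk (h1_ct.comp continuous_snd)
theorem hp_lf (x : X22) : hp (lf x) = x :=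
  Prod.ext (h1_sur x.1).choose_spec (h1_sur x.2).choose_spec
theorem hp_rl {σ σ' : S} (h : hp σ = hp σ') : ∃ c, Rl σ σ' c :=
  let ⟨t, a⟩ := h1_fib (congrArg Prod.fst h)
  let ⟨t', b⟩ := h1_fib (congrArg Prod.snd h)
  ⟨_, t, t', a, b, rfl⟩

/-- the index set -/
abbrev Ix : Type := Fin 5 × Fin 2 × Fin 2
/-- the dimension -/
abbrev nn : ℕ := Fintype.card Ix
/-- its enumeration -/
def en : Ix ≃ Fin nn := Fintype.equivFin Ix
/-- conjugation in one slot -/
def cj (j : Fin 5) (z : ℂ) : ℂ := if j = 2 then conj z else z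
/-- the exponents -/
def mm : Fin 5 → ℕ := ![2, 3, 1, 6, 0]
/-- the weights -/
def ww : Fin 5 → ℤ := ![-2, -3, 1, -6, 0]

theorem cj_cj (j : Fin 5) (z : ℂ) : cj j (cj j z) = z := by unfold cj; split_ifs <;> simp
theorem cj_mul (j : Fin 5) (z w : ℂ) : cj j (z * w) = cj j z * cj j w := by
  unfold cj; split_ifs <;> simp
theorem cj_add (j : Fin 5) (z w : ℂ) : cj j (z + w) = cj j z + cj j w := by
  unfold cj; split_ifs <;> simp
theorem cj_real (j : Fin 5) (r : ℝ) : cj j r = r := by unfold cj; split_ifs <;> simp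
theorem cj_zero (j : Fin 5) : cj j 0 = 0 := cj_real j 0
theorem cj_re (j : Fin 5) (z : ℂ) : (cj j z).re = z.re := by unfold cj; split_ifs <;> simp
theorem cj_conj (j : Fin 5) (z : ℂ) : cj j (conj z) = conj (cj j z) := by
  unfold cj; split_ifs <;> simp
@[fun_prop] theorem cj_ct (j : Fin 5) : Continuous (cj j) := by
  unfold cj; split_ifs <;> fun_prop

/-- the frame before normalisation -/
def rw' (j : Fin 5) (σ : S) : Cn nn := WithLp.toLp 2 fun p =>
  if (en.symm p).1 = j then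
    cj j (conj (σ.1.1 (en.symm p).2.1 * σ.2.1 (en.symm p).2.2)) ^ mm j else 0

theorem rw_ct (j : Fin 5) : Continuous (rw' j) := by
  refine (PiLp.continuous_toLp 2 _).comp (continuous_pi fun p => ?_)
  split_ifs
  · exact ((cj_ct j).comp (Complex.continuous_conj.comp (by fun_prop))).pow _
  · exact continuous_const

theorem ex_ne (a : S3) : ∃ i, a.1 i ≠ 0 := by
  by_contra h
  push Not at h
  exact ne_zero_of_mem_unit_sphere a (by ext i; exact h i)

theorem rw_ne (j : Fin 5) (σ : S) : rw' j σ ≠ 0 := fun h => by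
  obtain ⟨i, a⟩ := ex_ne σ.1
  obtain ⟨l, b⟩ := ex_ne σ.2
  have := congrArg (fun v : Cn nn => v (en (j, i, l))) h
  simp only [rw', Equiv.symm_apply_apply, if_true, PiLp.zero_apply] at this
  have k := congrArg (cj j) (pow_eq_zero_iff'.1 this).1
  rw [cj_cj, cj_zero, map_eq_zero] at k
  exact mul_ne_zero a b k

theorem rw_on {i j : Fin 5} (h : i ≠ j) (σ : S) : ⟪rw' i σ, rw' j σ⟫_ℂ = 0 := by
  rw [PiLp.inner_apply]
  refine Finset.sum_eq_zero fun p _ => ?_
  by_cases k : (en.symm p).1 = j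
  · have : (en.symm p).1 ≠ i := fun e => h (e.symm.trans k)
    simp [rw', this]
  · simp [rw', k]

theorem cj_pow (j : Fin 5) (c : Circle) : cj j (conj (c : ℂ)) ^ mm j = (c : ℂ) ^ ww j := by
  have e : conj (c : ℂ) = (c : ℂ)⁻¹ := by rw [← Circle.coe_inv_eq_conj, Circle.coe_inv]
  fin_cases j <;> simp [cj, mm, ww] <;> simp [e]

theorem rw_eq (j : Fin 5) {σ σ' : S} {t t' : Circle} (h : (σ'.1 : Cn 2) = (t : ℂ) • (σ.1 : Cn 2))
    (h' : (σ'.2 : Cn 2) = (t' : ℂ) • (σ.2 : Cn 2)) :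
    rw' j σ' = ((t * t' : Circle) : ℂ) ^ ww j • rw' j σ := by
  ext p
  simp only [rw', h, h', PiLp.smul_apply, smul_eq_mul]
  split_ifs
  · rw [← cj_pow, ← mul_pow, ← cj_mul, ← map_mul, Circle.coe_mul]
    congr 3; ring
  · rw [mul_zero]

/-- the frame -/
def fr (j : Fin 5) (σ : S) : Cn nn := ((‖rw' j σ‖⁻¹ : ℝ) : ℂ) • rw' j σ

@[fun_prop] theorem fr_ct (j : Fin 5) : Continuous (fr j) :=
  (Complex.continuous_ofReal.comp ((rw_ct j).norm.inv₀ fun σ =>
    norm_ne_zero_iff.2 (rw_ne j σ))).smul (rw_ct j)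

theorem fr_on (i j : Fin 5) (σ : S) : ⟪fr i σ, fr j σ⟫_ℂ = if i = j then 1 else 0 := by
  split_ifs with h
  · subst h
    have := norm_ne_zero_iff.2 (rw_ne i σ)
    rw [inner_self_eq_norm_sq_to_K, fr, norm_smul]
    simp [this]
  · rw [fr, fr, inner_smul_left, inner_smul_right, rw_on h, mul_zero, mul_zero]

theorem fr_eq (j : Fin 5) {σ σ' : S} {t t' : Circle} (h : (σ'.1 : Cn 2) = (t : ℂ) • (σ.1 : Cn 2))
    (h' : (σ'.2 : Cn 2) = (t' : ℂ) • (σ.2 : Cn 2)) :
    fr j σ' = ((t * t' : Circle) : ℂ) ^ ww j • fr j σ := by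
  rw [fr, fr, rw_eq j h h', norm_smul, norm_zpow, Circle.norm_coe, one_zpow, one_mul, smul_comm]

/-- the embedding -/
def io (σ : S) : Y →L[ℝ] Cn nn := LinearMap.toContinuousLinearMap
  { toFun := fun η => ∑ j, cj j (η j) • fr j σ
    map_add' := fun a b => by simp [cj_add, add_smul, Finset.sum_add_distrib]
    map_smul' := fun r a => by
      simp only [PiLp.smul_apply, Complex.real_smul, cj_mul, cj_real, RingHom.id_apply,
        Finset.smul_sum, mul_smul, Complex.coe_smul] }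
/-- its adjoint -/
def io' (σ : S) : Cn nn →L[ℝ] Y := LinearMap.toContinuousLinearMap
  { toFun := fun e => WithLp.toLp 2 fun j => cj j ⟪fr j σ, e⟫_ℂ
    map_add' := fun a b => by ext j; simp [cj_add]
    map_smul' := fun r a => by
      ext j
      simp only [RingHom.id_apply, PiLp.smul_apply, Complex.real_smul]
      rw [← Complex.coe_smul, inner_smul_right, cj_mul, cj_real] }

theorem io_ap (σ : S) (η : Y) : io σ η = ∑ j, cj j (η j) • fr j σ := rfl
theorem io'_ap (σ : S) (e : Cn nn) (j : Fin 5) : io' σ e j = cj j ⟪fr j σ, e⟫_ℂ := rfl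

/-- the projection to two members of the frame -/
def pj (κ : Fin 2 → Fin 5) (σ : S) : Cn nn →L[ℂ] Cn nn :=
  ∑ i, (innerSL ℂ (fr (κ i) σ)).smulRight (fr (κ i) σ)

theorem pj_ap (κ : Fin 2 → Fin 5) (σ : S) (e : Cn nn) :
    pj κ σ e = ∑ i, ⟪fr (κ i) σ, e⟫_ℂ • fr (κ i) σ := by simp [pj]

theorem pj_lf (κ : Fin 2 → Fin 5) (σ : S) : pj κ (lf (hp σ)) = pj κ σ := by
  obtain ⟨_, t, t', a, b, -⟩ := hp_rl (hp_lf (hp σ)).symm
  refine ContinuousLinearMap.ext fun e => ?_
  rw [pj_ap, pj_ap]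
  refine Finset.sum_congr rfl fun i _ => ?_
  rw [fr_eq _ a b, inner_smul_left, smul_smul, mul_right_comm, mul_comm (conj _),
    Complex.mul_conj, Complex.normSq_eq_norm_sq, norm_zpow, Circle.norm_coe]
  simp

theorem isPr {κ : Fin 2 → Fin 5} (hκ : Function.Injective κ) : Pm.IsPr fun x => pj κ (lf x) := by
  refine ⟨?_, fun x y => ?_, fun x y z => ?_⟩
  · have q : IsQuotientMap hp :=
      hp_ct.isClosedMap.isQuotientMap hp_ct fun x => ⟨lf x, hp_lf x⟩
    rw [q.continuous_iff]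
    refine Continuous.congr (f := pj κ) (continuous_clm_apply.2 fun e => ?_) fun σ => (pj_lf κ σ).symm
    simp only [pj_ap]
    fun_prop
  · rw [pj_ap κ _ (pj κ _ y), pj_ap]
    simp [fr_on, hκ.eq_iff]
  · simp only [pj_ap, inner_sum, sum_inner, inner_smul_right, inner_smul_left, inner_conj_symm,
      mul_comm]

theorem frm {κ : Fin 2 → Fin 5} (hκ : Function.Injective κ) :
    Frm (fun x => pj κ (lf x)) (fun i => ww (κ i)) (fun i => ww (κ i)) fun i => fr (κ i) := by
  refine ⟨fun j => fr_ct _, fun i j y => by simp [fr_on, hκ.eq_iff], fun x y a b v => ?_,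
    fun j y y' t t' a b => by rw [fr_eq _ a b, Circle.coe_mul, mul_zpow]⟩
  obtain rfl : x = hp y := Prod.ext (Subtype.ext a) (Subtype.ext b)
  rw [pj_lf, pj_ap]

theorem act_eq (c : Circle) (η : Y) (j : Fin 5) :
    cj j (act c η j) * (c : ℂ) ^ ww j = cj j (η j) := by
  have e : conj (c : ℂ) = (c : ℂ)⁻¹ := by rw [← Circle.coe_inv_eq_conj, Circle.coe_inv]
  have := c.coe_ne_zero
  fin_cases j <;> simp [cj, act, ww, e, zpow_ofNat] <;> field_simp

theorem rin {n : ℕ} (x y : Cn n) : ⟪x, y⟫_ℝ = (⟪x, y⟫_ℂ).re := by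
  rw [PiLp.inner_apply, PiLp.inner_apply, Complex.re_sum]
  rfl

end Em
open Em

theorem emb : EMB := by
  have i1 : Function.Injective (![2, 3] : Fin 2 → Fin 5) := by decide
  have i2 : Function.Injective (![0, 1] : Fin 2 → Fin 5) := by decide
  refine ⟨nn, ⟨{
    hp := hp, lf := lf, ι := io, ι' := io'
    π₁ := fun x => pj ![2, 3] (lf x), π₂ := fun x => pj ![0, 1] (lf x)
    hc := hp_ct, h1 := fun _ => rfl, h2 := fun _ => rfl, hl := hp_lf, rl := fun _ _ => hp_rl
    ic := continuous_clm_apply.2 fun η => by simp only [io_ap]; fun_prop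
    ic' := continuous_clm_apply.2 fun e => (PiLp.continuous_toLp 2 _).comp
      (continuous_pi fun j => (cj_ct j).comp ((fr_ct j).inner continuous_const))
    ad := fun σ η e => ?_
    li := fun σ η => ?_
    eq := ?_
    p₁ := isPr i1, p₂ := isPr i2
    e₁ := fun σ e => ?_
    e₂ := fun σ e => ?_
    pcd := fun D a b => ⟨2, _, _, _, _, _, _, a ▸ frm i1, b ▸ frm i2, by decide, by decide,
      -3, by decide, by decide⟩ }⟩⟩
  · rw [rin, rin, io_ap, sum_inner, PiLp.inner_apply η, Complex.re_sum, Complex.re_sum]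
    refine Finset.sum_congr rfl fun j _ => ?_
    rw [inner_smul_left, io'_ap, RCLike.inner_apply,
      ← cj_re j (cj j _ * _), cj_mul, cj_cj, cj_conj, mul_comm]
  · ext j
    rw [io'_ap, io_ap, inner_sum]
    simp [inner_smul_right, fr_on, cj_cj]
  · rintro σ σ' _ η ⟨t, t', a, b, rfl⟩
    rw [io_ap, io_ap]
    refine Finset.sum_congr rfl fun j _ => ?_
    rw [fr_eq j a b, smul_smul, ← Circle.coe_mul, act_eq]
  · rw [pj_lf, pj_ap, io_ap]
    simp [Fin.sum_univ_succ, qW, io'_ap, cj_cj, cj_zero]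
  · rw [pj_lf, pj_ap, io_ap]
    simp [Fin.sum_univ_succ, qV, io'_ap, cj_cj, cj_zero]

end Crest.Agent.N218.Pc

end
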