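import Crest.Agent.N218.Pc.Defs
import Crest.Agent.N218.Pc.Gen
import Crest.Agent.N218.Pm.Kit2

/-! Row 218, block PIECE (helper72): monotone radial maps have the invariant zero. -/

set_option autoImplicit false
open Set Topology
open scoped RealInnerProductSpace

namespace Crest.Agent.N218.Pc
open Sk

/-- bounded families of cyclically monotone maps are good and have no free zero -/
theorem gf_cm {X E : Type} [TopologicalSpace X] [NormedAddCommGroup E] [InnerProductSpace ℝ E]
    {k : ℕ} (hk : 1 ≤ k) {f : X × E → E} (hf : Continuous f) {C : ℝ} (hC : ∀ z, ‖f z‖ ≤ C)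
    (cm : ∀ x, CM k fun y => f (x, y)) : Gf k f ∧ ∀ z, z ∉ (Pm.Ec k univ f).Z := by
  have key : ∀ x (s : ℝ) (z : Pm.V k E), 0 ≤ s → Eqn (fun y => f (x, y)) s z → Pm.mn z = 0 :=
    fun x s z s0 e => by rw [cm_const (cm x) e s0 fun _ => rfl, mn_const]
  exact ⟨⟨hf, ⟨0, C, LA.of_sym (fun _ _ => by simp) (fun _ h => h.symm) hk,
    fun z => by simpa using hC z⟩, 1, one_pos, fun x s z s0 _ e => key x s z s0
      fun i => sub_eq_zero.1 ((add_sub_right_comm _ _ _).trans (e i))⟩,
    fun z h => (mem_Z.1 h).1 (key _ _ _ (Real.exp_pos _).le (mem_Z.1 h).2)⟩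

theorem fd : FD := by
  intro X E _ _ _ _ _ _ A _ T π μ m k hk hπ hm
  obtain ⟨C, hC⟩ := hm.bd
  have c : Continuous fun z : X × E => π z.1 z.2 :=
    (hπ.ct.comp continuous_fst).clm_apply continuous_snd
  obtain ⟨g, z⟩ := gf_cm (k := k) (f := fun z : X × E => m ‖π z.1 z.2‖ • π z.1 z.2) (C := C)
    (by omega) ((hm.ct.comp c.norm).smul c)
    (fun z => by
      rw [norm_smul, Real.norm_of_nonneg (hm.nn _ (norm_nonneg _))]
      exact hC _ (norm_nonneg _))
    fun x => CM.radial (fun a b => by rw [hπ.sa x a (π x b), hπ.id, hπ.sa]) hm.nn hm.mono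
  exact ⟨g, T.pa_emp hk g.ok z⟩

end Crest.Agent.N218.Pc
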