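import Crest.Agent.N218.Pc.Defs
import Crest.Agent.N218.P.Kit

/-! Row 218, block PIECE (helper73): switching on the gradient step. -/

set_option autoImplicit false
set_option linter.unusedVariables false
set_option linter.unusedSectionVars false
open Set Topology Filter
open scoped ContDiff RealInnerProductSpace

noncomputable section

namespace Crest.Agent.N218.Pc
open P Sk

namespace Gd

/-- periodic points of a map with a Lyapunov function are fixed -/
theorem lyap {E : Type} {F : E → E} {g : E → ℝ} {K : E → Prop} (hK : ∀ y, K (F y))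
    (le : ∀ y, K y → g (F y) ≤ g y) (eq : ∀ y, K y → g y ≤ g (F y) → F y = y) (y : E) (N : ℕ)
    (h0 : 0 < N) (e : F^[N] y = y) : F y = y := by
  obtain ⟨n, rfl⟩ := Nat.exists_eq_add_of_le' h0
  have k : K y := by rw [← e, Function.iterate_succ_apply']; exact hK _
  have a : ∀ m, K (F^[m] (F y)) ∧ g (F^[m] (F y)) ≤ g (F y) := fun m => by
    induction m with
    | zero => exact ⟨hK y, le_rfl⟩
    | succ m ih => rw [Function.iterate_succ_apply']; exact ⟨hK _, (le _ ih.1).trans ih.2⟩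
  have b := (a n).2
  rw [← Function.iterate_succ_apply, e] at b
  exact eq y k b

section sd
variable {T T' V : Type} [TopologicalSpace T] [TopologicalSpace T'] [NormedAddCommGroup V]
  [NormedSpace ℝ V] [FiniteDimensional ℝ V]

theorem sd_pull {P : T × V → V} {D : V →L[ℝ] V} {φ : T' → T} {b : T'} {y : V} (hφ : Continuous φ)
    (h : Ad.Sd P D (φ b, y)) : Ad.Sd (fun p => P (φ p.1, p.2)) D (b, y) := fun ε e => by
  filter_upwards [(Continuous.tendsto' (f := fun x : T' × V × V => (φ x.1, x.2)) (by fun_prop)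
    (b, y, y) _ rfl).eventually (h ε e)] with x a using a

theorem sd_step {g : T × V → V} {H : T × V → V →L[ℝ] V} {ε : T → ℝ} (hε : Continuous ε)
    (hH : Continuous H) (hd : ∀ b y, HasFDerivAt (fun y => g (b, y)) (H (b, y)) y) (b : T) (y : V) :
    Ad.Sd (fun p : T × V => p.2 - ε p.1 • g p) (1 - ε b • H (b, y)) (b, y) :=
  Ad.Sd.of_c1 (P := fun p : T × V => p.2 - ε p.1 • g p) (x := (b, y))
    (D := fun p : T × V => 1 - ε p.1 • H p) (Continuous.continuousAt (by fun_prop))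
    (Eventually.of_forall fun p => (hasFDerivAt_id p.2).sub ((hd p.1 p.2).const_smul (ε p.1)))

theorem sd_comp {P Q : T × V → V} {D D' : V →L[ℝ] V} {b : T} {y : V} (hQ : Continuous Q)
    (h : Ad.Sd P D (b, Q (b, y))) (h' : Ad.Sd Q D' (b, y)) :
    Ad.Sd (fun p => P (p.1, Q p)) (D.comp D') (b, y) := fun ε e => by
  have n := norm_nonneg D
  have n' := norm_nonneg D'
  set δ := min 1 (ε / (1 + ‖D‖ + ‖D'‖)) with hδ
  have d0 : 0 < δ := by positivity
  have d1 : δ ≤ 1 := min_le_left _ _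
  have d2 : δ * (1 + ‖D‖ + ‖D'‖) ≤ ε := (le_div_iff₀ (by positivity)).1 (min_le_right _ _)
  filter_upwards [(Continuous.tendsto' (f := fun x : T × V × V =>
    (x.1, Q (x.1, x.2.1), Q (x.1, x.2.2))) (by fun_prop) (b, y, y) _ rfl).eventually (h δ d0),
    h' δ d0] with x a c
  set u := x.2.1 - x.2.2
  set q := Q (x.1, x.2.1) - Q (x.1, x.2.2)
  have u0 := norm_nonneg u
  have q1 : ‖q‖ ≤ δ * ‖u‖ + ‖D'‖ * ‖u‖ :=
    (norm_le_norm_sub_add q (D' u)).trans (add_le_add c (D'.le_opNorm u))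
  have q2 : ‖D (q - D' u)‖ ≤ ‖D‖ * (δ * ‖u‖) :=
    (D.le_opNorm _).trans (mul_le_mul_of_nonneg_left c n)
  have r : P (x.1, Q (x.1, x.2.1)) - P (x.1, Q (x.1, x.2.2)) - D.comp D' u =
      (P (x.1, Q (x.1, x.2.1)) - P (x.1, Q (x.1, x.2.2)) - D q) + D (q - D' u) := by
    rw [map_sub D q, ContinuousLinearMap.comp_apply]; abel
  refine (congrArg norm r).le.trans ((norm_add_le _ _).trans ((add_le_add a q2).trans ?_))
  show δ * ‖q‖ + _ ≤ _
  nlinarith [mul_le_mul_of_nonneg_left q1 d0.le, mul_le_mul_of_nonneg_right d2 u0,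
    mul_le_mul_of_nonneg_right d1 (mul_nonneg d0.le u0)]
end sd

@[fun_prop] theorem lb_ct (s : ℝ) : Continuous fun σ : S => (lb s σ).1 := by
  unfold lb lab; fun_prop

theorem rl_norm {σ σ' : S} {c : ℂ} (h : Rl σ σ' c) : ‖c‖ = 1 := by
  obtain ⟨t, t', -, -, rfl⟩ := h; simp

theorem rl_lb (s : ℝ) {σ σ' : S} {c : ℂ} (h : Rl σ σ' c) : (lb s σ').1 = c * (lb s σ).1 := by
  obtain ⟨t, t', a, b, rfl⟩ := h
  simp only [lb, lab, a, b, PiLp.smul_apply, smul_eq_mul]; ring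

variable {ρ : ℂ × Y → ℝ}

/-- the vertical Hessian -/
def hs (ρ : ℂ × Y → ℝ) (p : ℂ × Y) : Y →L[ℝ] Y :=
  (fderiv ℝ (A.Rs.vgr ρ) p).comp (ContinuousLinearMap.inr ℝ ℂ Y)

theorem hs_d (h : ContDiff ℝ ∞ ρ) (ζ : ℂ) (y : Y) :
    HasFDerivAt (fun y => A.Rs.vgr ρ (ζ, y)) (hs ρ (ζ, y)) y :=
  ((A.Rs.vgr_smooth h).differentiable (by simp) (ζ, y)).hasFDerivAt.comp y
    (hasFDerivAt_prodMk_right ζ y)

theorem hs_ct (h : ContDiff ℝ ∞ ρ) : Continuous (hs ρ) :=
  ((A.Rs.vgr_smooth h).continuous_fderiv (by simp)).clm_comp continuous_const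

theorem hs_sy (h : ContDiff ℝ ∞ ρ) (p : ℂ × Y) (a b : Y) : ⟪hs ρ p a, b⟫ = ⟪a, hs ρ p b⟫ :=
  (second_derivative_symmetric (A.Rs.has_slice h p.1)
    ((innerSL ℝ (E := Y)).hasFDerivAt.comp p.2 (hs_d h p.1 p.2)) a b).trans
    (real_inner_comm a (hs ρ p b))

theorem es_ct (h : ContDiff ℝ ∞ ρ) (s : ℝ) {T : Type} [TopologicalSpace T] {ε : T → ℝ}
    {z : T → S × Y} (hε : Continuous ε) (hz : Continuous z) :
    Continuous fun x => Es ρ s (ε x) (z x) :=
  hz.snd.sub (hε.smul ((A.Rs.vgr_smooth h).continuous.comp (((lb_ct s).comp hz.fst).prodMk hz.snd)))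

theorem es_ev (h : ContDiff ℝ ∞ ρ) (inv : ∀ c ζ η, ‖c‖ = 1 → ρ (c * ζ, act c η) = ρ (ζ, η))
    (s ε : ℝ) : Ev (Es ρ s ε) := fun σ σ' c η r => by
  have a := A.Rs.vgr_eqv h (actL (rl_norm r)) (fun y => inv c (lb s σ).1 y (rl_norm r)) η
  simp only [Es, up, rl_lb s r, act_sub, act_smul]
  exact congrArg (fun v => act c η - ε • v) a

/-- the strict derivative of a family of gradient steps -/
theorem es_sd (h : ContDiff ℝ ∞ ρ) (s : ℝ) {T : Type} [TopologicalSpace T] {ε : T → ℝ}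
    {σ : T → S} (hε : Continuous ε) (hσ : Continuous σ) (b : T) (y : Y) :
    Ad.Sd (fun p : T × Y => Es ρ s (ε p.1) (σ p.1, p.2))
      (1 - ε b • hs ρ ((lb s (σ b)).1, y)) (b, y) := by
  have c : Continuous fun p : T × Y => ((lb s (σ p.1)).1, p.2) :=
    ((lb_ct s).comp (hσ.comp continuous_fst)).prodMk continuous_snd
  have c2 : Continuous fun p : T × Y => hs ρ ((lb s (σ p.1)).1, p.2) := (hs_ct h).comp' c
  have a := sd_step (g := fun p : T × Y => A.Rs.vgr ρ ((lb s (σ p.1)).1, p.2)) hε c2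
    (fun b y => hs_d h (lb s (σ b)).1 y) b y
  simpa only [Es, up] using a

theorem es_sy (h : ContDiff ℝ ∞ ρ) (ε : ℝ) (p : ℂ × Y) (a b : Y) :
    ⟪(1 - ε • hs ρ p : Y →L[ℝ] Y) a, b⟫ = ⟪a, (1 - ε • hs ρ p : Y →L[ℝ] Y) b⟫ := by
  show ⟪a - ε • hs ρ p a, b⟫ = ⟪a, b - ε • hs ρ p b⟫
  rw [inner_sub_left, inner_sub_right, real_inner_smul_left, real_inner_smul_right, hs_sy h]

end Gd
open Gd

theorem grd : GRD := by
  intro M s f w hM hw h
  obtain ⟨ε₀, e0, ly⟩ := hM.ly s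
  refine ⟨ε₀, e0, fun ε e1 e2 => ?_⟩
  have sm := hM.lv.sm
  have t0 : ∀ t : unitInterval, 0 ≤ t * ε := fun t => mul_nonneg t.2.1 e1.le
  have t1 : ∀ t : unitInterval, t * ε ≤ ε₀ := fun t => (mul_le_of_le_one_left e1.le t.2.2).trans e2
  have f3 : ∀ z, ‖f z‖ ≤ 3 := fun z => hM.bd ((lb s z.1).1, f z) ((h.inn z).trans hw)
  have st := fun (t : unitInterval) (z : S × Y) =>
    ly _ (t0 t) (t1 t) (z.1, f z) ((f3 z).trans (by norm_num))
  have dn : ∀ (t : unitInterval) (z : S × Y), up s (LL M) (z.1, Es (LL M) s (t * ε) (z.1, f z)) ≤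
      up s (LL M) (z.1, f z) := fun t z => (st t z).2.2.1.trans (sub_le_self _
        (mul_nonneg (by linarith [t0 t]) (sq_nonneg _)))
  have ng : ∀ (t : unitInterval) (z : S × Y), up s (LL M) z ≤ w →
      up s (LL M) z ≤ up s (LL M) (z.1, Es (LL M) s (t * ε) (z.1, f z)) → up s (LL M) z ≤ 0 :=
    fun t z a b => le_of_not_gt fun c => absurd (b.trans (dn t z)) (not_le.2 (h.lt z c a))
  have fc : Continuous fun p : (S × unitInterval) × Y => f (p.1.1, p.2) :=
    h.ct.comp (by fun_prop)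
  refine ⟨fun p => Es (LL M) s (p.1.2 * ε) (p.1.1, f (p.1.1, p.2)),
    ⟨es_ct sm s (by fun_prop) (continuous_fst.fst.prodMk fc), ⟨4, fun p => ?_⟩,
      fun b => lyap (g := fun y => up s (LL M) (b.1, y)) (K := fun y => up s (LL M) (b.1, y) ≤ w)
        (fun y => (dn b.2 (b.1, y)).trans (h.inn (b.1, y))) (fun y a => ?_) fun y a c => ?_,
      fun b y e => ?_⟩, fun t σ σ' c η r => ?_, fun z => by simp [Es], fun z => by simp⟩
  · linarith [norm_le_norm_sub_add (Es (LL M) s (p.1.2 * ε) (p.1.1, f (p.1.1, p.2)))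
      (f (p.1.1, p.2)), (st p.1.2 (p.1.1, p.2)).1, f3 (p.1.1, p.2)]
  · refine (dn b.2 (b.1, y)).trans ?_
    rcases le_or_gt (up s (LL M) (b.1, y)) 0 with c | c
    · rw [h.id _ c]
    · exact (h.lt _ c a).le
  · have i : f (b.1, y) = y := h.id _ (ng b.2 (b.1, y) a c)
    have k := (st b.2 (b.1, y)).2.2.1
    simp only [i] at k c ⊢
    have z : b.2 * ε * ‖up s (A.Rs.vgr (LL M)) (b.1, y)‖ ^ 2 = 0 :=
      le_antisymm (by linarith) (mul_nonneg (t0 _) (sq_nonneg _))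
    rcases mul_eq_zero.1 z with z | z
    · simp only [Es, z, zero_smul, sub_zero]
    · simp only [Es, norm_eq_zero.1 (pow_eq_zero_iff two_ne_zero |>.1 z), smul_zero, sub_zero]
  · have e' : Es (LL M) s (b.2 * ε) (b.1, f (b.1, y)) = y := e
    have a := (dn b.2 (b.1, y)).trans (h.inn (b.1, y))
    have c := ng b.2 (b.1, y) (by simpa only [e'] using a) (by simp only [e', le_refl])
    have s1 := es_sd sm s (ε := fun b : S × unitInterval => b.2 * ε) (σ := Prod.fst)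
      (by fun_prop) continuous_fst b (f (b.1, y))
    have s2 := sd_pull (P := f) (φ := Prod.fst) (b := b) (y := y) continuous_fst (h.sd (b.1, y) c)
    have s3 := sd_comp fc s1 s2
    rw [ContinuousLinearMap.one_def (M₁ := Y) (R₁ := ℝ), ContinuousLinearMap.comp_id] at s3
    exact ⟨_, es_sy sm _ _, s3⟩
  · show Es _ _ _ (σ', f (σ', act c η)) = _
    rw [h.eq σ σ' c η r]
    exact es_ev sm hM.lv.inv s _ σ σ' c _ r

end Crest.Agent.N218.Pc

end
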