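import Crest.Agent.N218.Pc.Defs
import Crest.Agent.N218.Pc.Ll

/-! Row 218, PIECE, leaf LLK (helper3): facts on the Lyapunov function. -/

set_option autoImplicit false
set_option linter.unusedVariables false
open Set Real Filter Topology
open scoped ContDiff RealInnerProductSpace

noncomputable section

namespace Crest.Agent.N218.Pc
open P Sk A.Rs Ll

namespace Lq

theorem qV_eq (y : Y) : qV y = pV y := (pV_eq y).symm
theorem qW_eq (y : Y) : qW y = pW y := (pW_eq y).symm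

/-- uniform descent of short gradient steps -/
theorem desc {X E : Type} [NormedAddCommGroup X] [NormedSpace ℝ X] [FiniteDimensional ℝ X]
    [NormedAddCommGroup E] [InnerProductSpace ℝ E] [FiniteDimensional ℝ E] {ρ : X × E → ℝ}
    (h : ContDiff ℝ ∞ ρ) (s R : ℝ) {δ : ℝ} (δ0 : 0 < δ) (δ1 : δ ≤ 1) :
    ∃ ε₀ > 0, ∀ ε, 0 ≤ ε → ε ≤ ε₀ → ∀ ζ y, ‖ζ‖ ≤ s → ‖y‖ ≤ R → ‖ε • vgr ρ (ζ, y)‖ ≤ δ ∧
      ρ (ζ, y - ε • vgr ρ (ζ, y)) ≤ ρ (ζ, y) - ε / 2 * ‖vgr ρ (ζ, y)‖ ^ 2 := by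
  have g := vgr_smooth h
  have K := (isCompact_closedBall (0 : X) s).prod (isCompact_closedBall (0 : E) (R + 1))
  obtain ⟨C, hC⟩ := K.exists_bound_of_continuousOn (g.continuous_fderiv (by simp)).continuousOn
  obtain ⟨D, hD⟩ := K.exists_bound_of_continuousOn g.continuous.continuousOn
  have p1 : 0 < max 1 C := one_pos.trans_le (le_max_left _ _)
  have p2 : 0 < max 1 D := one_pos.trans_le (le_max_left _ _)
  refine ⟨min (max 1 C)⁻¹ (δ / max 1 D), by positivity, fun ε e0 e1 ζ y hζ hy => ?_⟩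
  have m : ∀ y' : E, ‖y'‖ ≤ R + 1 → (ζ, y') ∈ Metric.closedBall (0 : X) s ×ˢ
      Metric.closedBall (0 : E) (R + 1) := fun y' a =>
    ⟨mem_closedBall_zero_iff.2 hζ, mem_closedBall_zero_iff.2 a⟩
  have a : ‖ε • vgr ρ (ζ, y)‖ ≤ δ := by
    rw [norm_smul, Real.norm_of_nonneg e0]
    have b := (le_div_iff₀ p2).1 (e1.trans (min_le_right _ _))
    exact (mul_le_mul_of_nonneg_left ((hD _ (m y (by linarith))).trans (le_max_right _ _))
      e0).trans b
  refine ⟨a, ?_⟩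
  have t := N218.C.taylor_le (has_slice h ζ) (L := max 1 C) (z := y) (v := -(ε • vgr ρ (ζ, y)))
    fun t ht => by
      have n : ‖t • -(ε • vgr ρ (ζ, y))‖ = t * ‖-(ε • vgr ρ (ζ, y))‖ := by
        rw [norm_smul, Real.norm_of_nonneg ht.1]
      have := ((convex_closedBall (0 : X) s).prod
        (convex_closedBall (0 : E) (R + 1))).norm_image_sub_le_of_norm_fderiv_le (𝕜 := ℝ)
        (fun x _ => g.differentiable (by simp) x) (fun x hx => (hC x hx).trans (le_max_right 1 C))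
        (m y (by linarith)) (m (y + t • -(ε • vgr ρ (ζ, y))) ((norm_add_le _ _).trans (by
          rw [n, norm_neg]; nlinarith [ht.2, norm_nonneg (ε • vgr ρ (ζ, y))])))
      rw [← map_sub, innerSL_apply_norm, ← n]
      simpa using this
  rw [← sub_eq_add_neg, innerSL_apply_apply, inner_neg_right, real_inner_smul_right,
    real_inner_self_eq_norm_sq, norm_neg, norm_smul, Real.norm_of_nonneg e0] at t
  have b : ε * max 1 C ≤ 1 := by
    have := e1.trans (min_le_left _ _)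
    rwa [← one_div, le_div_iff₀ p1] at this
  nlinarith [mul_nonneg e0 (sq_nonneg ‖vgr ρ (ζ, y)‖)]

variable {M : ℂ × P.V → P.V}

theorem LL'_eq (z : ℂ × Y) : LL' M z = L0 M z - 1 / 100 := by
  simp only [LL', L0, ta_eq]; ring

theorem LL'_sm (hM : Mz M) : ContDiff ℝ ∞ (LL' M) :=
  (funext LL'_eq : LL' M = _) ▸ (L0_sm hM).sub contDiff_const

theorem vg_of {ρ : ℂ × Y → ℝ} (h : ContDiff ℝ ∞ ρ) {z : ℂ × Y} {v : Y}
    (d : HasFDerivAt (fun y => ρ (z.1, y)) (innerSL ℝ v) z.2) : vgr ρ z = v :=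
  ext_inner_right ℝ fun x => ContinuousLinearMap.ext_iff.1 ((has_slice h z.1 z.2).unique d) x

theorem vg' (hM : Mz M) (z : ℂ × Y) : vgr (LL' M) z = gr M z :=
  vg_of (LL'_sm hM) (((gr_d hM z.1 z.2).sub_const (1 / 100)).congr_of_eventuallyEq
    (.of_forall fun y => LL'_eq _))

theorem bd (hM : Mz M) (z : ℂ × Y) (h : LL M z ≤ 1 / 100) : ‖z.2‖ ≤ 3 := by
  have a := L0_ge hM z.1 z.2
  have b := Ee_ge (ta z.2 - 4)
  have c := Ee_nn (ta z.2 - 4)
  have d := norm_sq_Y z.2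
  simp only [L0] at a
  refine (abs_le_of_sq_le_sq' ?_ (by norm_num)).2
  have e : ta z.2 ≤ 5 := by nlinarith [sq_nonneg (u1 z.2), sq_nonneg (u2 z.2)]
  unfold ta at *
  linarith

theorem cr (hM : Mz M) (z : ℂ × Y) (h : LL M z ≤ 1 / 100) (e : vgr (LL M) z = 0) : z.2 = 0 ∨
    (LL M z ≤ -(9 / 1000) ∧ qW z.2 = z.2 ∧ st (10 * (‖pw z.2‖ ^ 2 - 4)) = 1 / 1000000) := by
  obtain ⟨ζ, y⟩ := z
  have gm := Pa.gm hM ζ (c := 4) (by norm_num) le_rfl fun _ => rfl
  have d := has_slice (LL_sm hM) ζ y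
  rw [e, map_zero] at d
  have d2 : HasFDerivAt (G (fun v => M (ζ, v)) 4 0) (0 : _ →L[ℝ] ℝ) (co y) := by
    have := (show HasFDerivAt (fun y => LL M (ζ, y)) (0 : _ →L[ℝ] ℝ) (coL.symm (co y)) by
      rwa [coL_symm, oc_co]).comp (co y) coL.symm.hasFDerivAt
    rw [ContinuousLinearMap.zero_comp] at this
    exact this.congr_of_eventuallyEq (.of_forall fun z => by simp [LL, co_oc])
  rcases crit sm _ 4 0 (co y) gm d2.fderiv h with c | c
  · exact Or.inl (coL.injective (by rw [map_zero, coL_apply, c, neg_zero]; rfl))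
  · obtain ⟨a, b, b', f⟩ := c.2 rfl
    have a : pv y = 0 := a
    refine Or.inr ⟨c.1, ?_, ?_⟩
    · rw [qW_eq]
      exact Y_ext' ((pv_pW y).trans a.symm) (pw_pW y) ((u_pW y).1.trans (Eq.symm b))
        ((u_pW y).2.trans (Eq.symm (b'.trans (zero_mul _))))
    · rw [← f, ta_eq, ta, a]; simp

theorem LL_zero (ζ : ℂ) : LL M (ζ, 0) = -(1 / 100) := by
  have t : ta 0 = 0 := by simp [ta, ← pvL_apply, ← pwL_apply]
  have a := L0_lo (M := M) ζ (y := 0) (by rw [t]; norm_num)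
  rw [L0_eq (by rw [t]; norm_num)] at a
  simp only [← pvL_apply, ← pwL_apply, ← u1L_apply, ← u2L_apply, map_zero, norm_zero] at a
  linarith

theorem lb_bd (s : ℝ) : ∃ R, ∀ σ : S, ‖(lb s σ).1‖ ≤ R := by
  have : Continuous fun σ : S => (lb s σ).1 := by
    simp only [lb, lab]; fun_prop
  obtain ⟨R, h⟩ := isCompact_univ.exists_bound_of_continuousOn this.continuousOn
  exact ⟨R, fun σ => h σ trivial⟩

end Lq
open Lq

theorem llk : LLK := fun M hM =>
  { lv := ⟨LL_sm hM, fun c ζ η hc => LL_act hM hc ζ η, fun ζ η h0 h1 => ⟨vgr (LL M) (ζ, η), fun e => by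
        rw [← inner_vgr, inner_self_eq_zero] at e
        rcases cr hM _ h1 e with c | c
        · rw [show η = 0 from c, LL_zero] at h0; norm_num at h0
        · linarith [c.1]⟩, 3, fun ζ η => bd hM (ζ, η)⟩
    sm' := LL'_sm hM
    inv' := fun c ζ η hc => by rw [LL'_eq, LL'_eq, L0_act hM hc]
    bd := bd hM
    hi := fun z h => by
      rw [LL'_eq, L0_hi z.1 h, qW_eq, sq_rest, ta_eq, ta]; ring
    lo := fun z h => by
      have : z.2 - pV z.2 = dg 0 1 1 z.2 := by simp [dg_apply, sub_eq_add_neg]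
      rw [LL'_eq, L0_lo z.1 h, qV_eq, this, sq_dg, ta_eq, ta]; ring
    ge := fun z => by rw [LL'_eq, ta_eq]; linarith [L0_ge hM z.1 z.2]
    ghi := fun z h => by
      rw [vg' hM, gr_hi hM z.1 h, dg_apply, qV_eq, qW_eq]; module
    glo := fun z h => by
      rw [vg' hM, gr_lo hM z.1 h, dg_apply, qV_eq, qW_eq]; module
    gr := fun z => by
      have t : HasFDerivAt ta (innerSL ℝ (dg 2 2 0 z.2)) z.2 :=
        (quad_d 2 2 0 z.2).congr_of_eventuallyEq (.of_forall fun y => by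
          simp only [quad_eq, ta]; ring)
      have d := (has_slice (LL'_sm hM) z.1 z.2).add
        ((Ee_d (ta z.2 - 4)).comp_hasFDerivAt (h₂ := Ee) z.2 (t.sub_const 4))
      refine vg_of (LL_sm hM) ((d.congr_fderiv ?_).congr_of_eventuallyEq (.of_forall fun y => ?_))
      · rw [map_add, ← map_smul, dg_apply, qV_eq, qW_eq, ta_eq]
        congr 2; module
      · simp [LL', ta_eq]
    cr := cr hM
    ly := fun s => by
      obtain ⟨R, hR⟩ := lb_bd s
      obtain ⟨a, a0, ha⟩ := desc (LL_sm hM) R 10 (δ := 1 / 100) (by norm_num) (by norm_num)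
      obtain ⟨b, b0, hb⟩ := desc (LL'_sm hM) R 10 (δ := 1 / 100) (by norm_num) (by norm_num)
      refine ⟨min a b, lt_min a0 b0, fun ε e0 e1 z hz => ?_⟩
      obtain ⟨c, c'⟩ := ha ε e0 (e1.trans (min_le_left _ _)) _ _ (hR z.1) hz
      obtain ⟨d, d'⟩ := hb ε e0 (e1.trans (min_le_right _ _)) _ _ (hR z.1) hz
      refine ⟨?_, ?_, c', d'⟩
      · rw [Es, sub_sub_cancel_left, norm_neg]; exact c
      · rw [Es, sub_sub_cancel_left, norm_neg]; exact d }

end Crest.Agent.N218.Pc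

end
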