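import Crest.Agent.N218.Pc.Defs
import Crest.Agent.N218.P.Pc0

/-!
# Row 218, block PIECE (helper77): from the frames to the ambient bundle, and the body
-/

set_option autoImplicit false
set_option linter.unusedSectionVars false
open Set Topology
open scoped RealInnerProductSpace ComplexConjugate

noncomputable section

namespace Crest.Agent.N218.Pc
open P Sk Pm Sw P.P1

namespace Q1

section gen
variable {X : Type} [TopologicalSpace X] {k : ℕ} {E : Type} [NormedAddCommGroup E] [NormedSpace ℝ E]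

theorem le_mn {s : ℝ} (s0 : 0 ≤ s) (u : Pm.V k E) : ‖u‖ ≤ ‖u + s • mn u‖ := by
  have e : (1 + s) • u = (1 + s / 2) • (u + s • mn u) + (s / 2) • tL k E (u + s • mn u) := by
    rw [map_add, map_smul, tL_mn, mn_eq]; module
  have a := norm_add_le ((1 + s / 2) • (u + s • mn u)) ((s / 2) • tL k E (u + s • mn u))
  rw [← e, norm_smul, norm_smul, norm_smul, norm_tL, Real.norm_of_nonneg (by positivity),
    Real.norm_of_nonneg (by positivity), Real.norm_of_nonneg (by positivity)] at a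
  nlinarith [norm_nonneg u]

theorem half_zero {κ : E → E} (hκ : ∀ e, ‖κ e‖ ≤ 1 / 2 * ‖e‖) {s : ℝ} (s0 : 0 ≤ s) {u : Pm.V k E}
    (h : Zr κ s u) : u = 0 := by
  have a := le_mn s0 u
  have b : ‖u + s • mn u‖ ≤ 1 / 2 * ‖u‖ := (pi_norm_le_iff_of_nonneg (by positivity)).2 fun i => by
    have : (u + s • mn u) i = κ (u (i - 1)) := by
      rw [← sub_eq_zero, ← h i]; simp only [Pi.add_apply, Pi.smul_apply]; abel
    rw [this]
    exact (hκ _).trans (by linarith [norm_le_pi_norm u (i - 1)])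
  exact norm_eq_zero.1 (by linarith [norm_nonneg u])

theorem germN {f f' : X × E → E} (hf : Continuous f) (h' : (Ec k univ f').Ok) {O : Set (X × E)}
    (hO : IsOpen O) (z : ∀ w ∈ (Ec k univ f).Z, ∀ i, (w.1.1, w.2 i) ∈ O)
    (z' : ∀ w ∈ (Ec k univ f').Z, ∀ i, (w.1.1, w.2 i) ∈ O) (e : ∀ p ∈ O, f p = f' p) :
    (Ec k univ f).Ok ∧ Pb.Eqv (Ec k univ f) (Ec k univ f') := by
  have eh : ∀ w : (X × ℝ) × Pm.V k E, (∀ i, (w.1.1, w.2 i) ∈ O) →
      (Ec k univ f).h w = (Ec k univ f').h w := fun w hw => funext fun i => by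
    rw [h_apply, h_apply, e _ (hw _)]
  have h : (Ec k univ f).Ok := by
    refine ok_of hf ?_
    suffices e : (Ec k univ f).Z = (Ec k univ f').Z from e ▸ h'.cp
    exact Set.ext fun w => ⟨fun hw => ⟨mem_O.2 (mem_O.1 hw.1), (eh w (z w hw)).symm.trans
      hw.2⟩, fun hw => ⟨mem_O.2 (mem_O.1 hw.1), (eh w (z' w hw)).trans hw.2⟩⟩
  refine ⟨h, h.eqv_germ h' (N := {w | ∀ i, (w.1.1, w.2 i) ∈ O}) ?_
    (fun w m i => m _) z z' fun w m => ⟨mem_O.trans mem_O.symm, fun _ => eh w m⟩⟩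
  simp only [ofPred_forall]
  exact isOpen_iInter_of_finite fun i => hO.preimage (by fun_prop)

theorem cm_le (e : E) : ‖cm e‖ ≤ 1 / 2 * ‖e‖ := by
  have a : (1 : ℝ) ≤ max 1 ‖e‖ := le_max_left _ _
  rw [cm, norm_smul, Real.norm_of_nonneg (by positivity)]
  refine mul_le_mul_of_nonneg_right ?_ (norm_nonneg _)
  rw [one_div]
  exact inv_anti₀ two_pos (by linarith)

theorem cm_eq {e : E} (h : ‖e‖ ≤ 1) : cm e = (1 / 2 : ℝ) • e := by
  rw [cm, max_eq_left h]; norm_num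
theorem loc' {f r : E → E} {C s : ℝ} (s0 : 0 < s) (C0 : 0 ≤ C)
    (h0 : ∀ y y', ‖r y - r y'‖ ≤ ‖y - y'‖) (hr : ∀ y, ‖f y - r y‖ ≤ C) (r0 : r 0 = 0)
    (far : ∀ y, 30 ≤ ‖y‖ → f y = r y) {y : Pm.V k E} (q : Zr f s y) (m : mn y ≠ 0) (i : Ix k) :
    ‖y i‖ ≤ 30 + 2 * C * 2 ^ (k + 1) := by
  obtain ⟨c, hc, b⟩ := D3.loc (Sk.tau_sq (k := k)) (σ := Equiv.addRight (1 : Ix k))
    (fun i => add_right_comm _ _ _) (q := 2 ^ (k + 1))
    (fun i j => ⟨(j - i).val, (ZMod.val_lt _).le, by simp⟩) s0 C0 h0 hr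
    ((Sk.eq_iff (g := fun i => s • mn y i) (F := f)).1 q) m (Z := {0}) (a := 30)
    fun y e => ⟨0, rfl, r0, by rw [sub_zero]; exact le_of_not_gt fun l => e (far y l.le)⟩
  have := b i
  rw [show c = 0 from hc, sub_zero] at this
  exact_mod_cast this

theorem free {f : E → E} {s : ℝ} (s0 : 0 < s) (h0 : ∀ y y', ‖f y - f y'‖ ≤ ‖y - y'‖)
    {y : Pm.V k E} (q : Zr f s y) : mn y = 0 :=
  D3.odd_zero (Sk.tau_sq (k := k)) (σ := Equiv.addRight (1 : Ix k))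
    (fun _ => add_right_comm _ _ _) s0 (r := f) h0 (fun _ => rfl)
    ((Sk.eq_iff (g := fun i => s • mn y i) (F := f)).1 q)

end gen

variable {n : ℕ} (B : Emb n)

theorem rl_n {σ σ' : S} {c : ℂ} (r : Rl σ σ' c) : ‖c‖ = 1 := by
  obtain ⟨t, t', -, -, rfl⟩ := r
  rw [norm_mul, Circle.norm_coe, Circle.norm_coe, mul_one]

theorem rl_lb {σ σ' : S} {c : ℂ} (r : Rl σ σ' c) (s : ℝ) :
    lb s σ' = (c * (lb s σ).1, c * (lb s σ).2.1, c * (lb s σ).2.2) := by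
  obtain ⟨t, t', a, b, rfl⟩ := r
  simp only [lb, lab, a, b, PiLp.smul_apply, smul_eq_mul, Prod.mk.injEq]
  exact ⟨by ring, by ring, by ring⟩

theorem eq' {σ σ' : S} {c : ℂ} (r : Rl σ σ' c) (e : Cn n) : B.ι' σ' e = act c (B.ι' σ e) := by
  refine ext_inner_left ℝ fun v => ?_
  obtain ⟨η, rfl⟩ := (actL (rl_n r)).surjective v
  rw [actL_apply, ← B.ad, B.eq _ _ _ _ r, B.ad, inner_act (rl_n r)]

theorem lf_ (x : X22) : Lf x (B.lf x) :=
  ⟨by conv_lhs => rw [← B.hl x, B.h1]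
      rfl, by conv_lhs => rw [← B.hl x, B.h2]
              rfl⟩

theorem ct_lf {Z W : Type} [TopologicalSpace Z] [TopologicalSpace W] {Φ : S × Z → W}
    (hΦ : Continuous Φ) (e : ∀ c y y' z, Rl y y' c → Φ (y', z) = Φ (y, z)) :
    Continuous fun x : X22 × Z => Φ (B.lf x.1, x.2) := by
  have q : IsQuotientMap (Prod.map B.hp (id : Z → Z)) :=
    (B.hc.isProperMap.prodMap isProperMap_id).isClosedMap.isQuotientMap
      (B.hc.prodMap continuous_id)
      (Function.Surjective.prodMap (fun x => ⟨_, B.hl x⟩) Function.surjective_id)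
  rw [q.continuous_iff]
  convert hΦ using 1
  funext x
  obtain ⟨c, t⟩ := B.rl _ _ (B.hl (B.hp x.1)).symm
  exact e c _ _ _ t

theorem ct_lf' {W : Type} [TopologicalSpace W] {Φ : S → W}
    (hΦ : Continuous Φ) (e : ∀ c y y', Rl y y' c → Φ y' = Φ y) : Continuous fun x => Φ (B.lf x) :=
  (ct_lf B (Z := Unit) (Φ := fun z => Φ z.1) (hΦ.comp continuous_fst) fun c y y' _ r =>
    e c y y' r).comp (continuous_id.prodMk (continuous_const (y := ())))

theorem n_i' (σ : S) (e : Cn n) : ‖B.ι' σ e‖ ≤ ‖e‖ := by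
  have a : ‖B.ι σ (B.ι' σ e)‖ ^ 2 = ‖B.ι' σ e‖ ^ 2 := by
    rw [← real_inner_self_eq_norm_sq, B.ad, B.li, real_inner_self_eq_norm_sq]
  have b : ‖B.ι' σ e‖ ^ 2 ≤ ‖B.ι σ (B.ι' σ e)‖ * ‖e‖ := by
    rw [← real_inner_self_eq_norm_sq, ← B.ad]; exact real_inner_le_norm _ _
  rw [(sq_eq_sq₀ (norm_nonneg _) (norm_nonneg _)).1 a] at b
  by_contra c
  nlinarith [norm_nonneg e, not_le.1 c]

theorem n_i (σ : S) (η : Y) : ‖B.ι σ η‖ = ‖η‖ :=
  (sq_eq_sq₀ (norm_nonneg _) (norm_nonneg _)).1 (by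
    rw [← real_inner_self_eq_norm_sq, B.ad, B.li, real_inner_self_eq_norm_sq])

/-- zeros downstairs come from zeros upstairs -/
theorem dn {k : ℕ} {σ : S} {f : Y → Y} {κ : Cn n → Cn n} (hκ : ∀ e, ‖κ e‖ ≤ 1 / 2 * ‖e‖)
    (hc : ∀ e, B.ι' σ e = 0 → B.ι' σ (κ e) = 0) {s : ℝ} (s0 : 0 ≤ s) {z : Pm.V k (Cn n)}
    (q : Zr (fun e => B.ι σ (f (B.ι' σ e)) + κ (B.pp σ e)) s z) :
    (∀ i, B.pp σ (z i) = 0) ∧ Zr f s (dg k (B.ι' σ) z) ∧
      (mn z ≠ 0 → mn (dg k (B.ι' σ) z) ≠ 0) := by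
  have p0 : ∀ e, B.ι' σ (B.pp σ e) = 0 := fun e => by simp [Emb.pp, B.li]
  have a : dg k (1 - (B.ι σ).comp (B.ι' σ)) z = 0 := half_zero hκ s0 fun i => by
    have := congrArg (1 - (B.ι σ).comp (B.ι' σ) : Cn n →L[ℝ] Cn n) (q i)
    rw [map_zero] at this
    rw [← this, ← dg_mn]
    simp [B.li, Emb.pp, smul_sub]
    have := hc _ (p0 (z (i - 1)))
    simp only [Emb.pp] at this
    rw [this, map_zero]
    abel
  have b : ∀ i, B.pp σ (z i) = 0 := fun i => congrFun a i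
  refine ⟨b, fun i => ?_, fun m e => m ?_⟩
  · have := congrArg (B.ι' σ) (q i)
    simp only [← dg_mn, dg_apply]
    simpa [B.li, hc _ (p0 _)] using this
  · have : z = dg k (B.ι σ) (dg k (B.ι' σ) z) := funext fun i => sub_eq_zero.1 (b i)
    rw [this, ← dg_mn, e, map_zero]

theorem cm_c (σ : S) (e : Cn n) (h : B.ι' σ e = 0) : B.ι' σ (cm e) = 0 := by
  rw [cm, map_smul, h, smul_zero]

end Q1
open Q1

theorem sml {Φ : A.Fam} (h : Shape Φ (2 ^ 30)) : Sml h := by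
  have a := h.εΛ
  have := mul_nonneg h.ε0.le (sub_nonneg.2 h.CA)
  have := mul_nonneg h.ε0.le (sub_nonneg.2 h.A30)
  rw [Sml, abs_of_nonneg (C0 h)]
  nlinarith

theorem pc1' (hD : DSC) {k : ℕ} (hk : 16 ≤ k) (T : Pm.Th X22 QQ) {Φ : A.Fam} {Λ : ℝ}
    (h : Shape Φ Λ) {n : ℕ} (B : Emb n) (hε : h.ε * (30 + 2 * h.C * 2 ^ (k + 1) + 1) ≤ 19)
    (c0 : Continuous (R0 h)) (e0 : Ev (R0 h)) (g : Gf k (B.ds (Rh h))) :
    (Ec k univ (B.ds (R0 h))).Ok ∧ T.pa k (sp (Cn n)) (Ec k univ (B.ds (R0 h))) =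
      T.pa k (sp (Cn n)) (Ec k univ (B.ds (Rh h))) := by
  have C0 := C0 h
  have e := h.ε0
  set ρ : ℝ := 30 + 2 * h.C * 2 ^ (k + 1) with hρ
  have key : ∀ {f : S × Y → Y} {r : Y → Y}, (∀ y y', ‖r y - r y'‖ ≤ ‖y - y'‖) →
      (∀ σ y, f (σ, y) - r y = R0 h (σ, y) - piH (pl h.ε h.p) y) → r 0 = 0 →
      ∀ w ∈ (Ec k univ (B.ds f)).Z, ∀ i, ‖w.2 i‖ < ρ + 1 := by
    intro f r h0 hr r0 w hw i
    obtain ⟨m, q⟩ := mem_Z.1 hw
    obtain ⟨a, b, c⟩ := dn B (σ := B.lf w.1.1) (f := fun η => f (B.lf w.1.1, η)) (κ := cm)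
      (z := w.2) cm_le (cm_c B _) (Real.exp_pos w.1.2).le q
    have := loc' (Real.exp_pos _) C0 h0 (fun y => by rw [hr]; exact h.hR.bd _ _) r0
      (fun y l => sub_eq_zero.1 (by rw [hr]; exact sub_eq_zero.2 (h.hR.out _ _ (Or.inr l)))) b
      (c m) i
    rw [sub_eq_zero.1 (a i), n_i]
    exact this.trans_lt (by linarith)
  obtain ⟨a, b⟩ := germN (O := {p | ‖p.2‖ < ρ + 1}) (hD.ct n B _ c0 e0) g.ok
    (isOpen_lt (by fun_prop) continuous_const) (key (piH_lip h.hp) (fun _ _ => rfl) (piH_zero h.hp))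
    (key (r := rYs h) (rYs_lip h) (fun _ _ => add_sub_cancel_left _ _)
      ((rYs_eq h (by simp)).trans (piH_zero h.hp))) fun p m => by
      have : rYs h (B.ι' (B.lf p.1) p.2) = _ := rYs_eq h
        ((mul_le_mul_of_nonneg_left ((n_i' B _ _).trans (le_of_lt m)) e.le).trans hε)
      simp only [Emb.ds, Emb.am, Rh]
      rw [rYs] at this
      rw [this, add_sub_cancel]
  exact ⟨a, T.pa_eqv k (sp (Cn n)) _ _ hk b⟩

theorem pc1 (hD : DSC) : PC1 := fun T Φ h n B hs c0 e0 g => by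
  refine pc1' hD (by norm_num) T h B ?_ c0 e0 g
  have C0 := C0 h
  have e := h.ε0
  have := mul_nonneg e.le C0
  rw [Sml, abs_of_nonneg C0] at hs
  norm_num at hs ⊢
  nlinarith

theorem pc0' {k : ℕ} (hk : 16 ≤ k) (T : Pm.Th X22 QQ) {Φ : A.Fam} {Λ : ℝ}
    (h : Shape Φ Λ) {n : ℕ} (B : Emb n) (c0 : Continuous (R0 h)) (e0 : Ev (R0 h))
    (ok : (Ec k univ (B.ds (R0 h))).Ok) : (h.pc k).Ok ∧
    Pe (T.pa k (sp Y) (h.pc k)) (T.pa k (sp (Cn n)) (Ec k univ (B.ds (R0 h)))) := by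
  have ic := B.ic
  have ic' := B.ic'
  have lc : Continuous fun σ : S => lb h.s σ := lab_ct h.s
  have hκ : ∀ e : Cn n, ‖(1 / 2 : ℝ) • e‖ ≤ 1 / 2 * ‖e‖ := fun e => by
    rw [norm_smul, Real.norm_of_nonneg (by norm_num)]
  have hc : ∀ σ (e : Cn n), B.ι' σ e = 0 → B.ι' σ ((1 / 2 : ℝ) • e) = 0 := fun σ e h => by
    rw [map_smul, h, smul_zero]
  have pc : Continuous fun z : X22 × Cn n => B.pp (B.lf z.1) z.2 :=
    ct_lf B (Φ := fun z : S × Cn n => B.pp z.1 z.2) (by unfold Emb.pp; fun_prop) fun c y y' z r => by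
      simp only [Emb.pp, eq' B r, B.eq _ _ _ _ r]
  let f' : X22 × Cn n → Cn n := fun z =>
    B.ι (B.lf z.1) (R0 h (B.lf z.1, B.ι' (B.lf z.1) z.2)) + (1 / 2 : ℝ) • B.pp (B.lf z.1) z.2
  have fc : Continuous f' := (ct_lf B (Φ := fun z : S × Cn n => B.ι z.1 (R0 h (z.1, B.ι' z.1 z.2)))
    (by fun_prop) fun c y y' z r => by
      simp only [eq' B r, e0 _ _ _ _ r, B.eq _ _ _ _ r]).add (pc.const_smul (1 / 2 : ℝ))
  obtain ⟨a, b⟩ := germN (k := k) (O := {p | ‖B.pp (B.lf p.1) p.2‖ < 1}) fc ok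
    (isOpen_lt pc.norm continuous_const)
    (fun w hw i => by
      have := (dn B (σ := B.lf w.1.1) (f := fun η => R0 h (B.lf w.1.1, η)) (z := w.2)
        (κ := fun e => (1 / 2 : ℝ) • e) hκ (hc _) (Real.exp_pos w.1.2).le
        (mem_Z.1 hw).2).1 i
      simp [this])
    (fun w hw i => by
      have := (dn B (σ := B.lf w.1.1) (f := fun η => R0 h (B.lf w.1.1, η)) (κ := cm) (z := w.2)
        cm_le (cm_c B _) (Real.exp_pos w.1.2).le
        (mem_Z.1 hw).2).1 i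
      simp [this])
    fun p m => by simp only [f', Emb.ds, Emb.am, cm_eq (le_of_lt m)]
  rw [← T.pa_eqv k (sp (Cn n)) _ _ hk b]
  let ch : S → ℝ := fun σ => cl (8 * ‖(lb h.s σ).2‖ - 1)
  have chc : Continuous ch := by unfold ch; fun_prop
  have s'c : Continuous fun σ : S => ch σ • h.σ' (lb h.s σ).2 := by
    refine continuous_iff_continuousAt.2 fun σ => ?_
    by_cases e : (lb h.s σ).2 = 0
    · refine (continuousAt_const (y := 0)).congr ?_
      have : ∀ᶠ τ in 𝓝 σ, ‖(lb h.s τ).2‖ < 1 / 8 :=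
        lc.snd.norm.continuousAt.eventually_lt continuousAt_const (by rw [e]; norm_num)
      filter_upwards [this] with τ m
      rw [show ch τ = 0 from cl_of_le (by linarith)]
      exact (zero_smul ℝ (h.σ' (lb h.s τ).2)).symm
    · exact chc.continuousAt.smul (ContinuousAt.comp (f := fun σ : S => (lb h.s σ).2)
        (h.hF.sm'.continuousOn.continuousAt (isOpen_ne.mem_nhds e)) lc.snd.continuousAt)
  have sc := h.hF.sm.continuous
  refine sw T hk (rX_ct h) (a := fun x => (B.ι (B.lf x)).comp (h.σ (lb h.s (B.lf x)).2))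
    (b := fun x => (ch (B.lf x) • h.σ' (lb h.s (B.lf x)).2).comp (B.ι' (B.lf x)))
    (ct_lf' B (Φ := fun σ => (B.ι σ).comp (h.σ (lb h.s σ).2)) (ic.clm_comp (sc.comp lc.snd)) ?_)
    (ct_lf' B (Φ := fun σ => (ch σ • h.σ' (lb h.s σ).2).comp (B.ι' σ)) (s'c.clm_comp ic') ?_)
    (U := {x | 0 < ⟪(x.1 : Sh.E 3), (x.2 : Sh.E 3)⟫}) (isOpen_lt continuous_const (by fun_prop))
    (c := 1 / 2) (by norm_num) (by norm_num) ?_ ?_ a ?_ ?_
  · intro c y y' r
    ext1 η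
    simp only [ContinuousLinearMap.comp_apply, rl_lb r]
    rw [h.hF.eqv _ _ _ _ (rl_n r), B.eq _ _ _ _ r]
  · intro c y y' r
    ext1 e
    have x : ch y' = ch y := by
      simp only [ch, rl_lb r, Prod.norm_def, norm_mul, rl_n r, one_mul]
    simp only [ContinuousLinearMap.comp_apply, smul_apply, x, eq' B r]
    by_cases z : (lb h.s y).2 = 0
    · rw [show ch y = 0 from cl_of_le (by rw [z]; norm_num), zero_smul, zero_smul]
    · rw [rl_lb r]
      exact congrArg _ (h.hF.eqv' (a := (lb h.s y).2.1) (b := (lb h.s y).2.2) (rl_n r) z _)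
  · intro x u y
    have x1 : ch (B.lf x) = 1 := cl_of_ge (by
      have : 1 / 4 ≤ ‖(lb h.s (B.lf x)).2‖ := al_hp h (lf_ B x) u
      linarith)
    simp only [ContinuousLinearMap.comp_apply, x1, one_smul, B.li]
    exact h.hF.li _ _ (ne_hp h (lf_ B x) u)
  · intro x u z
    have x1 : ch (B.lf x) = 1 := cl_of_ge (by
      have : 1 / 4 ≤ ‖(lb h.s (B.lf x)).2‖ := al_hp h (lf_ B x) u
      linarith)
    have ne : (lb h.s (B.lf x)).2 ≠ 0 := ne_hp h (lf_ B x) u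
    simp only [ContinuousLinearMap.comp_apply, x1, one_smul]
    rw [rX_on h (lf_ B x) u]
    change _ = B.ι _ (h.σ _ (h.σ' (lb h.s (B.lf x)).2 (h.R (lb h.s (B.lf x),
      h.σ (lb h.s (B.lf x)).2 _)))) + _
    simp only [h.hF.ri _ _ ne]
    rfl
  · intro w hw
    by_contra u
    exact no_zero hw fun y y' => by rw [rX_off h u, rX_off h u]; exact piH_lip h.hp y y'
  · intro w hw
    by_contra u
    obtain ⟨m, q⟩ := mem_Z.1 hw
    obtain ⟨-, b, c⟩ := dn B (σ := B.lf w.1.1) (f := fun η => R0 h (B.lf w.1.1, η)) (z := w.2)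
      (κ := fun e => (1 / 2 : ℝ) • e) hκ (hc _) (Real.exp_pos w.1.2).le q
    refine c m (free (Real.exp_pos _) (fun y y' => ?_) b)
    have : ∀ y, R0 h (B.lf w.1.1, y) = piH (pl h.ε h.p) y := R_off h (lf_ B _) u
    rw [this, this]; exact piH_lip h.hp y y'

theorem pc0 : PC0 := fun T _ h _ B c0 e0 ok => (pc0' (by norm_num) T h B c0 e0 ok).2

end Crest.Agent.N218.Pc

end
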