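import Crest.Agent.N218.Pc.Defs
import Crest.Agent.N218.P.Kit

/-! Row 218, block PIECE: pushing an inward map into a thinner collar (helper82). -/

set_option autoImplicit false
set_option linter.unusedVariables false
open Set Filter Topology
open scoped ContDiff RealInnerProductSpace

noncomputable section

namespace Crest.Agent.N218.Pc
open P Sk

namespace Ps

section sd
variable {T T' V : Type} [TopologicalSpace T] [TopologicalSpace T'] [NormedAddCommGroup V]
  [NormedSpace ℝ V]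

theorem sd_congr {F G : T × V → V} {D : V →L[ℝ] V} {x : T × V} (h : Ad.Sd G D x)
    (e : ∀ᶠ p in 𝓝 x, F p = G p) : Ad.Sd F D x := fun ε hε => by
  have c1 : Tendsto (fun y : T × V × V => (y.1, y.2.1)) (𝓝 (x.1, x.2, x.2)) (𝓝 x) :=
    (by fun_prop : Continuous fun y : T × V × V => (y.1, y.2.1)).tendsto' _ _ rfl
  have c2 : Tendsto (fun y : T × V × V => (y.1, y.2.2)) (𝓝 (x.1, x.2, x.2)) (𝓝 x) :=
    (by fun_prop : Continuous fun y : T × V × V => (y.1, y.2.2)).tendsto' _ _ rfl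
  filter_upwards [h ε hε, c1.eventually e, c2.eventually e] with y a b c
  rw [b, c]; exact a

theorem sd_pull {G : T × V → V} {D : V →L[ℝ] V} {φ : T' → T} (hφ : Continuous φ) {b : T'} {y : V}
    (h : Ad.Sd G D (φ b, y)) : Ad.Sd (fun p : T' × V => G (φ p.1, p.2)) D (b, y) := fun ε hε => by
  have c : Tendsto (fun q : T' × V × V => (φ q.1, q.2)) (𝓝 (b, y, y)) (𝓝 (φ b, y, y)) :=
    (by fun_prop : Continuous fun q : T' × V × V => (φ q.1, q.2)).tendsto' _ _ rfl
  exact c.eventually (h ε hε)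
end sd

theorem lb_ct (s : ℝ) : Continuous fun σ : S => (lb s σ).1 := by
  unfold lb lab
  fun_prop

theorem lb_rl (s : ℝ) {σ σ' : S} {c : ℂ} (h : Rl σ σ' c) :
    ‖c‖ = 1 ∧ (lb s σ').1 = c * (lb s σ).1 := by
  obtain ⟨t, t', a, b, rfl⟩ := h
  refine ⟨by simp, ?_⟩
  simp only [lb, lab, a, b, PiLp.smul_apply, smul_eq_mul]
  ring

/-- periodic points of an inward map are fixed and lie in the sublevel set -/
theorem per {V : Type} {ρ : V → ℝ} {F : V → V} {w : ℝ} (id : ∀ y, ρ y ≤ 0 → F y = y)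
    (lt : ∀ y, 0 < ρ y → ρ y ≤ w → ρ (F y) < ρ y) (inn : ∀ y, ρ (F y) ≤ w) {y : V} {N : ℕ}
    (hN : 0 < N) (e : F^[N] y = y) : ρ y ≤ 0 := by
  obtain ⟨n, rfl⟩ := Nat.exists_eq_succ_of_ne_zero hN.ne'
  have hy : ρ y ≤ w := by rw [← e, Function.iterate_succ_apply']; exact inn _
  by_contra h0
  have h1 := lt y (not_le.1 h0) hy
  have le : ∀ z, ρ z ≤ w → ρ (F z) ≤ ρ z := fun z hz => by
    rcases le_or_gt (ρ z) 0 with a | a
    · rw [id z a]
    · exact (lt z a hz).le
  have it : ∀ m, ρ (F^[m] (F y)) ≤ ρ (F y) := fun m => by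
    induction m with
    | zero => exact le_rfl
    | succ m ih =>
      rw [Function.iterate_succ_apply']
      exact (le _ (ih.trans (inn y))).trans ih
  have := it n
  rw [← Function.iterate_succ_apply, e] at this
  exact absurd this (not_le.2 h1)

end Ps
open Ps

theorem psh : PSH := by
  intro s ρ f w w' hρ hf h0 hw
  obtain ⟨R, hR⟩ := hρ.bdd
  have sm : ContDiff ℝ ∞ fun p : ℂ × Y => ρ p - w' / 2 := hρ.sm.sub contDiff_const
  obtain ⟨k, C, hC, hk⟩ := A.Rs.exists_dn sm (w := w - w' / 2) (R := R)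
    (isCompact_range (lb_ct s))
    (fun x _ y a b => by
      rw [fderiv_sub_const]
      exact hρ.reg x y (by linarith) (by linarith))
    (fun x _ y a => hR x y (by linarith))
  have uc : Continuous (up s ρ) :=
    hρ.sm.continuous.comp (((lb_ct s).comp continuous_fst).prodMk continuous_snd)
  have inn : ∀ z, ρ ((lb s z.1).1, f z) ≤ w := hf.inn
  have ro : ∀ t ∈ Icc (0 : ℝ) 1, ∀ z : S × Y, ρ ((lb s z.1).1, k (t, (lb s z.1).1, f z)) =
      ρ ((lb s z.1).1, f z) - t * max (ρ ((lb s z.1).1, f z) - w' / 2) 0 := fun t ht z => by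
    have := hk.ro t ht _ (mem_range_self z.1) (f z) (by linarith [inn z])
    linarith
  have le : ∀ t ∈ Icc (0 : ℝ) 1, ∀ z : S × Y, ρ ((lb s z.1).1, k (t, (lb s z.1).1, f z)) ≤
      ρ ((lb s z.1).1, f z) := fun t ht z => by
    rw [ro t ht z]
    have := mul_nonneg ht.1 (le_max_right (ρ ((lb s z.1).1, f z) - w' / 2) 0)
    linarith
  have id : ∀ t, ∀ z : S × Y, up s ρ z ≤ 0 → k (t, (lb s z.1).1, f z) = z.2 := fun t z hz => by
    rw [hf.id z hz]
    exact hk.id _ _ _ (by have : ρ ((lb s z.1).1, z.2) ≤ 0 := hz; linarith)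
  have near : ∀ z : S × Y, up s ρ z ≤ 0 →
      ∀ᶠ q : S × Y in 𝓝 z, ∀ t, k (t, (lb s q.1).1, f q) = f q := fun z hz => by
    have c : Continuous fun q : S × Y => up s ρ (q.1, f q) :=
      uc.comp (continuous_fst.prodMk hf.ct)
    have : up s ρ (z.1, f z) < w' / 2 := by
      rw [hf.id z hz]; exact lt_of_le_of_lt hz (by linarith)
    filter_upwards [c.continuousAt.eventually_lt continuousAt_const this] with q hq t
    exact hk.id _ _ _ (by have : ρ ((lb s q.1).1, f q) < w' / 2 := hq; linarith)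
  have ev : ∀ t, Ev fun z : S × Y => k (t, (lb s z.1).1, f z) := fun t σ σ' c η r => by
    obtain ⟨hc, e⟩ := lb_rl s r
    show k (t, (lb s σ').1, f (σ', act c η)) = act c (k (t, (lb s σ).1, f (σ, η)))
    rw [hf.eq σ σ' c η r]
    exact hk.eq _ _ (actL hc) (fun y => by
      show ρ (_, act c y) - _ = _
      rw [e, hρ.inv c _ _ hc]) t _
  obtain ⟨B, hB⟩ := hf.bd
  have bd : ∀ t ∈ Icc (0 : ℝ) 1, ∀ z : S × Y, ‖k (t, (lb s z.1).1, f z)‖ ≤ B + C * w :=
    fun t ht z => by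
    have a := hk.nr t (lb s z.1).1 (f z)
    have b : |t| * max (ρ ((lb s z.1).1, f z) - w' / 2) 0 ≤ 1 * w :=
      mul_le_mul (by rw [abs_of_nonneg ht.1]; exact ht.2)
        (max_le (by linarith [inn z]) hf.w0.le) (le_max_right _ _) zero_le_one
    have c := mul_le_mul_of_nonneg_left b hC
    have d := norm_le_norm_add_norm_sub' (k (t, (lb s z.1).1, f z)) (f z)
    have := hB z
    linarith
  have lt : ∀ t ∈ Icc (0 : ℝ) 1, ∀ z : S × Y, 0 < up s ρ z → up s ρ z ≤ w →
      up s ρ (z.1, k (t, (lb s z.1).1, f z)) < up s ρ z := fun t ht z a b =>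
    lt_of_le_of_lt (le t ht z) (hf.lt z a b)
  have kc : ∀ {Z : Type} [TopologicalSpace Z] {t : Z → ℝ} {z : Z → S × Y}, Continuous t →
      Continuous z → Continuous fun x => k (t x, (lb s (z x).1).1, f (z x)) := fun ht hz =>
    hk.co.comp (ht.prodMk (((lb_ct s).comp (continuous_fst.comp hz)).prodMk (hf.ct.comp hz)))
  have pe : ∀ (b : S × unitInterval) (y : Y) (N : ℕ), 0 < N →
      (fun y => k (b.2, (lb s b.1).1, f (b.1, y)))^[N] y = y → up s ρ (b.1, y) ≤ 0 :=
    fun b y N hN e => per (ρ := fun y => up s ρ (b.1, y)) (w := w)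
      (fun y a => id _ (b.1, y) a) (fun y a a' => lt _ b.2.2 (b.1, y) a a')
      (fun y => (le _ b.2.2 (b.1, y)).trans (inn _)) hN e
  refine ⟨fun z => k (1, (lb s z.1).1, f z),
    ⟨fun q => k (q.1.2, (lb s q.1.1).1, f (q.1.1, q.2)), ⟨?_, ⟨B + C * w, fun q => ?_⟩, ?_, ?_⟩,
      fun t => ev t, fun z => (hk.ze _ _).symm, fun z => rfl⟩,
    h0, kc continuous_const continuous_id, ev 1, ⟨_, bd 1 ⟨zero_le_one, le_rfl⟩⟩, id 1,
    fun z a b => lt 1 ⟨zero_le_one, le_rfl⟩ z a (b.trans hw), fun z => ?_, fun z hz => ?_⟩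
  · exact kc (t := fun q : (S × unitInterval) × Y => (q.1.2 : ℝ)) (z := fun q => (q.1.1, q.2))
      (by fun_prop) (by fun_prop)
  · exact bd _ q.1.2.2 (q.1.1, q.2)
  · intro b y N hN e
    exact id _ (b.1, y) (pe b y N hN e)
  · intro b y e
    have hz := pe b y 1 one_pos e
    refine ⟨1, fun a a' => rfl, sd_congr (sd_pull (φ := Prod.fst) continuous_fst (hf.sd _ hz)) ?_⟩
    have c : Tendsto (fun q : (S × unitInterval) × Y => (q.1.1, q.2)) (𝓝 (b, y)) (𝓝 (b.1, y)) :=
      (by fun_prop : Continuous fun q : (S × unitInterval) × Y => (q.1.1, q.2)).tendsto' _ _ rfl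
    filter_upwards [c.eventually (near _ hz)] with q hq
    exact hq _
  · show ρ ((lb s z.1).1, k (1, (lb s z.1).1, f z)) ≤ w'
    rw [ro 1 ⟨zero_le_one, le_rfl⟩ z]
    have := le_max_left (ρ ((lb s z.1).1, f z) - w' / 2) 0
    linarith
  · exact sd_congr (hf.sd z hz) ((near z hz).mono fun q hq => hq 1)

end Crest.Agent.N218.Pc

end
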