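import Crest.Agent.N218.Pc.Defs
import Crest.Agent.N218.P.Kit

/-! Row 218, block PIECE: the gradient-like structure descends (helper36). -/

set_option autoImplicit false
set_option linter.unusedVariables false
open Set Topology
open scoped RealInnerProductSpace

noncomputable section

namespace Crest.Agent.N218.Pc.Rg
open P Sk

theorem le_of_sq {a b : ℝ} (h : 0 ≤ b) (k : a ^ 2 ≤ b ^ 2) : a ≤ b := abs_le_of_sq_le_sq' k h |>.2

/-- `qV` as a linear map -/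
def qVL : Y →L[ℝ] Y := LinearMap.toContinuousLinearMap
  { toFun := qV
    map_add' := fun a b => by apply Y_ext <;> simp [qV]
    map_smul' := fun c a => by apply Y_ext <;> simp [qV] }
/-- `qW` as a linear map -/
def qWL : Y →L[ℝ] Y := LinearMap.toContinuousLinearMap
  { toFun := qW
    map_add' := fun a b => by apply Y_ext <;> simp [qW]
    map_smul' := fun c a => by apply Y_ext <;> simp [qW] }
theorem qVL_eq (η : Y) : qVL η = qV η := rfl
theorem qWL_eq (η : Y) : qWL η = qW η := rfl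
/-- `H0` as a linear map -/
def H0L (ε : ℝ) : Y →L[ℝ] Y := (2 * ε) • (1 - qVL) - (ε / 500) • (qVL + qWL)
theorem H0L_eq (ε : ℝ) (η : Y) : H0L ε η = H0 ε η := rfl

theorem qV_act (c : ℂ) (η : Y) : qV (act c η) = act c (qV η) := by
  apply Y_ext <;> simp [qV, act]
theorem qW_act (c : ℂ) (η : Y) : qW (act c η) = act c (qW η) := by
  apply Y_ext <;> simp [qW, act]
theorem H0_act (ε : ℝ) (c : ℂ) (η : Y) : H0 ε (act c η) = act c (H0 ε η) := by
  simp only [H0, act_sub, act_smul, act_add, qV_act, qW_act]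
theorem qW_qW (η : Y) : qW (qW η) = qW η := by apply Y_ext <;> simp [qW]
theorem qV_qV (η : Y) : qV (qV η) = qV η := by apply Y_ext <;> simp [qV]
theorem n_qW (η : Y) : ‖qW η‖ = ‖pw η‖ := by
  have : ‖qW η‖ ^ 2 = ‖pw η‖ ^ 2 := by rw [Y_sq, V_sq]; simp [qW, pw]
  exact (pow_left_inj₀ (norm_nonneg _) (norm_nonneg _) two_ne_zero).1 this
theorem n_qW_le (η : Y) : ‖qW η‖ ≤ ‖η‖ := by
  refine le_of_sq (norm_nonneg _) ?_
  rw [Y_sq, Y_sq η]; simp [qW]; nlinarith [sq_nonneg ‖η 0‖, sq_nonneg ‖η 1‖, sq_nonneg ‖η 4‖]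
theorem qV_sym (a b : Y) : ⟪qV a, b⟫ = ⟪a, qV b⟫ := by
  simp [PiLp.inner_apply, Fin.sum_univ_five, qV]
theorem qW_sym (a b : Y) : ⟪qW a, b⟫ = ⟪a, qW b⟫ := by
  simp [PiLp.inner_apply, Fin.sum_univ_five, qW]
theorem H0_sym (ε : ℝ) (a b : Y) : ⟪H0 ε a, b⟫ = ⟪a, H0 ε b⟫ := by
  simp only [H0, inner_sub_left, inner_sub_right, inner_add_left, inner_add_right,
    real_inner_smul_left, real_inner_smul_right, qV_sym, qW_sym]
theorem H0_qV (ε : ℝ) (η : Y) : H0 ε (qV η) = -(ε / 500) • qV η := by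
  apply Y_ext <;> simp [H0, qV, qW]
theorem qV_H0 (ε : ℝ) (η : Y) : qV (H0 ε η) = -(ε / 500) • qV η := by
  apply Y_ext <;> simp [H0, qV, qW]
theorem n_H0 {ε : ℝ} (h0 : 0 < ε) (h1 : ε ≤ 1 / 4) (η : Y) : ‖H0 ε η‖ ^ 2 ≤ 1 / 4 * ‖η‖ ^ 2 := by
  have e : H0 ε η = !₂[-(ε / 500) • η 0, -(ε / 500) • η 1, (2 * ε - ε / 500) • η 2,
      (2 * ε - ε / 500) • η 3, (2 * ε) • η 4] := by
    apply Y_ext <;> simp [H0, qV, qW] <;> ring
  have k : ∀ (t : ℝ) (z : ℂ), |t| ≤ 1 / 2 → ‖t • z‖ ^ 2 ≤ 1 / 4 * ‖z‖ ^ 2 := fun t z h => by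
    rw [norm_smul, mul_pow, Real.norm_eq_abs]
    exact mul_le_mul_of_nonneg_right (by nlinarith [abs_nonneg t]) (sq_nonneg _)
  have a := k (-(ε / 500)) (η 0) (by rw [abs_le]; constructor <;> linarith)
  have b := k (-(ε / 500)) (η 1) (by rw [abs_le]; constructor <;> linarith)
  have c := k (2 * ε - ε / 500) (η 2) (by rw [abs_le]; constructor <;> linarith)
  have d := k (2 * ε - ε / 500) (η 3) (by rw [abs_le]; constructor <;> linarith)
  have f := k (2 * ε) (η 4) (by rw [abs_le]; constructor <;> linarith)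
  rw [e, Y_sq, Y_sq η]
  change ‖-(ε / 500) • η 0‖ ^ 2 + ‖-(ε / 500) • η 1‖ ^ 2 + ‖(2 * ε - ε / 500) • η 2‖ ^ 2 +
    ‖(2 * ε - ε / 500) • η 3‖ ^ 2 + ‖(2 * ε) • η 4‖ ^ 2 ≤ _
  linarith

theorem cm_le {E : Type} [NormedAddCommGroup E] [NormedSpace ℝ E] (e : E) : ‖cm e‖ ≤ 1 / 2 := by
  have p : 0 < 2 * max 1 ‖e‖ := by positivity
  rw [cm, norm_smul, norm_inv, Real.norm_of_nonneg p.le, inv_mul_le_iff₀ p]
  linarith [le_max_right 1 ‖e‖]
theorem cm_eq {E : Type} [NormedAddCommGroup E] [NormedSpace ℝ E] {e : E} (h : ‖e‖ ≤ 1) :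
    cm e = (1 / 2 : ℝ) • e := by rw [cm, max_eq_left h]; norm_num
theorem cm_ct {E : Type} [NormedAddCommGroup E] [NormedSpace ℝ E] : Continuous (cm : E → E) :=
  ((continuous_const.mul (continuous_const.max continuous_norm)).inv₀ fun e =>
    (by positivity : 0 < 2 * max 1 ‖e‖).ne').smul continuous_id

variable {n : ℕ} (B : Emb n)

theorem rl_norm {σ σ' : S} {c : ℂ} (h : Rl σ σ' c) : ‖c‖ = 1 := by
  obtain ⟨t, t', -, -, rfl⟩ := h; rw [norm_mul, Circle.norm_coe, Circle.norm_coe, one_mul]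

theorem i'_rl {σ σ' : S} {c : ℂ} (h : Rl σ σ' c) (y : Cn n) : B.ι' σ' y = act c (B.ι' σ y) := by
  refine ext_inner_left ℝ fun v => ?_
  obtain ⟨η, rfl⟩ := (actL (rl_norm h)).surjective v
  change ⟪act c η, _⟫ = ⟪act c η, _⟫
  rw [← B.ad, B.eq σ σ' c η h, B.ad, inner_act (rl_norm h)]

theorem pp_rl {σ σ' : S} {c : ℂ} (h : Rl σ σ' c) (y : Cn n) : B.pp σ' y = B.pp σ y := by
  rw [Emb.pp, Emb.pp, i'_rl B h, B.eq σ σ' c _ h]

theorem quot (T : Type) [TopologicalSpace T] : IsQuotientMap (Prod.map B.hp (id : T → T)) :=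
  (B.hc.isProperMap.prodMap isProperMap_id).isClosedMap.isQuotientMap (B.hc.prodMap continuous_id)
    ((Function.RightInverse.surjective B.hl).prodMap Function.surjective_id)

/-- invariant functions descend -/
theorem desc {T Z : Type} [TopologicalSpace T] [TopologicalSpace Z] {F : S × T → Z}
    (hF : Continuous F) (h : ∀ σ σ' c t, Rl σ σ' c → F (σ', t) = F (σ, t)) :
    Continuous fun z : X22 × T => F (B.lf z.1, z.2) := by
  rw [(quot B T).continuous_iff]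
  refine hF.congr fun z => ?_
  obtain ⟨c, r⟩ := B.rl (B.lf (B.hp z.1)) z.1 (B.hl _)
  exact h _ _ c z.2 r

theorem n_i (σ : S) (η : Y) : ‖B.ι σ η‖ = ‖η‖ := by
  have : ‖B.ι σ η‖ ^ 2 = ‖η‖ ^ 2 := by
    rw [← real_inner_self_eq_norm_sq, ← real_inner_self_eq_norm_sq, B.ad, B.li]
  exact (pow_left_inj₀ (norm_nonneg _) (norm_nonneg _) two_ne_zero).1 this
theorem i'_pp (σ : S) (y : Cn n) : B.ι' σ (B.pp σ y) = 0 := by
  rw [Emb.pp, map_sub, B.li, sub_self]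
theorem i'_mk (σ : S) (η : Y) (t : ℝ) (y : Cn n) : B.ι' σ (B.ι σ η + t • B.pp σ y) = η := by
  rw [map_add, map_smul, B.li, i'_pp, smul_zero, add_zero]
theorem pp_mk (σ : S) (η : Y) (t : ℝ) (y : Cn n) :
    B.pp σ (B.ι σ η + t • B.pp σ y) = t • B.pp σ y := by
  rw [Emb.pp, i'_mk, add_sub_cancel_left]
theorem split (σ : S) (y : Cn n) : B.ι σ (B.ι' σ y) + B.pp σ y = y := by
  rw [Emb.pp, add_sub_cancel]
theorem in_mk (σ : S) (η : Y) (t : ℝ) (y y' : Cn n) : ⟪B.ι σ η + t • B.pp σ y, y'⟫ =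
    ⟪η, B.ι' σ y'⟫ + t * ⟪B.pp σ y, B.pp σ y'⟫ := by
  have : ⟪B.pp σ y, B.ι σ (B.ι' σ y')⟫ = 0 := by
    rw [real_inner_comm, B.ad, i'_pp, inner_zero_right]
  rw [inner_add_left, B.ad, real_inner_smul_left, Emb.pp.eq_1 B σ y', inner_sub_right, this, sub_zero]
theorem n_mk (σ : S) (η : Y) (t : ℝ) (y : Cn n) :
    ‖B.ι σ η + t • B.pp σ y‖ ^ 2 = ‖η‖ ^ 2 + t ^ 2 * ‖B.pp σ y‖ ^ 2 := by
  rw [← real_inner_self_eq_norm_sq, in_mk, i'_mk, pp_mk, real_inner_smul_right,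
    real_inner_self_eq_norm_sq, real_inner_self_eq_norm_sq]; ring
theorem pyth (σ : S) (y : Cn n) : ‖y‖ ^ 2 = ‖B.ι' σ y‖ ^ 2 + ‖B.pp σ y‖ ^ 2 := by
  have := n_mk B σ (B.ι' σ y) 1 y
  rwa [one_smul, split, one_pow, one_mul] at this
theorem n_i' (σ : S) (y : Cn n) : ‖B.ι' σ y‖ ≤ ‖y‖ :=
  le_of_sq (norm_nonneg _) (by rw [pyth B σ y]; nlinarith [sq_nonneg ‖B.pp σ y‖])
theorem n_pp (σ : S) (y : Cn n) : ‖B.pp σ y‖ ≤ ‖y‖ :=
  le_of_sq (norm_nonneg _) (by rw [pyth B σ y]; nlinarith [sq_nonneg ‖B.ι' σ y‖])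
theorem p1 (x : X22) (y : Cn n) : B.π₁ x y = B.ι (B.lf x) (qW (B.ι' (B.lf x) y)) := by
  rw [← B.e₁, B.hl]
theorem p2 (x : X22) (y : Cn n) : B.π₂ x y = B.ι (B.lf x) (qV (B.ι' (B.lf x) y)) := by
  rw [← B.e₂, B.hl]
theorem n_p1 (x : X22) (y : Cn n) : ‖B.π₁ x y‖ = ‖pw (B.ι' (B.lf x) y)‖ := by
  rw [p1, n_i, n_qW]
theorem i'_ct : Continuous fun z : S × Cn n => B.ι' z.1 z.2 :=
  (B.ic'.comp continuous_fst).clm_apply continuous_snd
theorem pp_ct : Continuous fun z : S × Cn n => B.pp z.1 z.2 :=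
  continuous_snd.sub ((B.ic.comp continuous_fst).clm_apply (i'_ct B))

/-- the descended structure -/
def rg (ε : ℝ) (e : S × Y → Y) (D : Set (S × Y)) (J : ℝ × S × Y → Y) (g : S × Y → ℝ) :
    Rd.Rg X22 (Cn n) (Cn n) where
  p₁ x := (B.π₁ x).restrictScalars ℝ
  C _ := 0
  μ := 1 + ε / 500
  O := univ
  ph := cv (fun z => (1 + ε / 500) • B.π₁ z.1 z.2) (B.ds e)
  f := B.ds e
  Dm := {w | (B.lf w.1, B.ι' (B.lf w.1) w.2) ∈ D ∧ ‖B.pp (B.lf w.1) w.2‖ ≤ 1}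
  j w := B.ι (B.lf w.2.1) (J (w.1, B.lf w.2.1, B.ι' (B.lf w.2.1) w.2.2)) +
    (1 - Pm.cl w.1 / 2) • B.pp (B.lf w.2.1) w.2.2
  g w := g (B.lf w.1, B.ι' (B.lf w.1) w.2) + 1 / 4 * ‖B.pp (B.lf w.1) w.2‖ ^ 2
  H x := (B.ι (B.lf x)).comp ((H0L ε).comp (B.ι' (B.lf x))) +
    (1 / 2 : ℝ) • (1 - (B.ι (B.lf x)).comp (B.ι' (B.lf x)))
  ι x := (B.π₂ x).restrictScalars ℝ
  ι' x := (B.π₂ x).restrictScalars ℝ
  a := ε / 500
  r := 1 / 100

end Crest.Agent.N218.Pc.Rg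

namespace Crest.Agent.N218.Pc
open P Sk Rg

attribute [local irreducible] pw qW qV act in
set_option maxHeartbeats 400000 in
theorem rgd : RGD := by
  intro n B ε e D J g h
  have e0 := h.ε0
  have cl01 : ∀ t, 0 ≤ Pm.cl t ∧ Pm.cl t ≤ 1 := fun t =>
    ⟨le_max_left _ _, max_le zero_le_one (min_le_left _ _)⟩
  have cle : ∀ t ∈ Icc (0 : ℝ) 1, Pm.cl t = t := fun t ht => by
    rw [Pm.cl, min_eq_right ht.2, max_eq_right ht.1]
  have fe : ∀ w : X22 × Cn n, B.ds e w = B.ι (B.lf w.1) (e (B.lf w.1, B.ι' (B.lf w.1) w.2)) +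
      (2 * max 1 ‖B.pp (B.lf w.1) w.2‖)⁻¹ • B.pp (B.lf w.1) w.2 := fun _ => rfl
  have He : ∀ x y, (rg B ε e D J g).H x y = B.ι (B.lf x) (H0 ε (B.ι' (B.lf x) y)) +
      (1 / 2 : ℝ) • B.pp (B.lf x) y := fun _ _ => rfl
  have fc : Continuous (B.ds e) :=
    desc B (F := fun z : S × Cn n => B.ι z.1 (e (z.1, B.ι' z.1 z.2)) + cm (B.pp z.1 z.2))
      (((B.ic.comp continuous_fst).clm_apply (h.ec.comp (continuous_fst.prodMk (i'_ct B)))).add
        (cm_ct.comp (pp_ct B))) fun σ σ' c t r => by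
      simp only [i'_rl B r, pp_rl B r, h.ee σ σ' c _ r, B.eq σ σ' c _ r]
  have gc : Continuous (rg B ε e D J g).g :=
    desc B (F := fun z : S × Cn n => g (z.1, B.ι' z.1 z.2) + 1 / 4 * ‖B.pp z.1 z.2‖ ^ 2)
      ((h.gc.comp (continuous_fst.prodMk (i'_ct B))).add (continuous_const.mul ((pp_ct B).norm.pow 2)))
      fun σ σ' c t r => by simp only [i'_rl B r, pp_rl B r, h.gi σ σ' c _ r]
  have dc : IsClosed (rg B ε e D J g).Dm := by
    rw [← (quot B (Cn n)).isClosed_preimage]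
    convert (h.dc.preimage (continuous_fst.prodMk (i'_ct B))).inter
      (isClosed_le (pp_ct B).norm (continuous_const (y := (1 : ℝ)))) using 1
    ext z
    obtain ⟨c, r⟩ := B.rl (B.lf (B.hp z.1)) z.1 (B.hl _)
    change _ ∧ _ ↔ (z.1, B.ι' z.1 z.2) ∈ D ∧ ‖B.pp z.1 z.2‖ ≤ 1
    rw [i'_rl B r, pp_rl B r, h.di _ _ c _ r]; rfl
  have cc : Continuous fun w : (X22 × ℝ) × Cn n => Pm.cl w.1.2 := by unfold Pm.cl; fun_prop
  have pc : Continuous (rg B ε e D J g).ph :=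
    ((continuous_const.sub cc).smul (((B.p₁.ct.comp continuous_fst.fst).clm_apply
      continuous_snd).const_smul (1 + ε / 500))).add
      (cc.smul (fc.comp (continuous_fst.fst.prodMk continuous_snd)))
  have rc : ∀ π : X22 → Cn n →L[ℂ] Cn n, Continuous π →
      Continuous fun x => (π x).restrictScalars ℝ := fun π hπ =>
    continuous_clm_apply.2 fun y => hπ.clm_apply continuous_const
  have sm1 : ∀ x (t : ℝ) y, B.π₁ x (t • y) = t • B.π₁ x y := fun x t y =>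
    ((B.π₁ x).restrictScalars ℝ).map_smul t y
  have p1f : ∀ w : X22 × Cn n, B.π₁ w.1 (B.ds e w) =
      B.ι (B.lf w.1) (qW (e (B.lf w.1, B.ι' (B.lf w.1) w.2))) := fun w => by
    rw [p1, fe, i'_mk]
  have fD : ∀ w : X22 × Cn n, (w.1, B.ds e w) ∈ (rg B ε e D J g).Dm := fun w => by
    refine ⟨?_, ?_⟩
    · change (B.lf w.1, B.ι' (B.lf w.1) (B.ds e w)) ∈ D
      rw [fe, i'_mk]; exact h.fD (_, _)
    · change ‖B.pp (B.lf w.1) (B.ds e w)‖ ≤ 1
      rw [fe, pp_mk]; exact (cm_le _).trans (by norm_num)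
  have db : ∀ w ∈ (rg B ε e D J g).Dm, ‖w.2 - B.π₁ w.1 w.2‖ ≤ 3 := fun w hw => by
    have a : w.2 - B.π₁ w.1 w.2 = B.ι (B.lf w.1) (B.ι' (B.lf w.1) w.2 - qW (B.ι' (B.lf w.1) w.2)) +
        B.pp (B.lf w.1) w.2 := by rw [p1, map_sub, Emb.pp]; abel
    rw [a]
    refine (norm_add_le _ _).trans ?_
    rw [n_i]
    linarith [h.db _ hw.1, hw.2]
  have j1 : ∀ w ∈ (rg B ε e D J g).Dm, (rg B ε e D J g).j (1, w) = B.ds e w := fun w hw => by
    change B.ι _ (J (1, _)) + (1 - Pm.cl 1 / 2) • _ = B.ι _ _ + cm _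
    rw [h.j1 _ hw.1, cm_eq hw.2, cle 1 ⟨zero_le_one, le_rfl⟩]; norm_num
  have ge : ∀ (x : X22) η (t : ℝ) y, (rg B ε e D J g).g (x, B.ι (B.lf x) η + t • B.pp (B.lf x) y) =
      g (B.lf x, η) + 1 / 4 * (t ^ 2 * ‖B.pp (B.lf x) y‖ ^ 2) := fun x η t y => by
    change g (_, B.ι' _ _) + 1 / 4 * ‖B.pp _ _‖ ^ 2 = _
    rw [i'_mk, pp_mk, norm_smul, mul_pow, Real.norm_eq_abs, sq_abs]
  refine ⟨rg B ε e D J g, 0, ε / 500, 2, 3,
    { pc := rc _ B.p₁.ct
      pi := B.p₁.id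
      pn := fun x y => ?_
      hμ := by change 1 < 1 + ε / 500; linarith
      hc := one_pos
      hκ := by positivity
      Cc := continuous_const
      Cn := fun _ => norm_zero.le
      Cp := fun _ _ => ⟨map_zero _, rfl⟩
      hp := ⟨isOpen_univ, pc.continuousOn, fun R => ?_, fun w _ => ?_, fun w _ hw => ?_,
        fun x s y hs => ⟨trivial, ?_⟩⟩
      en := fun x s y hs => ⟨trivial, ?_⟩
      fc := fc
      dc := dc
      fD := fD
      db := db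
      jc := ?_
      j0 := fun w => ?_
      j1 := j1
      jD := fun s hs w hw => ⟨?_, ?_⟩
      jg := fun s hs w hw => ?_
      jx := fun s hs w hw hx => ?_
      gc := gc
      gf := fun w hw h0 => ?_
      gk := fun b => ?_
      ha := by change 0 < ε / 500; positivity
      hr := by change (0 : ℝ) < 1 / 100; norm_num
      Hc := continuous_clm_apply.2 fun y => ?_
      Hs := fun x y y' => ?_
      Hn := fun x y => ?_
      ic := rc _ B.p₂.ct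
      ic' := rc _ B.p₂.ct
      ad := fun x z y => ?_
      iii := fun x z => (B.p₂.id x _).trans (B.p₂.id x z)
      HP := fun x y => ?_
      Hm := fun x z => ?_
      Hp := fun x y hy => ?_
      ln := fun x y hy => ?_ }, fun _ _ => rfl, B.p₂.id, rfl, rfl⟩
  · change ‖B.π₁ x y‖ ≤ _
    rw [p1, n_i]; exact (n_qW_le _).trans (n_i' B _ y)
  · refine (((isCompact_univ (X := X22)).prod (isCompact_closedBall (0 : ℝ) R)).prod
      (isCompact_closedBall (0 : Cn n) R)).of_isClosed_subset (isClosed_univ.inter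
        ((isClosed_le continuous_fst.snd.abs continuous_const).inter ((isClosed_le pc.norm
          continuous_const).inter (isClosed_le continuous_snd.norm continuous_const)))) ?_
    rintro w ⟨-, a, -, d⟩
    exact ⟨⟨trivial, mem_closedBall_zero_iff.2 a⟩, mem_closedBall_zero_iff.2 d⟩
  · have a : (rg B ε e D J g).ph w - B.π₁ w.1.1 ((rg B ε e D J g).ph w) = Pm.cl w.1.2 •
        (B.ds e (w.1.1, w.2) - B.π₁ w.1.1 (B.ds e (w.1.1, w.2))) := by
      simp only [rg, cv, map_add, sm1, B.p₁.id]; module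
    change ‖(rg B ε e D J g).ph w - B.π₁ w.1.1 ((rg B ε e D J g).ph w)‖ ≤ 3 + 0 * _
    have r := db _ (fD (w.1.1, w.2))
    dsimp only at r
    rw [a, norm_smul, Real.norm_of_nonneg (cl01 _).1]
    nlinarith [cl01 w.1.2, norm_nonneg (B.ds e (w.1.1, w.2) - B.π₁ w.1.1 (B.ds e (w.1.1, w.2)))]
  · have hw' : 2 ≤ ‖B.π₁ w.1.1 w.2‖ := hw
    have u : B.π₁ w.1.1 (B.ds e (w.1.1, w.2)) = (1 + ε / 500) • B.π₁ w.1.1 w.2 := by
      rw [p1f (w.1.1, w.2), h.ex _ (by rwa [n_p1] at hw'), ← qWL_eq, map_smul, map_smul, qWL_eq,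
        qW_qW, p1]
    have v : B.π₁ w.1.1 ((rg B ε e D J g).ph w) = (1 + ε / 500) • B.π₁ w.1.1 w.2 := by
      simp only [rg, cv, map_add, sm1, B.p₁.id, u]; module
    change (1 + ε / 500) * ‖B.π₁ w.1.1 w.2‖ ≤ ‖B.π₁ w.1.1 ((rg B ε e D J g).ph w)‖
    rw [v, norm_smul, Real.norm_of_nonneg (by positivity)]
  · have : Pm.cl s = 0 := max_eq_left ((min_le_right _ _).trans hs)
    simp [rg, cv, this]
  · have : Pm.cl s = 1 := by rw [Pm.cl, min_eq_left hs, max_eq_right zero_le_one]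
    simp [rg, cv, this]
  · have a : Continuous fun z : S × ℝ × Cn n => (z.1, z.2.2) := by fun_prop
    have b : Continuous fun z : S × ℝ × Cn n => 1 - Pm.cl z.2.1 / 2 := by unfold Pm.cl; fun_prop
    exact (desc B (F := fun z : S × ℝ × Cn n => B.ι z.1 (J (z.2.1, z.1, B.ι' z.1 z.2.2)) +
      (1 - Pm.cl z.2.1 / 2) • B.pp z.1 z.2.2)
      (((B.ic.comp continuous_fst).clm_apply (h.jc.comp (continuous_snd.fst.prodMk
        (continuous_fst.prodMk ((i'_ct B).comp a))))).add (b.smul ((pp_ct B).comp a)))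
      fun σ σ' c t r => by
        have := h.je t.1 σ σ' c (B.ι' σ t.2) r
        simp only [i'_rl B r, pp_rl B r] at this ⊢
        rw [this, B.eq σ σ' c _ r]).comp
      (by fun_prop : Continuous fun w : ℝ × X22 × Cn n => (w.2.1, w.1, w.2.2))
  · change B.ι _ (J (0, _)) + (1 - Pm.cl 0 / 2) • _ = _
    rw [h.j0, cle 0 ⟨le_rfl, zero_le_one⟩, zero_div, sub_zero, one_smul, split]
  · change (B.lf w.1, B.ι' (B.lf w.1) (B.ι _ _ + _ • B.pp _ _)) ∈ D
    rw [i'_mk]; exact h.jD s hs _ hw.1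
  · change ‖B.pp (B.lf w.1) (B.ι _ _ + _ • B.pp _ _)‖ ≤ 1
    rw [pp_mk, norm_smul, Real.norm_of_nonneg (by linarith [cl01 s])]
    nlinarith [cl01 s, hw.2, norm_nonneg (B.pp (B.lf w.1) w.2)]
  · change (rg B ε e D J g).g (w.1, B.ι (B.lf w.1) (J (s, B.lf w.1, B.ι' (B.lf w.1) w.2)) +
      (1 - Pm.cl s / 2) • B.pp (B.lf w.1) w.2) ≤
      g (B.lf w.1, B.ι' (B.lf w.1) w.2) + 1 / 4 * ‖B.pp (B.lf w.1) w.2‖ ^ 2
    rw [ge]
    have a := h.jg s hs (B.lf w.1, B.ι' (B.lf w.1) w.2) hw.1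
    dsimp only at a
    have : (1 - Pm.cl s / 2) ^ 2 ≤ 1 := by nlinarith [cl01 s]
    have := mul_le_mul_of_nonneg_right this (sq_nonneg ‖B.pp (B.lf w.1) w.2‖)
    linarith
  · change ‖B.π₁ w.1 w.2‖ ≤ ‖B.π₁ w.1 (B.ι _ _ + _ • B.pp _ _)‖
    have hx' : 2 ≤ ‖B.π₁ w.1 w.2‖ := hx
    rw [n_p1] at hx'
    rw [n_p1, n_p1, i'_mk]
    have a := h.jx s hs (B.lf w.1, B.ι' (B.lf w.1) w.2) hw.1 (by dsimp only; exact hx')
    dsimp only at a
    exact a
  · change (rg B ε e D J g).g (w.1, B.ι (B.lf w.1) (e (B.lf w.1, B.ι' (B.lf w.1) w.2)) +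
      cm (B.pp (B.lf w.1) w.2)) <
      g (B.lf w.1, B.ι' (B.lf w.1) w.2) + 1 / 4 * ‖B.pp (B.lf w.1) w.2‖ ^ 2
    rw [cm_eq hw.2, ge]
    by_cases z : B.ι' (B.lf w.1) w.2 = 0
    · have a := h.jg 1 ⟨zero_le_one, le_rfl⟩ _ hw.1
      rw [h.j1 _ hw.1] at a
      dsimp only at a
      have b := pyth B (B.lf w.1) w.2
      rw [z, norm_zero] at b
      have : 0 < ‖w.2‖ ^ 2 := pow_pos (norm_pos_iff.2 h0) 2
      linarith
    · have a := h.gf _ hw.1 (by dsimp only; exact z)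
      dsimp only at a
      linarith [sq_nonneg ‖B.pp (B.lf w.1) w.2‖]
  · obtain ⟨R, hR⟩ := h.gk (b + 1)
    refine ((isCompact_univ (X := X22)).prod (isCompact_closedBall (0 : Cn n)
      (R + 1))).of_isClosed_subset (dc.inter (isClosed_le continuous_const gc)) ?_
    rintro w ⟨hw, d⟩
    refine ⟨trivial, mem_closedBall_zero_iff.2 ?_⟩
    have d' : -b ≤ g (B.lf w.1, B.ι' (B.lf w.1) w.2) + 1 / 4 * ‖B.pp (B.lf w.1) w.2‖ ^ 2 := d
    have p : ‖B.pp (B.lf w.1) w.2‖ ≤ 1 := hw.2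
    have a := hR _ hw.1 (by nlinarith [norm_nonneg (B.pp (B.lf w.1) w.2)])
    dsimp only at a
    rw [← split B (B.lf w.1) w.2]
    refine (norm_add_le _ _).trans ?_
    rw [n_i]; exact add_le_add a p
  · exact (desc B (F := fun z : S × Cn n => B.ι z.1 (H0L ε (B.ι' z.1 z.2)) +
      (1 / 2 : ℝ) • B.pp z.1 z.2)
      (((B.ic.comp continuous_fst).clm_apply ((H0L ε).continuous.comp (i'_ct B))).add
        ((pp_ct B).const_smul (1 / 2 : ℝ))) fun σ σ' c t r => by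
        simp only [H0L_eq, i'_rl B r, pp_rl B r, H0_act, B.eq σ σ' c _ r]).comp
      (continuous_id.prodMk (continuous_const (y := y)))
  · rw [real_inner_comm _ y, He, He, in_mk, in_mk, H0_sym, real_inner_comm (B.ι' _ y),
      real_inner_comm (B.pp _ y)]
  · refine le_of_sq (by positivity) ?_
    rw [He, n_mk, mul_pow, pyth B (B.lf x) y]
    linarith [n_H0 e0 h.ε1 (B.ι' (B.lf x) y)]
  · change ⟪B.π₂ x z, y⟫ = ⟪z, B.π₂ x y⟫
    rw [real_inner_comm _ z, p2, p2, B.ad, B.ad, qV_sym, real_inner_comm]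
  · change (rg B ε e D J g).H x (B.π₂ x (B.π₂ x y)) = B.π₂ x (B.π₂ x ((rg B ε e D J g).H x y))
    rw [B.p₂.id, B.p₂.id, He, He, p2 B x (_ + _), i'_mk, p2, B.li, H0_qV, qV_H0, Emb.pp, B.li,
      sub_self, smul_zero, add_zero]
  · change ⟪(rg B ε e D J g).H x (B.π₂ x z), B.π₂ x z⟫ ≤ -(ε / 500 * ‖B.π₂ x z‖ ^ 2)
    rw [He, in_mk, p2, B.li, H0_qV, n_i, Emb.pp, B.li, sub_self, real_inner_smul_left,
      real_inner_self_eq_norm_sq]
    simp
  · have z : qV (B.ι' (B.lf x) y) = 0 := by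
      have : B.π₂ x y = 0 := hy
      rw [p2] at this
      rw [← B.li (B.lf x) (qV _), this, map_zero]
    rw [He, in_mk, real_inner_self_eq_norm_sq, H0, z, sub_zero, zero_add, inner_sub_left,
      real_inner_smul_left, real_inner_smul_left, real_inner_self_eq_norm_sq]
    have a := real_inner_le_norm (qW (B.ι' (B.lf x) y)) (B.ι' (B.lf x) y)
    have b := mul_le_mul_of_nonneg_right (n_qW_le (B.ι' (B.lf x) y)) (norm_nonneg (B.ι' (B.lf x) y))
    nlinarith [sq_nonneg ‖B.pp (B.lf x) y‖, sq_nonneg ‖B.ι' (B.lf x) y‖]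
  · have hy' : ‖y‖ ≤ 1 / 50 := by have : ‖y‖ ≤ 2 * (1 / 100) := hy; linarith
    obtain ⟨a, b, d⟩ := h.ln (B.lf x, B.ι' (B.lf x) y)
      (by dsimp only; exact (n_i' B _ y).trans hy')
    dsimp only at b d
    refine ⟨⟨a, ((n_pp B _ y).trans hy').trans (by norm_num)⟩, ?_, fun s hs => ?_⟩
    · change g _ + 1 / 4 * ‖B.pp (B.lf x) y‖ ^ 2 = _
      rw [b, He, in_mk, real_inner_self_eq_norm_sq]; ring
    · change B.ι _ (J (s, _)) + (1 - Pm.cl s / 2) • B.pp (B.lf x) y = _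
      rw [d s hs, He, cle s hs, map_sub, map_smul, Emb.pp]
      module

end Crest.Agent.N218.Pc
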