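import Crest.Agent.N218.Pc.Defs
import Crest.Agent.N218.Pc.Ll
import Crest.Agent.N218.Pm.Kit1

/-! Row 218, block PIECE (helper54): the gradient-like structure upstairs. -/

set_option autoImplicit false
set_option linter.unusedVariables false
open Set Topology
open scoped ContDiff RealInnerProductSpace

noncomputable section

namespace Crest.Agent.N218.Pc
open P Sk

namespace Gu
open Ll A.Rs

/-- squared size of the `V₁` part -/
def na (y : Y) : ℝ := ‖pv y‖ ^ 2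
/-- squared size of the `V₂` part -/
def nb (y : Y) : ℝ := ‖pw y‖ ^ 2
/-- squared size of the `ℝ²` part -/
def nc (y : Y) : ℝ := u2 y ^ 2 + u1 y ^ 2
theorem na0 (y : Y) : 0 ≤ na y := sq_nonneg _
theorem nb0 (y : Y) : 0 ≤ nb y := sq_nonneg _
theorem nc0 (y : Y) : 0 ≤ nc y := add_nonneg (sq_nonneg _) (sq_nonneg _)
theorem na_dg (a b c : ℝ) (y : Y) : na (dg a b c y) = a ^ 2 * na y := by
  rw [na, pv_dg, norm_smul, mul_pow, Real.norm_eq_abs, sq_abs, na]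
theorem nb_dg (a b c : ℝ) (y : Y) : nb (dg a b c y) = b ^ 2 * nb y := by
  rw [nb, pw_dg, norm_smul, mul_pow, Real.norm_eq_abs, sq_abs, nb]
theorem nc_dg (a b c : ℝ) (y : Y) : nc (dg a b c y) = c ^ 2 * nc y := by
  rw [nc, u2_dg, u1_dg, nc]; ring
theorem ta_e (y : Y) : tau (co y) = na y + nb y := rfl
theorem nsq (y : Y) : ‖y‖ ^ 2 = na y + nb y + nc y := by rw [norm_sq_Y, na, nb, nc]; ring
theorem qV_e (y : Y) : qV y = pV y := (pV_eq y).symm
theorem qW_e (y : Y) : qW y = pW y := (pW_eq y).symm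
theorem rsq (y : Y) : ‖y - qW y‖ ^ 2 = na y + nc y := by rw [qW_e]; exact sq_rest y
theorem rsq' (y : Y) : ‖y - qV y‖ ^ 2 = nb y + nc y := by
  rw [show y - qV y = dg 0 1 1 y by simp only [dg_apply, qV_e]; module, nsq, na_dg, nb_dg, nc_dg]
  ring
theorem r_le {y : Y} : ‖y - qW y‖ ≤ 2 ↔ na y + nc y ≤ 4 := by
  rw [← rsq, ← abs_norm, show (4 : ℝ) = 2 ^ 2 by norm_num, sq_le_sq, abs_abs, abs_two]
theorem sm_qW (m : ℝ) (y : Y) : m • qW y = dg 0 m 0 y := by rw [dg_pW, qW_e]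
theorem H0_e (ε : ℝ) (y : Y) : H0 ε y = ε • dg (-(1 / 500)) (999 / 500) 2 y := by
  simp only [H0, dg_apply, qV_e, qW_e]; module
theorem vp_e (τ t : ℝ) (y : Y) : vp τ t y = dg (1 - t * chi ‖pw y‖) (1 - t * (1 - cf τ ‖pw y‖))
    (1 - t * chi ‖pw y‖) y := by simp only [vp, dg_apply, qW_e]; module
theorem vp'_e (t : ℝ) (y : Y) : vp' t y = dg (1 - t * chi ‖pw y‖) 1 (1 - t * chi ‖pw y‖) y := by
  simp only [vp', dg_apply, qW_e]; module
theorem pw_vp' (t : ℝ) (y : Y) : pw (vp' t y) = pw y := by rw [vp'_e, pw_dg, one_smul]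
theorem nb_le {y : Y} {a : ℝ} (h : ‖pw y‖ ≤ a) : nb y ≤ a ^ 2 :=
  pow_le_pow_left₀ (norm_nonneg _) h 2
theorem nb_ge {y : Y} {a : ℝ} (h0 : 0 ≤ a) (h : a ≤ ‖pw y‖) : a ^ 2 ≤ nb y :=
  pow_le_pow_left₀ h0 h 2
theorem chi0 {ρ : ℝ} (h : ρ ≤ 9 / 5) : chi ρ = 0 := Pm.cl_of_le (by linarith)
theorem chi1 {ρ : ℝ} (h : 19 / 10 ≤ ρ) : chi ρ = 1 := Pm.cl_of_ge (by linarith)
theorem vp'_lo (t : ℝ) {y : Y} (h : ‖pw y‖ ≤ 9 / 5) : vp' t y = y := by
  rw [vp', chi0 h, mul_zero, zero_smul, sub_zero]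
theorem lam {t : ℝ} (ht : t ∈ Icc (0 : ℝ) 1) (ρ : ℝ) : (1 - t * chi ρ) ^ 2 ≤ 1 := by
  have := Pm.cl_mem (10 * ρ - 18)
  have a : 0 ≤ t * chi ρ := mul_nonneg ht.1 this.1
  have b : t * chi ρ ≤ 1 := mul_le_one₀ ht.2 this.1 this.2
  nlinarith
theorem rr2 {τ : ℝ} (h : 0 ≤ τ) : 2 ≤ rr τ := Real.le_sqrt_of_sq_le (by linarith)
theorem vp_vp' {τ : ℝ} (h : 0 ≤ τ) (t : ℝ) {y : Y} (hy : ‖pw y‖ ≤ 2) : vp τ t y = vp' t y := by
  have := rr2 h
  rw [vp_e, vp'_e, cf, max_eq_right (hy.trans this), div_self (by linarith), sub_self, mul_zero,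
    sub_zero]
theorem tau0 {τ : ℝ} (h : st (10 * τ) = 2 / 1000000) : 0 ≤ τ := by
  by_contra a
  rw [st, Real.smoothTransition.zero_of_nonpos (by linarith)] at h
  norm_num at h
theorem n_act {c : ℂ} (hc : ‖c‖ = 1) (y : Y) : ‖pw (act c y)‖ = ‖pw y‖ := by
  rw [pw_act, norm_aW hc]
theorem vp_act {c : ℂ} (hc : ‖c‖ = 1) (τ t : ℝ) (y : Y) : vp τ t (act c y) = act c (vp τ t y) := by
  rw [vp_e, vp_e, n_act hc, dg_act]
theorem vp'_act {c : ℂ} (hc : ‖c‖ = 1) (t : ℝ) (y : Y) : vp' t (act c y) = act c (vp' t y) := by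
  rw [vp'_e, vp'_e, n_act hc, dg_act]
theorem r_act {c : ℂ} (hc : ‖c‖ = 1) (y : Y) : ‖act c y - qW (act c y)‖ = ‖y - qW y‖ := by
  rw [qW_e, qW_e, pW_act, ← (actL hc).norm_map (y - pW y), map_sub]; rfl
theorem qW_c : Continuous qW := by rw [show qW = pW from funext qW_e]; exact pW.continuous
theorem chi_c : Continuous fun y : Y => chi ‖pw y‖ :=
  Pm.cont_cl ((continuous_const.mul pw_sm.continuous.norm).sub continuous_const)
theorem vp'_c : Continuous fun p : ℝ × Y => vp' p.1 p.2 :=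
  continuous_snd.sub ((continuous_fst.mul (chi_c.comp continuous_snd)).smul
    (continuous_snd.sub (qW_c.comp continuous_snd)))
theorem vp_c {τ : ℝ} (h : 0 ≤ τ) (t : ℝ) : Continuous (vp τ t) :=
  continuous_id.sub (((chi_c.smul (continuous_id.sub qW_c)).add ((continuous_const.sub
    (continuous_const.div (pw_sm.continuous.norm.max continuous_const) fun y =>
      (lt_max_of_lt_right (two_pos.trans_le (rr2 h))).ne')).smul qW_c)).const_smul t)

theorem lb_c (s : ℝ) : Continuous fun σ : S => (lb s σ).1 := by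
  unfold lb lab; fun_prop
theorem lb_rl (s : ℝ) {σ σ' : S} {c : ℂ} (h : Rl σ σ' c) :
    ‖c‖ = 1 ∧ (lb s σ').1 = c * (lb s σ).1 := by
  obtain ⟨t, t', h1, h2, rfl⟩ := h
  refine ⟨by rw [norm_mul, Circle.norm_coe, Circle.norm_coe, one_mul], ?_⟩
  simp only [lb, lab, h1, h2, PiLp.smul_apply, smul_eq_mul]; ring
theorem up_c {W : Type} [TopologicalSpace W] (s : ℝ) {ρ : ℂ × Y → W} (h : Continuous ρ) :
    Continuous (up s ρ) := h.comp (((lb_c s).comp continuous_fst).prodMk continuous_snd)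
theorem Es_c {ρ : ℂ × Y → ℝ} (h : ContDiff ℝ ∞ ρ) (s : ℝ) :
    Continuous fun p : ℝ × S × Y => Es ρ s p.1 p.2 :=
  continuous_snd.snd.sub (continuous_fst.smul
    ((up_c s (vgr_smooth h).continuous).comp continuous_snd))
theorem up_rl {ρ : ℂ × Y → ℝ} (i : ∀ c ζ η, ‖c‖ = 1 → ρ (c * ζ, act c η) = ρ (ζ, η)) (s : ℝ)
    {σ σ' : S} {c : ℂ} (η : Y) (h : Rl σ σ' c) : up s ρ (σ', act c η) = up s ρ (σ, η) := by
  rw [up, (lb_rl s h).2]; exact i _ _ _ (lb_rl s h).1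
theorem Es_rl {ρ : ℂ × Y → ℝ} (h : ContDiff ℝ ∞ ρ)
    (i : ∀ c ζ η, ‖c‖ = 1 → ρ (c * ζ, act c η) = ρ (ζ, η)) (s ε : ℝ) : Ev (Es ρ s ε) :=
  fun σ σ' c η r => by
    obtain ⟨hc, e⟩ := lb_rl s r
    have := vgr_eqv h (actL hc) (fun y => i c (lb s σ).1 y hc) η
    change act c η - ε • vgr ρ ((lb s σ').1, actL hc η) = actL hc (η - ε • vgr ρ ((lb s σ).1, η))
    rw [e, this, map_sub, map_smul]; rfl

variable {M : ℂ × P.V → P.V} (hL : Lk M)
include hL

theorem hi (ζ : ℂ) {y : Y} (h : 3 ≤ na y + nb y) :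
    LL' M (ζ, y) = 999 / 1000 * na y + nc y - nb y / 1000 - 1 / 100 := by
  rw [hL.hi (ζ, y) h, rsq, ta_e]; ring
theorem ge (ζ : ℂ) (y : Y) : nc y - (na y + nb y) / 1000 - 1 / 100 ≤ LL' M (ζ, y) := hL.ge (ζ, y)
theorem ghi (ζ : ℂ) {y : Y} (h : 3 < na y + nb y) :
    vgr (LL' M) (ζ, y) = dg (999 / 500) (-(1 / 500)) 2 y := by
  rw [hL.ghi (ζ, y) h]; simp only [dg_apply, qV_e, qW_e]; module
theorem glo (ζ : ℂ) {y : Y} (h : na y + nb y < 1) :
    vgr (LL' M) (ζ, y) = dg (-(1 / 500)) (999 / 500) 2 y := by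
  rw [hL.glo (ζ, y) h]; simp only [dg_apply, qV_e, qW_e]; module
omit hL in
theorem LL_e (ζ : ℂ) {y : Y} (h : na y + nb y ≤ 4) : LL M (ζ, y) = LL' M (ζ, y) := by
  rw [LL', ta_e, Ee_z (sub_nonpos.2 h), sub_zero]
theorem gr_e (ζ : ℂ) {y : Y} (h : na y + nb y ≤ 4) : vgr (LL M) (ζ, y) = vgr (LL' M) (ζ, y) := by
  rw [hL.gr, st, Real.smoothTransition.zero_of_nonpos (by rw [ta_e]; linarith), mul_zero, zero_smul,
    add_zero]

theorem rest (ζ : ℂ) {y : Y} (h : LL' M (ζ, y) ≤ 0) (n : ‖y‖ ≤ 11) : ‖y - qW y‖ ≤ 2 := by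
  have a := pow_le_pow_left₀ (norm_nonneg y) n 2
  have := na0 y; have := nb0 y; have := nc0 y
  rw [nsq] at a
  rw [r_le]
  rcases le_total 3 (na y + nb y) with t | t
  · rw [hi hL ζ t] at h; linarith
  · have := ge hL ζ y; linarith

theorem sqz (ζ : ℂ) {t : ℝ} (ht : t ∈ Icc (0 : ℝ) 1) (y : Y) :
    LL' M (ζ, vp' t y) ≤ LL' M (ζ, y) ∧ (‖y - qW y‖ ≤ 2 → ‖vp' t y - qW (vp' t y)‖ ≤ 2) := by
  rcases le_total ‖pw y‖ (9 / 5) with a | a
  · rw [vp'_lo t a]; exact ⟨le_rfl, id⟩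
  have b := nb_ge (by norm_num) a
  have := na0 y; have := na0 (vp' t y); have := nc0 y
  have e1 : na (vp' t y) ≤ na y := by
    rw [vp'_e, na_dg]; exact mul_le_of_le_one_left (na0 y) (lam ht _)
  have e2 : nb (vp' t y) = nb y := by rw [nb, pw_vp', nb]
  have e3 : nc (vp' t y) ≤ nc y := by
    rw [vp'_e, nc_dg]; exact mul_le_of_le_one_left (nc0 y) (lam ht _)
  rw [hi hL ζ (by linarith), hi hL ζ (by linarith), r_le, r_le]
  exact ⟨by linarith, fun _ => by linarith⟩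

theorem step (ζ : ℂ) {η : ℝ} (h0 : 0 ≤ η) (h4 : η ≤ 1 / 4) {y : Y} (h : LL' M (ζ, y) ≤ 0)
    (r : ‖y - qW y‖ ≤ 2) {x : Y} (hx : x = y - η • vgr (LL' M) (ζ, y))
    (ly : ‖y‖ ≤ 10 → ‖x - y‖ ≤ 1 / 100 ∧
      LL' M (ζ, x) ≤ LL' M (ζ, y) - η / 2 * ‖vgr (LL' M) (ζ, y)‖ ^ 2) :
    ‖x - qW x‖ ≤ 2 ∧ LL' M (ζ, x) ≤ LL' M (ζ, y) ∧
      (0 < η → vgr (LL' M) (ζ, y) ≠ 0 → LL' M (ζ, x) < LL' M (ζ, y)) := by
  rcases le_total ‖y‖ 10 with a | a
  · obtain ⟨l1, l2⟩ := ly a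
    have : 0 ≤ η / 2 * ‖vgr (LL' M) (ζ, y)‖ ^ 2 := by positivity
    refine ⟨rest hL ζ (by linarith) ?_, by linarith, fun p q => ?_⟩
    · linarith [norm_le_norm_add_norm_sub' x y]
    · have : 0 < η / 2 * ‖vgr (LL' M) (ζ, y)‖ ^ 2 := by have := norm_pos_iff.2 q; positivity
      linarith
  have b := pow_le_pow_left₀ (by norm_num) a 2
  have := na0 y; have := nc0 y; have := na0 x
  rw [nsq] at b
  rw [r_le] at r ⊢
  rw [ghi hL ζ (by linarith), sub_dg] at hx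
  have e1 : na x ≤ na y := by
    rw [hx, na_dg]; exact mul_le_of_le_one_left (na0 y) (by nlinarith)
  have e3 : nc x ≤ nc y := by
    rw [hx, nc_dg]; exact mul_le_of_le_one_left (nc0 y) (by nlinarith)
  have e2 : nb y + η / 250 * nb y ≤ nb x := by
    rw [hx, nb_dg]; nlinarith [mul_nonneg (sq_nonneg η) (nb0 y)]
  have e4 : 0 ≤ η / 250 * nb y := mul_nonneg (by linarith) (nb0 y)
  rw [hi hL ζ (y := x) (by linarith), hi hL ζ (y := y) (by linarith)]
  refine ⟨by linarith, by linarith, fun p _ => ?_⟩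
  have : 0 < η / 250 * nb y := mul_pos (by linarith) (by linarith)
  linarith

theorem crit (ζ : ℂ) {y : Y} (h : LL' M (ζ, y) ≤ 0) (e : vgr (LL' M) (ζ, y) = 0) : y = 0 := by
  have := na0 y; have := nb0 y
  rcases lt_or_ge 3 (na y + nb y) with t | t
  · rw [ghi hL ζ t] at e
    have a := na_dg (999 / 500) (-(1 / 500)) 2 y
    have b := nb_dg (999 / 500) (-(1 / 500)) 2 y
    rw [e] at a b
    have a0 : na 0 = 0 := by rw [na, ← pvL_apply, map_zero]; simp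
    have b0 : nb 0 = 0 := by rw [nb, ← pwL_apply, map_zero]; simp
    linarith
  rcases hL.cr (ζ, y) (by rw [LL_e ζ (by linarith)]; linarith)
    (by rw [gr_e hL ζ (by linarith), e]) with a | ⟨-, -, a⟩
  · exact a
  · rw [st, Real.smoothTransition.zero_of_nonpos (by change 10 * (nb y - 4) ≤ 0; linarith)] at a
    norm_num at a

theorem ta4 (ζ : ℂ) {y : Y} (h : LL' M (ζ, y) ≤ 0) (a : ‖pw y‖ ≤ 2) :
    na (vp' 1 y) + nb (vp' 1 y) ≤ 4 := by
  have e2 : nb (vp' 1 y) = nb y := by rw [nb, pw_vp', nb]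
  have := nb_le a
  rcases le_total (19 / 10) ‖pw y‖ with b | b
  · have : na (vp' 1 y) = 0 := by rw [vp'_e, na_dg, chi1 b]; ring
    linarith
  have e1 : na (vp' 1 y) ≤ na y := by
    rw [vp'_e, na_dg]; exact mul_le_of_le_one_left (na0 y) (lam ⟨zero_le_one, le_rfl⟩ _)
  have := nb_le b
  have := nc0 y
  rcases le_total 3 (na y + nb y) with t | t
  · rw [hi hL ζ t] at h; linarith
  · linarith

end Gu

open Gu Ll A.Rs in
theorem rgu : RGU := fun M s τ r hL hτ hr => by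
  obtain ⟨ε₁, p1, ly⟩ := hL.ly s
  have τ0 := tau0 hτ
  refine ⟨min ε₁ (1 / 4), by positivity, fun ε p le hT => ?_⟩
  have l1 := le.trans (min_le_left _ _)
  have l4 := le.trans (min_le_right _ _)
  have ex (z : S × Y) (h : 2 ≤ ‖pw z.2‖) : e1 M s ε τ r z = (1 + ε / 500) • qW z.2 := by
    rw [e1]; split_ifs with a
    exacts [hT z (by linarith) a, rfl]
  let D : Set (S × Y) := {z | up s (LL' M) z ≤ 0 ∧ ‖z.2 - qW z.2‖ ≤ 2}
  let J : ℝ × S × Y → Y := fun q =>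
    Es (LL' M) s (Pm.cl q.1 * ε) (q.2.1, vp' (Pm.cl q.1) q.2.2)
  have hJ t (ht : t ∈ Icc (0 : ℝ) 1) z : J (t, z) = Es (LL' M) s (t * ε) (z.1, vp' t z.2) := by
    simp only [J, Pm.cl_of_mem ht]
  have key t (ht : t ∈ Icc (0 : ℝ) 1) z (hz : z ∈ D) : ‖J (t, z) - qW (J (t, z))‖ ≤ 2 ∧
      up s (LL' M) (z.1, J (t, z)) ≤ up s (LL' M) z ∧ (0 < t → z.2 ≠ 0 →
        up s (LL' M) (z.1, J (t, z)) < up s (LL' M) z) := by
    obtain ⟨q1, q2⟩ := sqz hL (lb s z.1).1 ht z.2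
    have t0 : 0 ≤ t * ε := mul_nonneg ht.1 p.le
    have t1 : t * ε ≤ ε := mul_le_of_le_one_left p.le ht.2
    obtain ⟨k1, k2, k3⟩ := step hL (lb s z.1).1 t0 (t1.trans l4) (q1.trans hz.1) (q2 hz.2)
      (hJ t ht z) fun n => by
        have := ly _ t0 (t1.trans l1) (z.1, vp' t z.2) n
        rw [hJ t ht]; exact ⟨this.2.1, this.2.2.2⟩
    refine ⟨k1, k2.trans q1, fun a b => (k3 (mul_pos a p) fun e => b ?_).trans_le q1⟩
    have c := crit hL _ (q1.trans hz.1) e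
    have d : pw z.2 = 0 := by rw [← pw_vp' t, c, ← pwL_apply, map_zero]
    rwa [vp'_lo t (by rw [d, norm_zero]; norm_num)] at c
  have o1 : (1 : ℝ) ∈ Icc (0 : ℝ) 1 := ⟨zero_le_one, le_rfl⟩
  have j1 z (hz : z ∈ D) : J (1, z) = e1 M s ε τ r z := by
    rw [hJ 1 o1, one_mul]
    rcases le_total 2 ‖pw z.2‖ with a | a
    · have b := nb_ge two_pos.le a
      have e : vp' 1 z.2 = dg 0 1 0 z.2 := by rw [vp'_e, chi1 (by linarith)]; norm_num
      rw [ex z a, sm_qW, e]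
      change _ - ε • vgr (LL' M) (_, dg 0 1 0 z.2) = _
      rw [ghi hL _ (by rw [na_dg, nb_dg]; linarith), sub_dg, dg_dg]
      congr 2 <;> ring
    · have t4 := ta4 hL _ hz.1 a
      rw [e1, if_pos a, f1, vp_vp' τ0 1 a, hr.id (z.1, vp' 1 z.2)
        ((LL_e _ t4).trans_le ((sqz hL _ o1 _).1.trans hz.1))]
      exact congrArg (fun v => vp' 1 z.2 - ε • v) (gr_e hL _ t4).symm
  refine ⟨D, J, fun z => ε * (up s (LL' M) z + 1 / 100), p, l4, ?_, fun σ σ' c η h => ?_, ex, ?_,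
    fun σ σ' c η h => ?_, fun z => ?_, fun z hz => hz.2, ?_, fun t σ σ' c η h => ?_, fun z => ?_, j1,
    fun t ht z hz => ⟨(key t ht z hz).2.1.trans hz.1, (key t ht z hz).1⟩, fun t ht z hz => ?_,
    fun t ht z hz a => ?_, ?_, fun σ σ' c η h => ?_, fun z hz a => ?_, fun b => ?_, fun z n => ?_⟩
  · have c : Continuous fun z : S × Y => (1 + ε / 500) • qW z.2 :=
      (qW_c.comp continuous_snd).const_smul (1 + ε / 500)
    refine Continuous.if_le ?_ c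
      (pw_sm.continuous.comp continuous_snd).norm continuous_const
      fun z a => hT z (by linarith) a.le
    exact (Es_c hL.lv.sm s).comp (continuous_const.prodMk (continuous_fst.prodMk (hr.ct.comp
      (continuous_fst.prodMk ((vp_c τ0 1).comp continuous_snd)))))
  · have hc := (lb_rl s h).1
    simp only [e1, n_act hc]
    split_ifs
    · simp only [f1]
      rw [vp_act hc, hr.eq _ _ _ _ h, Es_rl hL.lv.sm hL.lv.inv s ε _ _ _ _ h]
    · rw [sm_qW, sm_qW, dg_act]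
  · exact (isClosed_le (up_c s hL.sm'.continuous) continuous_const).inter
      (isClosed_le (continuous_snd.sub (qW_c.comp continuous_snd)).norm continuous_const)
  · simp only [D, mem_ofPred_eq, up_rl hL.inv' s η h, r_act (lb_rl s h).1]
  · rcases le_total 2 ‖pw z.2‖ with a | a
    · have b := nb_ge two_pos.le a
      have c : nb z.2 ≤ (1 + ε / 500) ^ 2 * nb z.2 :=
        le_mul_of_one_le_left (nb0 _) (one_le_pow₀ (by linarith))
      rw [ex z a, sm_qW]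
      refine ⟨(hi hL _ (by rw [na_dg, nb_dg]; linarith)).trans_le ?_, r_le.2 ?_⟩ <;>
        simp only [na_dg, nb_dg, nc_dg] <;> linarith
    · rw [e1, if_pos a, f1]
      have i := hr.inn (z.1, vp τ 1 z.2)
      obtain ⟨-, -, k, -⟩ := ly ε p.le l1 (z.1, r (z.1, vp τ 1 z.2))
        ((hL.bd _ (i.trans (by norm_num))).trans (by norm_num))
      have k0 := k.trans ((sub_le_self _ (by positivity)).trans i)
      have k1 : LL' M ((lb s z.1).1, Es (LL M) s ε (z.1, r (z.1, vp τ 1 z.2))) ≤ 0 :=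
        (sub_le_self _ (Ee_nn _)).trans k0
      exact ⟨k1, rest hL _ k1 ((hL.bd _ (k0.trans (by norm_num))).trans (by norm_num))⟩
  · exact (Es_c hL.sm' s).comp (((Pm.cont_cl continuous_fst).mul continuous_const).prodMk
      (continuous_snd.fst.prodMk
        (vp'_c.comp ((Pm.cont_cl continuous_fst).prodMk continuous_snd.snd))))
  · simp only [J]
    rw [vp'_act (lb_rl s h).1, Es_rl hL.sm' hL.inv' s _ _ _ _ _ h]
  · rw [hJ 0 ⟨le_rfl, zero_le_one⟩]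
    simp [Es, vp']
  · exact mul_le_mul_of_nonneg_left (by linarith [(key t ht z hz).2.1]) p.le
  · have b := nb_ge two_pos.le a
    have t0 : 0 ≤ t * ε := mul_nonneg ht.1 p.le
    rw [hJ t ht]
    change _ ≤ ‖pw (vp' t z.2 - (t * ε) • vgr (LL' M) (_, vp' t z.2))‖
    rw [ghi hL _ (by rw [nb, pw_vp']; linarith [na0 (vp' t z.2), show nb z.2 = ‖pw z.2‖ ^ 2 from rfl]),
      sub_dg, pw_dg, pw_vp', norm_smul, Real.norm_of_nonneg (by linarith)]
    exact le_mul_of_one_le_left (norm_nonneg _) (by linarith)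
  · exact continuous_const.mul ((up_c s hL.sm'.continuous).add continuous_const)
  · simp only [up_rl hL.inv' s η h]
  · rw [← j1 z hz]
    exact mul_lt_mul_of_pos_left (by linarith [(key 1 o1 z hz).2.2 one_pos a]) p
  · refine ⟨5000 + 1000 * |b / ε|, fun z hz h => ?_⟩
    have a := r_le.1 hz.2
    have c := nsq z.2
    have := na0 z.2; have := nc0 z.2; have := abs_nonneg (b / ε); have := le_abs_self (b / ε)
    have d : -(b / ε) ≤ up s (LL' M) z + 1 / 100 := by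
      rw [← neg_div, div_le_iff₀ p, mul_comm]; exact h
    have e : ‖z.2‖ ≤ 1 + ‖z.2‖ ^ 2 := by nlinarith [sq_nonneg (‖z.2‖ - 1)]
    rcases le_total 3 (na z.2 + nb z.2) with t | t
    · have := hi hL (lb s z.1).1 t
      change _ ≤ LL' M ((lb s z.1).1, z.2) + _ at d
      linarith
    · linarith
  · have a := pow_le_pow_left₀ (norm_nonneg _) n 2
    have := na0 z.2; have := nb0 z.2; have := nc0 z.2
    rw [nsq] at a
    have e : up s (LL' M) z = nb z.2 + nc z.2 - (na z.2 + nb z.2) / 1000 - 1 / 100 :=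
      (hL.lo (_, z.2) (by rw [ta_e]; linarith)).trans (by rw [rsq', ta_e])
    refine ⟨⟨by linarith, r_le.2 (by linarith)⟩, ?_, fun t ht => ?_⟩
    · simp only [e, H0_e, real_inner_smul_left, inner_dg, real_inner_self_eq_norm_sq, na, nb, nc]
      ring
    · have : ‖pw z.2‖ ≤ 9 / 5 := by 
        nlinarith [norm_nonneg (pw z.2), show nb z.2 = ‖pw z.2‖ ^ 2 from rfl]
      rw [hJ t ht, vp'_lo t this, H0_e, smul_smul, ← glo hL (lb s z.1).1 (by linarith)]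
      rfl

end Crest.Agent.N218.Pc

end
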