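import Crest.Agent.N218.Pc.Defs
import Crest.Agent.N218.P.Kit
import Crest.Agent.N218.P.Bo

/-! Row 218, block PIECE (helper86): body and piece form an inward map. -/

set_option autoImplicit false
set_option linter.unusedVariables false
open Set Topology Filter
open scoped ContDiff RealInnerProductSpace

noncomputable section

namespace Crest.Agent.N218.Pc
open P Sk

namespace Rk

section
variable {B Q E : Type} [TopologicalSpace B] [NormedAddCommGroup Q] [NormedSpace ℝ Q]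
  [NormedAddCommGroup E] [NormedSpace ℝ E]

/-- near `b` the family `f` is the pull-back of a smooth map -/
def Lo (f : B × E → E) (φ : B → Q) (b : B) : Prop :=
  ∃ G : Q × E → E, (∀ y, ContDiffAt ℝ ∞ G (φ b, y)) ∧ ∀ᶠ b' in 𝓝 b, ∀ y, f (b', y) = G (φ b', y)

variable {f : B × E → E} {φ : B → Q}

theorem Lo.ct (hφ : Continuous φ) (h : ∀ b, Lo f φ b) : Continuous f :=
  continuous_iff_continuousAt.2 fun p => by
    obtain ⟨G, h1, h2⟩ := h p.1
    have c : Continuous fun p : B × E => (φ p.1, p.2) := by fun_prop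
    refine ((h1 p.2).continuousAt.comp_of_eq c.continuousAt rfl).congr ?_
    filter_upwards [continuousAt_fst.eventually h2] with q hq using (hq q.2).symm

theorem Lo.sd [FiniteDimensional ℝ E] (hφ : Continuous φ) {z : B × E} (h : Lo f φ z.1) {U : Set E} (hU : IsOpen U)
    (hf : ∀ y ∈ U, f (z.1, y) = y) (cl : z.2 ∈ closure U) : Ad.Sd f 1 z := by
  obtain ⟨G, h1, h2⟩ := h
  have c : Continuous fun p : B × E => (φ p.1, p.2) := by fun_prop
  let D : B × E → E →L[ℝ] E := fun q =>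
    (fderiv ℝ G (φ q.1, q.2)).comp (ContinuousLinearMap.inr ℝ Q E)
  have cD : ∀ y, ContinuousAt D (z.1, y) := fun y =>
    (((h1 y).continuousAt_fderiv (by simp)).comp_of_eq c.continuousAt rfl).clm_comp
      continuousAt_const
  have hD : ∀ y, ∀ᶠ q in 𝓝 (z.1, y), HasFDerivAt (fun w => f (q.1, w)) (D q) q.2 := fun y => by
    filter_upwards [continuousAt_fst.eventually h2, c.continuousAt.eventually
      (((h1 y).of_le (m := 1) (by simp)).eventually (by simp))] with q hq hd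
    rw [funext hq]
    exact (hd.differentiableAt one_ne_zero).hasFDerivAt.comp q.2 (hasFDerivAt_prodMk_right _ _)
  have e : D z = 1 := closure_minimal (t := {y | D (z.1, y) = 1}) (fun y hy =>
      (hD y).self_of_nhds.unique ((hasFDerivAt_id y).congr_of_eventuallyEq
        (eventually_of_mem (hU.mem_nhds hy) hf)))
    (isClosed_eq (continuous_iff_continuousAt.2 fun y =>
      (cD y).comp_of_eq (f := fun y => (z.1, y)) (by fun_prop) rfl) continuous_const) cl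
  exact e ▸ Ad.Sd.of_c1 (cD z.2) (hD z.2)

theorem cl_of {ρ : Q × E → ℝ} (h : ContDiff ℝ ∞ ρ) {z : Q × E} (h0 : ρ z ≤ 0)
    (hr : ρ z = 0 → ∃ ξ, fderiv ℝ ρ z (0, ξ) ≠ 0) : z.2 ∈ closure {y | ρ (z.1, y) < 0} := by
  refine h0.lt_or_eq.elim (fun a => subset_closure a) fun a => by_contra fun n => ?_
  obtain ⟨ξ, k⟩ := hr a
  have m : IsLocalMin (fun y => ρ (z.1, y)) z.2 := by
    filter_upwards [isClosed_closure.isOpen_compl.mem_nhds n] with y hy
    exact a.trans_le (not_lt.1 fun c => hy (subset_closure c))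
  exact k (DFunLike.congr_fun (m.hasFDerivAt_eq_zero
    ((h.differentiable (by simp) z).hasFDerivAt.comp z.2 (hasFDerivAt_prodMk_right z.1 z.2))) ξ)
end

theorem lb_cont (s : ℝ) : Continuous (lb s) := by unfold lb lab; fun_prop
theorem n1 (σ : S) : ‖(σ.1 : Cn 2)‖ = 1 := norm_eq_of_mem_sphere _
theorem n2 (σ : S) : ‖(σ.2 : Cn 2)‖ = 1 := norm_eq_of_mem_sphere _

theorem rl_norm {σ σ' : S} {c : ℂ} (h : Rl σ σ' c) : ‖c‖ = 1 := by
  obtain ⟨t, t', -, -, rfl⟩ := h
  simp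

theorem lb_rl (s : ℝ) {σ σ' : S} {c : ℂ} (h : Rl σ σ' c) :
    lb s σ' = (c * (lb s σ).1, c * (lb s σ).2.1, c * (lb s σ).2.2) := by
  obtain ⟨t, t', a, b, rfl⟩ := h
  simp only [lb, lab, a, b, PiLp.smul_apply, smul_eq_mul]
  refine Prod.ext ?_ (Prod.ext ?_ ?_) <;> ring

theorem neg_of (s : ℝ) {σ : S} (h : (lb s σ).2 = 0) : ⟪Hf σ.1, Hf σ.2⟫ < 0 := by
  have a := V_sq σ.1
  have b := V_sq σ.2
  rw [n1] at a; rw [n2] at b
  have h0 : (σ.1 : Cn 2) 0 * (σ.2 : Cn 2) 0 = 0 := congrArg Prod.fst h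
  have h1 : (σ.1 : Cn 2) 1 * (σ.2 : Cn 2) 1 = 0 := congrArg Prod.snd h
  rcases mul_eq_zero.1 h0 with c | c <;> rcases mul_eq_zero.1 h1 with d | d <;>
    simp [Hf, PiLp.inner_apply, Fin.sum_univ_three, c, d] at a b ⊢ <;> simp [← a, ← b]

variable {Φ : A.Fam} {Λ : ℝ} (h : Shape Φ Λ)

theorem piH_sm : ContDiff ℝ ∞ (piH (pl h.ε h.p)) :=
  contDiff_id.sub ((u1_sm.sub (h.hp.sm.comp u1_sm)).smul contDiff_const)

theorem lo0 (σ : S) : Lo (R0 h) (lb h.s) σ := by
  by_cases a : (lb h.s σ).2 = 0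
  · refine ⟨fun z => piH (pl h.ε h.p) z.2, fun y => ((piH_sm h).comp contDiff_snd).contDiffAt, ?_⟩
    have c : Continuous fun σ : S => ⟪Hf σ.1, Hf σ.2⟫ := by
      refine Continuous.inner ?_ ?_ <;> unfold Hf <;> fun_prop
    filter_upwards [c.continuousAt.eventually_lt continuousAt_const (neg_of _ a)] with σ' k y
    exact h.hR.out _ _ (.inl (h.far _ _ (n1 σ') (n2 σ') k.le))
  · exact ⟨h.R, fun y => h.hR.sm.contDiffAt
      ((isOpen_ne_fun (by fun_prop) continuous_const).mem_nhds a), .of_forall fun _ _ => rfl⟩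

theorem ev0 : Ev (R0 h) := fun σ σ' c η r => by
  unfold R0
  rw [lb_rl _ r]
  exact h.hR.eqv c _ _ _ η (rl_norm r)

/-- the map of the body -/
def bm (η : Y) : Y := h.ε⁻¹ • (h.rY (h.ε • η + P.ev) - P.ev)

theorem bm_sm : ContDiff ℝ ∞ (bm h) :=
  ((h.hb.sm.comp ((contDiff_id.const_smul h.ε).add contDiff_const)).sub
    contDiff_const).const_smul h.ε⁻¹

theorem boY_eq (η : Y) : boY h.ε⁻¹ η = h.ε⁻¹ * bo P.ev (h.ε • η + P.ev) := by rw [boY, inv_inv]

theorem boY_bm (η : Y) : boY h.ε⁻¹ (bm h η) = h.ε⁻¹ * bo P.ev (h.rY (h.ε • η + P.ev)) := by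
  rw [boY_eq, bm, smul_smul, mul_inv_cancel₀ h.ε0.ne', one_smul, sub_add_cancel]

theorem in_aff (η : Y) : ⟪P.ev, h.ε • η + P.ev⟫ - 1 = h.ε * u1 η := by
  rw [inner_add_right, real_inner_smul_right, inner_ev, real_inner_self_eq_norm_sq, norm_ev]; ring

theorem n_aff {η : Y} (a : h.ε * ‖η‖ ≤ 1 / 2) : ‖h.ε • η + P.ev‖ ≤ 20 := by
  have := norm_add_le (h.ε • η) P.ev
  rw [norm_smul, Real.norm_of_nonneg h.ε0.le, norm_ev] at this
  linarith

theorem boY_in {η : Y} (a : h.ε * ‖η‖ ≤ 1 / 2) : boY h.ε⁻¹ η = u1 η := by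
  have e := in_aff h η
  have := mul_le_mul_of_nonneg_left (neg_abs_le (u1 η)) h.ε0.le
  have := mul_le_mul_of_nonneg_left (abs_u1_le η) h.ε0.le
  rw [boY_eq, Bo.bo_top P.sm ((n_aff h a).trans (by norm_num)) (by linarith), e,
    inv_mul_cancel_left₀ h.ε0.ne']

theorem Fh_in (ζ : ℂ) {η : Y} (a : h.ε * ‖η‖ ≤ 1 / 2) : Fh h (ζ, η) = F h.M (ζ, η) := by
  rw [Fh, boY_in h a]; ring

theorem Fh_out (ζ : ℂ) {η : Y} (a : 25 ≤ ‖η‖) : Fh h (ζ, η) = boY h.ε⁻¹ η := by
  rw [Fh, h.hL.out ζ η (.inr (.inl a)), sub_self, add_zero]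

theorem Fh_le (ζ : ℂ) (η : Y) : Fh h (ζ, η) ≤ boY h.ε⁻¹ η :=
  add_le_of_nonpos_right (sub_nonpos.2 (h.hL.le ζ η))

theorem sm30 {η : Y} (a : ‖η‖ ≤ 30) : h.ε * ‖η‖ ≤ 1 / 2 :=
  (mul_le_mul h.ε1 a (norm_nonneg _) (by norm_num)).trans (by norm_num)

theorem Rh_in (σ : S) {η : Y} (a : ‖η‖ ≤ 30) : Rh h (σ, η) = R0 h (σ, η) := by
  have e : h.ε⁻¹ • (h.rY (h.ε • η + P.ev) - P.ev) = piH (pl h.ε h.p) η := by
    have := h.ε0.ne'
    rw [h.hb.flat _ (n_aff h (sm30 h a)), in_aff, piH, pl, sub_right_comm, add_sub_cancel_right,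
      smul_sub, smul_smul, smul_smul, inv_mul_cancel₀ this, one_smul]
    congr 2; field_simp
  rw [Rh, e, add_sub_cancel]

theorem Rh_out (σ : S) {η : Y} (a : 30 ≤ ‖η‖) : Rh h (σ, η) = bm h η := by
  rw [Rh, R0, h.hR.out _ _ (.inr a), sub_self, add_zero, bm]

theorem boY_sm : ContDiff ℝ ∞ (boY h.ε⁻¹) :=
  contDiff_const.mul ((Bo.bo_sm P.sm _).comp
    ((contDiff_id.const_smul h.ε⁻¹⁻¹).add contDiff_const))

theorem lv : Lv (Fh h) h.w := by
  have hB := bo_ P.sm Y P.ev norm_ev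
  have e0 := h.ε0
  refine ⟨((boY_sm h).comp contDiff_snd).add (h.hL.sm.sub (u1_sm.comp contDiff_snd)),
    fun c ζ η hc => ?_, fun ζ η a b => ?_, max 25 (h.ε⁻¹ * 101), fun ζ η a => ?_⟩
  · have e : h.ε • act c η + P.ev = act c (h.ε • η + P.ev) := by rw [act_add, act_smul, act_ev]
    simp only [Fh, h.hL.inv c ζ η hc, boY_eq, e, bo, norm_act hc, inner_ev]
    rfl
  · rcases lt_or_ge ‖η‖ 30 with c | c
    · have e : Fh h =ᶠ[𝓝 (ζ, η)] F h.M := by
        filter_upwards [(continuous_snd.norm.continuousAt (x := (ζ, η))).eventually_lt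
          continuousAt_const c] with z k using Fh_in h _ (sm30 h k.le)
      rw [e.fderiv_eq]
      rw [e.self_of_nhds] at a b
      exact h.hL.reg ζ η (by rw [abs_of_nonneg a]; exact b.trans h.w1)
    · have e : Fh h =ᶠ[𝓝 (ζ, η)] fun z => h.ε⁻¹ * bo P.ev (h.ε • z.2 + P.ev) := by
        filter_upwards [continuousAt_const.eventually_lt
          (continuous_snd.norm.continuousAt (x := (ζ, η))) (show (25 : ℝ) < ‖η‖ by linarith)]
          with z k using (Fh_out h _ k.le).trans (boY_eq h _)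
      have y0 : h.ε • η + P.ev ≠ 0 := fun k => by
        rw [e.self_of_nhds] at a
        simp only [k] at a
        have := hB.2.2.2.2.2.1 0 (by simp) (by simp)
        have := mul_neg_of_pos_of_neg (inv_pos.2 e0) (show bo P.ev 0 < 0 by linarith)
        linarith
      have d := ((hB.1.differentiable (by simp) (h.ε • η + P.ev)).hasFDerivAt.comp (ζ, η)
        (((hasFDerivAt_snd (𝕜 := ℝ) (p := (ζ, η))).const_smul h.ε).add_const P.ev)).const_mul h.ε⁻¹
      refine ⟨h.ε • η + P.ev, ?_⟩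
      rw [(d.congr_of_eventuallyEq e).fderiv]
      have := (hB.2.2.2.2.2.2 _ y0).1
      simp only [smul_apply, ContinuousLinearMap.comp_apply,
        ContinuousLinearMap.coe_snd', map_smul, smul_eq_mul]
      positivity
  · refine le_max_iff.2 ((le_total ‖η‖ 25).imp id fun c => ?_)
    rw [Fh_out h _ c, boY_eq, inv_mul_le_iff₀ e0] at a
    have b := hB.2.2.2.1 (h.ε • η + P.ev)
    have k : h.ε * h.w ≤ 1 / 100 * (1 / 1000) := mul_le_mul h.ε1 h.w1 h.w0.le (by norm_num)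
    have n : ‖h.ε • η + P.ev‖ ≤ 100 := abs_le_of_sq_le_sq' (by linarith) (by norm_num) |>.2
    have m := norm_sub_le (h.ε • η + P.ev) P.ev
    rw [add_sub_cancel_right, norm_smul, Real.norm_of_nonneg e0.le, norm_ev] at m
    rw [le_inv_mul_iff₀ e0]; linarith

theorem lo (σ : S) : Lo (Rh h) (lb h.s) σ :=
  let ⟨G, a, b⟩ := lo0 h σ
  ⟨fun z => bm h z.2 + (G z - piH (pl h.ε h.p) z.2), fun y =>
    ((bm_sm h).comp contDiff_snd).contDiffAt.add
      ((a y).sub ((piH_sm h).comp contDiff_snd).contDiffAt),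
    b.mono fun σ' k y => congrArg (fun t => bm h y + (t - _)) (k y)⟩

theorem n_piH (η : Y) : ‖piH (pl h.ε h.p) η‖ ≤ 2 * ‖η‖ := by
  have a := norm_sub_le η ((u1 η - pl h.ε h.p (u1 η)) • P.ev)
  rw [norm_smul, norm_ev, mul_one, Real.norm_eq_abs] at a
  have b : |u1 η - pl h.ε h.p (u1 η)| ≤ |u1 η| := by
    rcases le_or_gt (u1 η) 0 with c | c
    · rw [h.hp.id _ c, sub_self, abs_zero]; exact abs_nonneg _
    · rw [abs_of_pos c, abs_of_pos (sub_pos.2 (h.hp.lt _ c))]; exact sub_le_self _ (h.hp.nn _ c)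
  have := abs_u1_le η
  unfold piH; linarith

end Rk

open Rk

/-- **R0K** -/
theorem r0k : R0K := fun Φ h => ⟨Lo.ct (lb_cont _) (lo0 h), ev0 h⟩

/-- **RH** -/
theorem rh : RH := fun Φ h sm => by
  have e0 := h.ε0
  have w0 := h.w0
  have key : ∀ σ η, ‖η‖ ≤ 30 → up h.s (Fh h) (σ, Rh h (σ, η)) =
      F h.M ((lb h.s σ).1, h.R (lb h.s σ, η)) := fun σ η a => by
    rw [Rh_in h σ a]
    refine Fh_in h _ ?_
    have b := norm_add_le (R0 h (σ, η) - piH (pl h.ε h.p) η) (piH (pl h.ε h.p) η)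
    rw [sub_add_cancel] at b
    have c := (h.hR.bd (lb h.s σ) η).trans (le_abs_self _)
    have d := n_piH h η
    have : h.ε * ‖R0 h (σ, η)‖ ≤ h.ε * (2 * (|h.C| + 30)) :=
      mul_le_mul_of_nonneg_left (by unfold R0 at b ⊢; linarith [abs_nonneg h.C]) e0.le
    unfold Sml at sm
    have := mul_nonneg e0.le (add_nonneg (abs_nonneg h.C) (by norm_num : (0 : ℝ) ≤ 30))
    linarith
  have id : ∀ z, up h.s (Fh h) z ≤ 0 → Rh h z = z.2 := by
    rintro ⟨σ, η⟩ a
    rcases le_total ‖η‖ 30 with c | c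
    · exact (Rh_in h σ c).trans (h.hR.id _ _ ((Fh_in h _ (sm30 h c)).symm.trans_le a))
    · rw [up, Fh_out h _ (by linarith), boY_eq] at a
      rw [Rh_out h σ c, bm, h.hb.id _ (nonpos_of_mul_nonpos_right a (inv_pos.2 e0) ),
        add_sub_cancel_right, smul_smul, inv_mul_cancel₀ e0.ne', one_smul]
  refine ⟨lv h, w0, Lo.ct (lb_cont _) (lo h), fun σ σ' c η r => ?_,
    ⟨h.ε⁻¹ * 201 + h.C, fun z => ?_⟩, id, ?_, ?_, fun z a => ?_⟩
  · have hc := rl_norm r
    have e : h.ε • act c η + P.ev = act c (h.ε • η + P.ev) := by rw [act_add, act_smul, act_ev]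
    have k : h.rY (act c (h.ε • η + P.ev)) = act c (h.rY (h.ε • η + P.ev)) :=
      h.hb.eqv (actL hc) (act_ev c) _
    change h.ε⁻¹ • (h.rY (h.ε • act c η + P.ev) - P.ev) + (R0 h (σ', act c η) - piH _ (act c η)) =
      act c (h.ε⁻¹ • (h.rY (h.ε • η + P.ev) - P.ev) + (R0 h (σ, η) - piH _ η))
    rw [ev0 h σ σ' c η r, e, k, piH_act, act_add, act_sub, act_smul, act_sub, act_ev]
  · refine (norm_add_le _ _).trans (add_le_add ?_ (h.hR.bd _ _))
    rw [norm_smul, Real.norm_of_nonneg (inv_pos.2 e0).le]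
    refine mul_le_mul_of_nonneg_left ((norm_sub_le _ _).trans ?_) (inv_pos.2 e0).le
    rw [norm_ev]; linarith [h.hb.bd (h.ε • z.2 + P.ev)]
  · rintro ⟨σ, η⟩ a b
    rcases le_total ‖η‖ 30 with c | c
    · rw [key σ η c]
      rw [up, Fh_in h _ (sm30 h c)] at a b ⊢
      exact h.hR.lt _ _ a b
    · refine (Fh_le h _ _).trans_lt ?_
      rw [up, Fh_out h _ (by linarith), boY_eq] at a
      rw [Rh_out h σ c, boY_bm, up, Fh_out h _ (by linarith), boY_eq]
      exact mul_lt_mul_of_pos_left (h.hb.lt _ ((mul_pos_iff_of_pos_left (inv_pos.2 e0)).1 a))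
        (inv_pos.2 e0)
  · rintro ⟨σ, η⟩
    rcases le_total ‖η‖ 30 with c | c
    · have u := (le_abs_self _).trans ((abs_u1_le η).trans c)
      rw [key σ η c]
      by_cases a : (lb h.s σ).2 = 0
      · have k := h.far _ _ (n1 σ) (n2 σ) (neg_of _ a).le
        refine (h.hL.le _ _).trans ?_
        rw [h.hR.out (lb h.s σ) _ (.inl k), u1_piH]
        linarith [h.hp.le _ u]
      · linarith [h.hR.inn _ η a u]
    · refine (Fh_le h _ _).trans ?_
      rw [Rh_out h σ c, boY_bm, inv_mul_le_iff₀ e0]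
      linarith [h.hb.inn (h.ε • η + P.ev), mul_pos e0 w0]
  · exact (lo h z.1).sd (lb_cont _) (U := {y | Fh h ((lb h.s z.1).1, y) < 0})
      (isOpen_lt ((lv h).sm.continuous.comp (by fun_prop)) continuous_const)
      (fun y k => id (z.1, y) k.le)
      (cl_of (lv h).sm (z := ((lb h.s z.1).1, z.2)) a fun e => (lv h).reg _ _ e.ge (e.trans_le w0.le))

end Crest.Agent.N218.Pc

end
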