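import Crest.Agent.N218.Pc.Sq0
import Crest.Agent.N218.Pc.Grd
import Crest.Agent.N218.Pc.Psh

/-! Row 218, block PIECE (helper84): switching on the squeeze. -/

set_option autoImplicit false
open Set Filter Topology
open scoped ContDiff RealInnerProductSpace

namespace Crest.Agent.N218.Pc
open P Sk Gd

/-- the derivative at the critical points -/
def SYM : Prop := ∀ (M : ℂ × P.V → P.V) (τ : ℝ), Lk M → st (10 * τ) = 2 / 1000000 →
  ∀ (s ε : ℝ) (σ : S) (t : unitInterval) (y : Y), up s (LL M) (σ, y) ≤ 1 / 100 →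
    up s (A.Rs.vgr (LL M)) (σ, y) = 0 → up s (LL M) (σ, y) < 0 ∧ vp τ t y = y ∧
      ∃ L : Y →L[ℝ] Y, (∀ a a', ⟪L a, a'⟫ = ⟪a, L a'⟫) ∧
        Ad.Sd (fun z : (S × unitInterval) × Y => Es (LL M) s ε (z.1.1, vp τ z.1.2 z.2)) L ((σ, t), y)

theorem sqz0 (hS : SYM) : SQZ := by
  intro M s f w τ hM hw h hτ
  have sm := hM.lv.sm
  have τ0 := Sq.tau_pos hτ
  obtain ⟨R, hR⟩ := hM.lv.bdd
  obtain ⟨k, C, hC, hk⟩ := A.Rs.exists_dn sm (w := 1 / 100) (R := R) (isCompact_range (lb_ct s))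
    (fun x _ y a b => hM.lv.reg x y a b) (fun x _ y a => hR x y a)
  have uc : Continuous (up s (LL M)) :=
    sm.continuous.comp (((lb_ct s).comp continuous_fst).prodMk continuous_snd)
  have inn : ∀ z, LL M ((lb s z.1).1, f z) ≤ w := h.inn
  have ro : ∀ t ∈ Icc (0 : ℝ) 1, ∀ z : S × Y, LL M ((lb s z.1).1, k (t, (lb s z.1).1, f z)) =
      LL M ((lb s z.1).1, f z) - t * max (LL M ((lb s z.1).1, f z)) 0 := fun t ht z =>
    hk.ro t ht _ (mem_range_self z.1) (f z) ((inn z).trans hw)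
  have le : ∀ t ∈ Icc (0 : ℝ) 1, ∀ z : S × Y, LL M ((lb s z.1).1, k (t, (lb s z.1).1, f z)) ≤
      LL M ((lb s z.1).1, f z) := fun t ht z =>
    (ro t ht z).trans_le (sub_le_self _ (mul_nonneg ht.1 (le_max_right _ _)))
  have id : ∀ t, ∀ z : S × Y, up s (LL M) z ≤ 0 → k (t, (lb s z.1).1, f z) = z.2 := fun t z hz => by
    rw [h.id z hz]; exact hk.id _ _ _ hz
  have ev : ∀ t, Ev fun z : S × Y => k (t, (lb s z.1).1, f z) := fun t σ σ' c η r => by
    show k (t, (lb s σ').1, f (σ', act c η)) = act c (k (t, (lb s σ).1, f (σ, η)))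
    rw [h.eq σ σ' c η r]
    exact hk.eq _ _ (actL (rl_norm r)) (fun y => by
      show LL M (_, act c y) = _
      rw [rl_lb s r, hM.lv.inv c _ _ (rl_norm r)]) t _
  have kc : ∀ {Z : Type} [TopologicalSpace Z] {t : Z → ℝ} {z : Z → S × Y}, Continuous t →
      Continuous z → Continuous fun x => k (t x, (lb s (z x).1).1, f (z x)) := fun ht hz =>
    hk.co.comp (ht.prodMk (((lb_ct s).comp (continuous_fst.comp hz)).prodMk (h.ct.comp hz)))
  refine ⟨fun z => k (1, (lb s z.1).1, f z), ⟨kc continuous_const continuous_id, ev 1, id 1,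
    fun z => (ro 1 ⟨zero_le_one, le_rfl⟩ z).trans_le (by rw [one_mul]; exact sub_nonpos.2 (le_max_left _ _))⟩, ?_⟩
  obtain ⟨ε₀, e0, ly⟩ := hM.ly s
  refine ⟨ε₀, e0, fun ε e1 e2 => ?_⟩
  have v0 : Continuous fun p : (S × unitInterval) × Y => vp τ p.1.2 p.2 :=
    (Sq.vp_cont τ0).comp' (f := fun p : (S × unitInterval) × Y => ((p.1.2 : ℝ), p.2)) (by fun_prop)
  have vc : Continuous fun p : (S × unitInterval) × Y => (p.1.1, vp τ p.1.2 p.2) :=
    continuous_fst.fst.prodMk v0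
  obtain ⟨g, gc, hg⟩ : ∃ g : (S × unitInterval) × Y → Y, Continuous g ∧
      ∀ p, g p = k (p.1.2, (lb s p.1.1).1, f (p.1.1, vp τ p.1.2 p.2)) :=
    ⟨_, kc (t := fun p : (S × unitInterval) × Y => (p.1.2 : ℝ)) (by fun_prop) vc, fun _ => rfl⟩
  have g0 : ∀ p, LL M ((lb s p.1.1).1, g p) ≤
      LL M ((lb s p.1.1).1, f (p.1.1, vp τ p.1.2 p.2)) := fun p => by
    rw [hg]; exact le p.1.2 p.1.2.2 (p.1.1, vp τ p.1.2 p.2)
  have gw : ∀ p, LL M ((lb s p.1.1).1, g p) ≤ w := fun p =>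
    (g0 p).trans (inn (p.1.1, vp τ p.1.2 p.2))
  have gi : ∀ p : (S × unitInterval) × Y, up s (LL M) (p.1.1, vp τ p.1.2 p.2) ≤ 0 →
      g p = vp τ p.1.2 p.2 := fun p a => (hg p).trans (id p.1.2 (p.1.1, vp τ p.1.2 p.2) a)
  have g3 : ∀ p, ‖g p‖ ≤ 3 := fun p => hM.bd ((lb s p.1.1).1, g p) ((gw p).trans hw)
  have st := fun p : (S × unitInterval) × Y =>
    ly ε e1.le e2 (p.1.1, g p) ((g3 p).trans (by norm_num))
  have dn : ∀ p : (S × unitInterval) × Y, LL M ((lb s p.1.1).1, Es (LL M) s ε (p.1.1, g p)) ≤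
      LL M ((lb s p.1.1).1, g p) := fun p =>
    (st p).2.2.1.trans (sub_le_self _ (mul_nonneg (half_pos e1).le (sq_nonneg _)))
  have gl : ∀ p : (S × unitInterval) × Y, LL M ((lb s p.1.1).1, p.2) ≤ w →
      LL M ((lb s p.1.1).1, g p) ≤ LL M ((lb s p.1.1).1, p.2) ∧
      (LL M ((lb s p.1.1).1, p.2) ≤ LL M ((lb s p.1.1).1, g p) → g p = p.2) := fun p a => by
    obtain ⟨v1, v2⟩ := Sq.vp_le hM hτ p.1.2.2.1 p.1.2.2.2 (lb s p.1.1).1 p.2
    rcases le_or_gt (LL M ((lb s p.1.1).1, vp τ p.1.2 p.2)) 0 with c | c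
    · rw [gi p c]; exact ⟨v1, v2⟩
    · have d := ((g0 p).trans_lt (h.lt (p.1.1, vp τ p.1.2 p.2) c (v1.trans a))).trans_le v1
      exact ⟨d.le, fun q => absurd q d.not_ge⟩
  have fx : ∀ p : (S × unitInterval) × Y, LL M ((lb s p.1.1).1, p.2) ≤ w →
      LL M ((lb s p.1.1).1, p.2) ≤ LL M ((lb s p.1.1).1, Es (LL M) s ε (p.1.1, g p)) →
      g p = p.2 ∧ up s (A.Rs.vgr (LL M)) (p.1.1, p.2) = 0 := fun p a c => by
    have i := (gl p a).2 (c.trans (dn p))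
    have q : LL M ((lb s p.1.1).1, Es (LL M) s ε (p.1.1, g p)) ≤ LL M ((lb s p.1.1).1, g p) -
      ε / 2 * ‖up s (A.Rs.vgr (LL M)) (p.1.1, g p)‖ ^ 2 := (st p).2.2.1
    rw [i] at q c
    have z : ‖up s (A.Rs.vgr (LL M)) (p.1.1, p.2)‖ ^ 2 ≤ 0 :=
      le_of_mul_le_mul_left (by linarith) (half_pos e1)
    exact ⟨i, norm_eq_zero.1 (pow_eq_zero_iff two_ne_zero |>.1 (z.antisymm (sq_nonneg _)))⟩
  refine ⟨fun p => Es (LL M) s ε (p.1.1, g p), ⟨es_ct sm s continuous_const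
    (continuous_fst.fst.prodMk gc), ⟨4, fun p => ?_⟩, fun b => lyap
      (g := fun y => LL M ((lb s b.1).1, y)) (K := fun y => LL M ((lb s b.1).1, y) ≤ w)
      (fun y => (dn (b, y)).trans (gw (b, y))) (fun y a => (dn (b, y)).trans (gl (b, y) a).1)
      fun y a c => ?_, fun b y e => ?_⟩, fun t σ σ' c η r => ?_, fun z => ?_, fun z => ?_⟩
  · linarith [norm_le_norm_sub_add (Es (LL M) s ε (p.1.1, g p)) (g p), (st p).1, g3 p]
  · obtain ⟨i, z⟩ := fx (b, y) a c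
    simp only [i, Es, z, smul_zero, sub_zero]
  · obtain ⟨σ, t⟩ := b
    have e' : Es (LL M) s ε (σ, g ((σ, t), y)) = y := e
    have a : LL M ((lb s σ).1, y) ≤ w := by
      have := (dn ((σ, t), y)).trans (gw ((σ, t), y))
      rwa [e'] at this
    obtain ⟨n, v, L, l1, l2⟩ := hS M τ hM hτ s ε σ t y (a.trans hw)
      (fx ((σ, t), y) a (by rw [e'])).2
    refine ⟨L, l1, Ps.sd_congr l2 ?_⟩
    have c : Continuous fun p : (S × unitInterval) × Y => up s (LL M) (p.1.1, vp τ p.1.2 p.2) :=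
      uc.comp' vc
    have d : ∀ᶠ p : (S × unitInterval) × Y in 𝓝 ((σ, t), y),
        up s (LL M) (p.1.1, vp τ p.1.2 p.2) < 0 :=
      (isOpen_lt c continuous_const).mem_nhds (show up s (LL M) (σ, vp τ t y) < 0 by rwa [v])
    refine d.mono fun p hp => ?_
    exact congrArg (fun v => Es (LL M) s ε (p.1.1, v)) (gi p hp.le)
  · have : g ((σ', t), act c η) = act c (g ((σ, t), η)) := by
      rw [hg, hg]
      dsimp only
      rw [Sq.vp_act τ t (rl_norm r)]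
      exact ev t σ σ' c (vp τ t η) r
    show Es _ _ _ (σ', g ((σ', t), act c η)) = _
    rw [this]
    exact es_ev sm hM.lv.inv s _ σ σ' c _ r
  · simp [hg, vp, hk.ze]
  · simp [hg, f1]

end Crest.Agent.N218.Pc
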