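import Crest.Agent.N218.Pc.Sq1
import Crest.Agent.N218.Pc.Sq2

/-! Row 218, block PIECE (helper84): the squeeze leaf. -/

namespace Crest.Agent.N218.Pc

theorem sqz : SQZ := sqz0 fun _ _ hM ht s ε σ t y h0 hy => Sq1.sym hM ht s ε σ t y h0 hy

end Crest.Agent.N218.Pc
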