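import Crest.Agent.N218.Pc.Defs
import Crest.Agent.N218.P.Kit
import Crest.Agent.N218.Pm.Kit1

/-! # Row 218 (helper26): the tail of the map with the rim is radial -/

set_option autoImplicit false
open Set Topology
open scoped ContDiff RealInnerProductSpace

noncomputable section

namespace Crest.Agent.N218.Pc
open P Sk

namespace Tl

variable {τ ρ ε : ℝ}

theorem t_mem (h : st (10 * τ) = 2 / 1000000) : 0 < τ ∧ τ < 1 / 10 := by
  constructor <;> by_contra! k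
  · rw [st_z (by linarith)] at h; norm_num at h
  · rw [st_o (by linarith)] at h; norm_num at h

theorem rr_sq (h : 0 < τ) : rr τ ^ 2 = 4 + τ := Real.sq_sqrt (by linarith)
theorem two_lt (h : 0 < τ) : 2 < rr τ := Real.lt_sqrt_of_sq_lt (by linarith)
theorem rr_le (h : τ < 1 / 10) : rr τ ≤ 3 := Real.sqrt_le_iff.2 ⟨by norm_num, by linarith⟩

theorem mx_pos (h : 0 < τ) (ρ : ℝ) : 0 < max ρ (rr τ) :=
  lt_max_of_lt_right (by linarith [two_lt h])
theorem cf_pos (h : 0 < τ) (ρ : ℝ) : 0 < cf τ ρ := div_pos (by linarith [two_lt h]) (mx_pos h ρ)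
theorem cf_le (h : 0 < τ) (ρ : ℝ) : cf τ ρ ≤ 1 := (div_le_one (mx_pos h ρ)).2 (le_max_right _ _)
theorem cf_one (h : 0 < τ) (e : ρ ≤ rr τ) : cf τ ρ = 1 := by
  rw [cf, max_eq_right e, div_self (by linarith [two_lt h])]
theorem cf_mul (h : 0 < τ) (ρ : ℝ) : cf τ ρ * ρ = min ρ (rr τ) := by
  rcases le_total ρ (rr τ) with e | e
  · rw [cf_one h e, min_eq_left e, one_mul]
  · rw [cf, max_eq_left e, min_eq_right e, div_mul_cancel₀ _ (by linarith [two_lt h])]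
theorem cf_ct (h : 0 < τ) : Continuous (cf τ) :=
  continuous_const.div (by fun_prop) fun ρ => (mx_pos h ρ).ne'
theorem min_sq (h : 0 < τ) (e : 0 ≤ ρ) : min ρ (rr τ) ^ 2 - 4 ≤ τ := by
  have := pow_le_pow_left₀ (le_min e (by linarith [two_lt h])) (min_le_right ρ (rr τ)) 2
  linarith [rr_sq h]
theorem st_min (h : st (10 * τ) = 2 / 1000000) (e : 0 ≤ ρ) :
    st (10 * (min ρ (rr τ) ^ 2 - 4)) ≤ 2 / 1000000 :=
  h ▸ Real.smoothTransition.monotone (by linarith [min_sq (t_mem h).1 e])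

theorem lip : ∃ K : ℝ, 0 < K ∧ ∀ x ∈ Icc (0 : ℝ) 3, ∀ y ∈ Icc (0 : ℝ) 3, x ≤ y →
    y * st (10 * (y ^ 2 - 4)) - x * st (10 * (x ^ 2 - 4)) ≤ K * (y - x) := by
  have c : ContDiff ℝ 1 fun x : ℝ => x * st (10 * (x ^ 2 - 4)) :=
    contDiff_id.mul (Real.smoothTransition.contDiff.comp (by fun_prop))
  obtain ⟨K, hK⟩ := (c.locallyLipschitz.locallyLipschitzOn (s := Icc (0 : ℝ) 3)
    ).exists_lipschitzOnWith_of_compact isCompact_Icc
  refine ⟨K + 1, by positivity, fun x hx y hy e => ?_⟩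
  have := hK.dist_le_mul y hy x hx
  rw [Real.dist_eq, Real.dist_eq, abs_of_nonneg (sub_nonneg.2 e)] at this
  nlinarith [le_abs_self (y * st (10 * (y ^ 2 - 4)) - x * st (10 * (x ^ 2 - 4)))]

theorem mm_mul (h : 0 < τ) (ε ρ : ℝ) : mm ε τ ρ * ρ = (1 + ε / 500) * min ρ (rr τ) -
    2000 * ε * (min ρ (rr τ) * st (10 * (min ρ (rr τ) ^ 2 - 4))) := by
  rw [mm, mul_right_comm, cf_mul h]; ring

theorem mm_ok (h : st (10 * τ) = 2 / 1000000) : ∃ ε₀ > 0, ∀ ε, 0 < ε → ε ≤ ε₀ →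
    Mm (1 + ε / 500) (mm ε τ) := by
  obtain ⟨K, K0, hK⟩ := lip
  obtain ⟨t0, t1⟩ := t_mem h
  have r2 := two_lt t0
  have r3 := rr_le t1
  refine ⟨min 1 (1 / (2000 * K)), by positivity, fun ε e0 e1 => ?_⟩
  have a := e1.trans (min_le_left _ _)
  have b := (le_div_iff₀ (by positivity)).1 (e1.trans (min_le_right _ _))
  have m : ∀ ρ, 0 ≤ ρ → min ρ (rr τ) ∈ Icc (0 : ℝ) 3 := fun ρ k =>
    ⟨le_min k (by linarith), (min_le_right _ _).trans r3⟩
  refine ⟨by linarith, (cf_ct t0).mul (continuous_const.sub (continuous_const.mul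
    (Real.smoothTransition.continuous.comp (by fun_prop)))), fun ρ k k' => ?_, fun ρ k => ?_,
    fun x hx y hy e => ?_, ⟨6, fun ρ k => ?_⟩, rr τ,
    fun t => 1 + ε / 500 - 2000 * ε * st (10 * (t - 4)), contDiff_const.sub (contDiff_const.mul
      (Real.smoothTransition.contDiff.comp (by fun_prop))), fun ρ _ k => ?_, by linarith,
    fun ρ k => ?_⟩
  · rw [mm, cf_one t0 (by linarith), min_eq_left (by linarith), st_z (by nlinarith)]; ring
  · exact mul_nonneg (cf_pos t0 ρ).le (by nlinarith [st_min h k])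
  · have u := min_le_min_right (rr τ) e
    have := mul_le_mul_of_nonneg_left (hK _ (m x hx) _ (m y hy) u) (by positivity : 0 ≤ 2000 * ε)
    simp only [mm_mul t0]
    nlinarith
  · have := mul_nonneg (by positivity : 0 ≤ 2000 * ε)
      (mul_nonneg (m ρ k).1 (st_nn (10 * (min ρ (rr τ) ^ 2 - 4))))
    rw [mm_mul t0]
    nlinarith [(m ρ k).1, (m ρ k).2]
  · rw [mm, cf_one t0 k.le, min_eq_left k.le, one_mul]
  · rw [mm, min_eq_right k, rr_sq t0, add_sub_cancel_left, h]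
    nlinarith [cf_le t0 ρ, cf_pos t0 ρ]

theorem qW_w (c : ℝ) (η : Y) : qW (c • qW η) = c • qW η :=
  Y_ext (by simp [qW]) (by simp [qW]) (by simp [qW]) (by simp [qW]) (by simp [qW])
theorem qV_w (c : ℝ) (η : Y) : qV (c • qW η) = 0 :=
  Y_ext (by simp [qV, qW]) (by simp [qV, qW]) (by simp [qV]) (by simp [qV]) (by simp [qV])
theorem tau_w (c : ℝ) (η : Y) : tau (co (c • qW η)) = (c * ‖pw η‖) ^ 2 := by
  have a : pv (c • qW η) = 0 := V_ext (by simp [pv, qW]) (by simp [pv, qW])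
  have b : pw (c • qW η) = c • pw η := V_ext (by simp [pw, qW]) (by simp [pw, qW])
  simp [tau, co, a, b, norm_smul, mul_pow]

theorem vp_hi {η : Y} (e : 19 / 10 ≤ ‖pw η‖) : vp τ 1 η = cf τ ‖pw η‖ • qW η := by
  rw [vp, chi, Pm.cl_of_ge (by linarith)]; module

theorem es_w {M : ℂ × P.V → P.V} (hL : Lk M) (s ε : ℝ) (σ : S) {y : Y} (w : qW y = y)
    (v : qV y = 0) (t3 : 3 < tau (co y)) : Es (LL M) s ε (σ, y) =
      (1 + ε / 500 - 2000 * ε * st (10 * (tau (co y) - 4))) • y := by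
  have a := hL.gr ((lb s σ).1, y)
  have b := hL.ghi ((lb s σ).1, y) t3
  dsimp only at a b
  rw [b, w, v] at a
  change y - ε • A.Rs.vgr (LL M) ((lb s σ).1, y) = _
  rw [a]
  module

theorem ll_w {M : ℂ × P.V → P.V} (hL : Lk M) (h : st (10 * τ) = 2 / 1000000) (ζ : ℂ) {y : Y}
    (w : qW y = y) (t3 : 3 < tau (co y)) (t4 : tau (co y) - 4 ≤ τ) : LL M (ζ, y) ≤ 0 := by
  obtain ⟨t0, t1⟩ := t_mem h
  have a : LL M (ζ, y) - Ee (tau (co y) - 4) = ‖y - qW y‖ ^ 2 - tau (co y) / 1000 - 1 / 100 :=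
    hL.hi (ζ, y) t3.le
  have b := (Ee_mono t4).trans (Ee_le t0.le)
  rw [w, sub_self, norm_zero] at a
  rw [h] at b
  linarith

theorem f1_hi {M : ℂ × P.V → P.V} {s : ℝ} {r : S × Y → Y} (hL : Lk M)
    (h : st (10 * τ) = 2 / 1000000) (hr : Rr M s r) (ε : ℝ) (z : S × Y) (e : 19 / 10 ≤ ‖pw z.2‖) :
    f1 M s ε τ r z = mm ε τ ‖pw z.2‖ • qW z.2 := by
  have t0 := (t_mem h).1
  have t := tau_w (cf τ ‖pw z.2‖) z.2
  rw [cf_mul t0] at t
  have m : 19 / 10 ≤ min ‖pw z.2‖ (rr τ) := le_min e (by linarith [two_lt t0])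
  have t3 : 3 < tau (co (cf τ ‖pw z.2‖ • qW z.2)) := by rw [t]; nlinarith
  have l := ll_w hL h (lb s z.1).1 (qW_w _ _) t3 (by rw [t]; exact min_sq t0 (norm_nonneg _))
  rw [f1, vp_hi e, hr.id (z.1, _) l, es_w hL s ε _ (qW_w _ _) (qV_w _ _) t3, t, smul_smul, mul_comm]
  rfl

end Tl

theorem tlf : TLF := fun _ _ _ _ hL h hr =>
  (Tl.mm_ok h).imp fun _ a => ⟨a.1, fun ε b c => ⟨a.2 ε b c, Tl.f1_hi hL h hr ε⟩⟩

end Crest.Agent.N218.Pc

end
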