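import Crest.Agent.N218.Pc.Fin0
import Crest.Agent.N218.Pc.Emb
import Crest.Agent.N218.Pc.Ads
import Crest.Agent.N218.Pc.Dsc
import Crest.Agent.N218.Pc.Rh
import Crest.Agent.N218.Pc.Pc1
import Crest.Agent.N218.Pc.Psh
import Crest.Agent.N218.Pc.Cnj
import Crest.Agent.N218.Pc.Llk
import Crest.Agent.N218.Pc.Grd
import Crest.Agent.N218.Pc.Sqz
import Crest.Agent.N218.Pc.Tlf
import Crest.Agent.N218.Pc.Rgu
import Crest.Agent.N218.Pc.Rgd
import Crest.Agent.N218.Pc.Rim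
import Crest.Agent.N218.Pc.Fd
import Crest.Agent.N218.Rd.Main

/-! Row 218, block PIECE: closure. -/

namespace Crest.Agent.N218.Pc

theorem pieceAll : P.PIECE :=
  Fn.piece (fun _ h => sml h) emb ads dsc rh r0k pc0 (pc1 dsc) psh cnj llk grd
    sqz tlf rgu rgd (rim fd) Rd.red'

end Crest.Agent.N218.Pc
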