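import Crest.Agent.N218.P.Shape
import Crest.Agent.N218.Rd.Defs
import Crest.Agent.N218.Sk.Ec1
import Crest.Agent.N218.Pm.Adm0
import Crest.Agent.N218.A.Rs0

/-! Row 218, block PIECE (helper44): the cut. -/

set_option autoImplicit false
set_option linter.unusedVariables false
open Set Topology
open scoped ContDiff RealInnerProductSpace

noncomputable section

namespace Crest.Agent.N218.Pc
open P Sk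

/-- the space of pairs of unit spinors -/
abbrev S : Type := S3 × S3
/-- `σ'` is `σ` up to phases with product `c` -/
def Rl (σ σ' : S) (c : ℂ) : Prop := ∃ t t' : Circle, (σ'.1 : Cn 2) = (t : ℂ) • (σ.1 : Cn 2) ∧
  (σ'.2 : Cn 2) = (t' : ℂ) • (σ.2 : Cn 2) ∧ c = t * t'
/-- the labels -/
def lb (s : ℝ) (σ : S) : ℂ × ℂ × ℂ := lab s σ.1 σ.2
/-- a function of `(ζ, η)` as a function on `S × Y` -/
def up {W : Type} (s : ℝ) (ρ : ℂ × Y → W) (z : S × Y) : W := ρ ((lb s z.1).1, z.2)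
/-- projection to `V₁` -/
def qV (η : Y) : Y := !₂[η 0, η 1, 0, 0, 0]
/-- projection to `V₂` -/
def qW (η : Y) : Y := !₂[0, 0, η 2, η 3, 0]

/-- the bundle with fibre `Y` over `S² × S²` as a summand of a trivial bundle -/
structure Emb (n : ℕ) where
  hp : S → X22
  lf : X22 → S
  ι : S → Y →L[ℝ] Cn n
  ι' : S → Cn n →L[ℝ] Y
  π₁ : X22 → Cn n →L[ℂ] Cn n
  π₂ : X22 → Cn n →L[ℂ] Cn n
  hc : Continuous hp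
  h1 : ∀ σ, ((hp σ).1 : EuclideanSpace ℝ (Fin 3)) = hfv σ.1
  h2 : ∀ σ, ((hp σ).2 : EuclideanSpace ℝ (Fin 3)) = hfv σ.2
  hl : ∀ x, hp (lf x) = x
  rl : ∀ σ σ', hp σ = hp σ' → ∃ c, Rl σ σ' c
  ic : Continuous ι
  ic' : Continuous ι'
  ad : ∀ σ η e, ⟪ι σ η, e⟫ = ⟪η, ι' σ e⟫
  li : ∀ σ η, ι' σ (ι σ η) = η
  eq : ∀ σ σ' c η, Rl σ σ' c → ι σ' (act c η) = ι σ η
  p₁ : Pm.IsPr π₁
  p₂ : Pm.IsPr π₂
  e₁ : ∀ σ e, π₁ (hp σ) e = ι σ (qW (ι' σ e))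
  e₂ : ∀ σ e, π₂ (hp σ) e = ι σ (qV (ι' σ e))
  pcd : ∀ D : Pm.Data X22 (Cn n) (Cn n), D.π₁ = π₁ → D.π₂ = π₂ → Pcd D

/-- the contraction of the complement -/
def cm {E : Type} [NormedAddCommGroup E] [NormedSpace ℝ E] (e : E) : E := (2 * max 1 ‖e‖)⁻¹ • e

namespace Emb
variable {n : ℕ} (B : Emb n)
/-- the component in the complement -/
def pp (σ : S) (e : Cn n) : Cn n := e - B.ι σ (B.ι' σ e)
/-- a map of `Y` as a map of the ambient space -/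
def am (σ : S) (f : Y → Y) (e : Cn n) : Cn n := B.ι σ (f (B.ι' σ e)) + cm (B.pp σ e)
/-- descent of a family with parameters -/
def dsc {Λ : Type} (Φ : (S × Λ) × Y → Y) (z : (X22 × Λ) × Cn n) : Cn n :=
  B.am (B.lf z.1.1) (fun η => Φ ((B.lf z.1.1, z.1.2), η)) z.2
/-- descent -/
def ds (f : S × Y → Y) (z : X22 × Cn n) : Cn n := B.am (B.lf z.1) (fun η => f (B.lf z.1, η)) z.2
end Emb

/-- equivariance -/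
def Ev (f : S × Y → Y) : Prop := ∀ σ σ' c η, Rl σ σ' c → f (σ', act c η) = act c (f (σ, η))

/-- bounded, periodic points are fixed, symmetric strict derivative at the fixed points -/
structure Sy {B E : Type} [TopologicalSpace B] [NormedAddCommGroup E] [InnerProductSpace ℝ E]
    (f : B × E → E) : Prop where
  ct : Continuous f
  bd : ∃ C, ∀ z, ‖f z‖ ≤ C
  per : ∀ b y N, 0 < N → (fun y => f (b, y))^[N] y = y → f (b, y) = y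
  sym : ∀ b y, f (b, y) = y → ∃ M : E →L[ℝ] E, (∀ a a', ⟪M a, a'⟫ = ⟪a, M a'⟫) ∧ Ad.Sd f M (b, y)

/-- one admissible equivariant homotopy -/
def Ch (f g : S × Y → Y) : Prop := ∃ Φ : (S × unitInterval) × Y → Y, Sy Φ ∧
  (∀ t, Ev fun z => Φ ((z.1, t), z.2)) ∧ (∀ z, f z = Φ ((z.1, 0), z.2)) ∧
  ∀ z, g z = Φ ((z.1, 1), z.2)

/-- invariant functions with a regular collar -/
structure Lv (ρ : ℂ × Y → ℝ) (w : ℝ) : Prop where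
  sm : ContDiff ℝ ∞ ρ
  inv : ∀ c ζ η, ‖c‖ = 1 → ρ (c * ζ, act c η) = ρ (ζ, η)
  reg : ∀ ζ η, 0 ≤ ρ (ζ, η) → ρ (ζ, η) ≤ w → ∃ ξ, fderiv ℝ ρ (ζ, η) (0, ξ) ≠ 0
  bdd : ∃ R, ∀ ζ η, ρ (ζ, η) ≤ w → ‖η‖ ≤ R

/-- inward maps -/
structure Rt (ρ : S × Y → ℝ) (f : S × Y → Y) (w : ℝ) : Prop where
  w0 : 0 < w
  ct : Continuous f
  eq : Ev f
  bd : ∃ C, ∀ z, ‖f z‖ ≤ C
  id : ∀ z, ρ z ≤ 0 → f z = z.2
  lt : ∀ z, 0 < ρ z → ρ z ≤ w → ρ (z.1, f z) < ρ z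
  inn : ∀ z, ρ (z.1, f z) ≤ w
  sd : ∀ z, ρ z ≤ 0 → Ad.Sd f 1 z

section shape
variable {Φ : A.Fam} {Λ : ℝ} (h : Shape Φ Λ)
/-- body and piece: the function -/
def Fh (z : ℂ × Y) : ℝ := boY h.ε⁻¹ z.2 + (F h.M z - u1 z.2)
/-- the piece without the body -/
def R0 (z : S × Y) : Y := h.R (lb h.s z.1, z.2)
/-- body and piece: the map -/
def Rh (z : S × Y) : Y :=
  h.ε⁻¹ • (h.rY (h.ε • z.2 + P.ev) - P.ev) + (R0 h z - piH (pl h.ε h.p) z.2)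
/-- the pieces are small compared with the body -/
def Sml : Prop := h.ε * (|h.C| + 30) * 2 ^ 30 ≤ 1
end shape

/-- the Lyapunov function without the rim -/
def LL' (M : ℂ × P.V → P.V) (z : ℂ × Y) : ℝ := LL M z - Ee (tau (co z.2) - 4)
/-- a gradient step -/
def Es (ρ : ℂ × Y → ℝ) (s ε : ℝ) (z : S × Y) : Y := z.2 - ε • up s (A.Rs.vgr ρ) z
/-- the radius of the clamp -/
def rr (τ : ℝ) : ℝ := √(4 + τ)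
/-- the factor of the clamp -/
def cf (τ ρ : ℝ) : ℝ := rr τ / max ρ (rr τ)
/-- `0` for `ρ ≤ 1.8`, `1` for `1.9 ≤ ρ` -/
def chi (ρ : ℝ) : ℝ := Pm.cl (10 * ρ - 18)
/-- squeeze and clamp -/
def vp (τ t : ℝ) (η : Y) : Y :=
  η - t • (chi ‖pw η‖ • (η - qW η) + (1 - cf τ ‖pw η‖) • qW η)
/-- squeeze -/
def vp' (t : ℝ) (η : Y) : Y := η - (t * chi ‖pw η‖) • (η - qW η)
/-- the radial profile -/
def mm (ε τ ρ : ℝ) : ℝ :=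
  cf τ ρ * (1 + ε / 500 - 2000 * ε * st (10 * (min ρ (rr τ) ^ 2 - 4)))
/-- the map with the rim -/
def f1 (M : ℂ × P.V → P.V) (s ε τ : ℝ) (r : S × Y → Y) (z : S × Y) : Y :=
  Es (LL M) s ε (z.1, r (z.1, vp τ 1 z.2))
/-- the map without the rim -/
def e1 (M : ℂ × P.V → P.V) (s ε τ : ℝ) (r : S × Y → Y) (z : S × Y) : Y :=
  if ‖pw z.2‖ ≤ 2 then f1 M s ε τ r z else (1 + ε / 500) • qW z.2
/-- the Hessian at the centre -/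
def H0 (ε : ℝ) (η : Y) : Y := (2 * ε) • (η - qV η) - (ε / 500) • (qV η + qW η)

/-- retractions onto `{LL ≤ 0}` -/
structure Rr (M : ℂ × P.V → P.V) (s : ℝ) (r : S × Y → Y) : Prop where
  ct : Continuous r
  eq : Ev r
  id : ∀ z, up s (LL M) z ≤ 0 → r z = z.2
  inn : ∀ z, up s (LL M) (z.1, r z) ≤ 0

/-- facts on `LL` -/
structure Lk (M : ℂ × P.V → P.V) : Prop where
  lv : Lv (LL M) (1 / 100)
  sm' : ContDiff ℝ ∞ (LL' M)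
  inv' : ∀ c ζ η, ‖c‖ = 1 → LL' M (c * ζ, act c η) = LL' M (ζ, η)
  bd : ∀ z, LL M z ≤ 1 / 100 → ‖z.2‖ ≤ 3
  hi : ∀ z, 3 ≤ tau (co z.2) →
    LL' M z = ‖z.2 - qW z.2‖ ^ 2 - tau (co z.2) / 1000 - 1 / 100
  lo : ∀ z, tau (co z.2) ≤ 1 →
    LL' M z = ‖z.2 - qV z.2‖ ^ 2 - tau (co z.2) / 1000 - 1 / 100
  ge : ∀ z, u2 z.2 ^ 2 + u1 z.2 ^ 2 - tau (co z.2) / 1000 - 1 / 100 ≤ LL' M z
  ghi : ∀ z, 3 < tau (co z.2) →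
    A.Rs.vgr (LL' M) z = (2 : ℝ) • (z.2 - qW z.2) - (1 / 500 : ℝ) • (qV z.2 + qW z.2)
  glo : ∀ z, tau (co z.2) < 1 →
    A.Rs.vgr (LL' M) z = (2 : ℝ) • (z.2 - qV z.2) - (1 / 500 : ℝ) • (qV z.2 + qW z.2)
  gr : ∀ z, A.Rs.vgr (LL M) z = A.Rs.vgr (LL' M) z +
    (2000 * st (10 * (tau (co z.2) - 4))) • (qV z.2 + qW z.2)
  cr : ∀ z, LL M z ≤ 1 / 100 → A.Rs.vgr (LL M) z = 0 → z.2 = 0 ∨
    (LL M z ≤ -(9 / 1000) ∧ qW z.2 = z.2 ∧ st (10 * (‖pw z.2‖ ^ 2 - 4)) = 1 / 1000000)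
  ly : ∀ s : ℝ, ∃ ε₀ > 0, ∀ ε, 0 ≤ ε → ε ≤ ε₀ → ∀ z : S × Y, ‖z.2‖ ≤ 10 →
    ‖Es (LL M) s ε z - z.2‖ ≤ 1 / 100 ∧ ‖Es (LL' M) s ε z - z.2‖ ≤ 1 / 100 ∧
    up s (LL M) (z.1, Es (LL M) s ε z) ≤
      up s (LL M) z - ε / 2 * ‖up s (A.Rs.vgr (LL M)) z‖ ^ 2 ∧
    up s (LL' M) (z.1, Es (LL' M) s ε z) ≤
      up s (LL' M) z - ε / 2 * ‖up s (A.Rs.vgr (LL' M)) z‖ ^ 2

/-- radial profiles -/
structure Mm (μ : ℝ) (m : ℝ → ℝ) : Prop where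
  hμ : 1 < μ
  ct : Continuous m
  eq : ∀ ρ, 0 ≤ ρ → ρ ≤ 2 → m ρ = μ
  nn : ∀ ρ, 0 ≤ ρ → 0 ≤ m ρ
  mono : MonotoneOn (fun ρ => m ρ * ρ) (Ici 0)
  bd : ∃ C, ∀ ρ, 0 ≤ ρ → m ρ * ρ ≤ C
  c1 : ∃ (ρ₁ : ℝ) (ν : ℝ → ℝ), ContDiff ℝ 1 ν ∧ (∀ ρ, 0 ≤ ρ → ρ < ρ₁ → m ρ = ν (ρ ^ 2)) ∧
    0 < ρ₁ ∧ ∀ ρ, ρ₁ ≤ ρ → m ρ < 1

/-- fields of real orthogonal projections -/
structure Pr {X E : Type} [TopologicalSpace X] [NormedAddCommGroup E] [InnerProductSpace ℝ E]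
    (π : X → E →L[ℝ] E) : Prop where
  ct : Continuous π
  id : ∀ x y, π x (π x y) = π x y
  sa : ∀ x y z, ⟪π x y, z⟫ = ⟪y, π x z⟫

/-- the convex path -/
def cv {X E : Type} [AddCommGroup E] [Module ℝ E] (a b : X × E → E) (w : (X × ℝ) × E) : E :=
  (1 - Pm.cl w.1.2) • a (w.1.1, w.2) + Pm.cl w.1.2 • b (w.1.1, w.2)

/-- the gradient-like structure upstairs -/
structure Ru (ε : ℝ) (e : S × Y → Y) (D : Set (S × Y)) (J : ℝ × S × Y → Y) (g : S × Y → ℝ) :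
    Prop where
  ε0 : 0 < ε
  ε1 : ε ≤ 1 / 4
  ec : Continuous e
  ee : Ev e
  ex : ∀ z, 2 ≤ ‖pw z.2‖ → e z = (1 + ε / 500) • qW z.2
  dc : IsClosed D
  di : ∀ σ σ' c η, Rl σ σ' c → ((σ', act c η) ∈ D ↔ (σ, η) ∈ D)
  fD : ∀ z, (z.1, e z) ∈ D
  db : ∀ z ∈ D, ‖z.2 - qW z.2‖ ≤ 2
  jc : Continuous J
  je : ∀ t, Ev fun z => J (t, z)
  j0 : ∀ z, J (0, z) = z.2
  j1 : ∀ z ∈ D, J (1, z) = e z
  jD : ∀ t ∈ Icc (0 : ℝ) 1, ∀ z ∈ D, (z.1, J (t, z)) ∈ D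
  jg : ∀ t ∈ Icc (0 : ℝ) 1, ∀ z ∈ D, g (z.1, J (t, z)) ≤ g z
  jx : ∀ t ∈ Icc (0 : ℝ) 1, ∀ z ∈ D, 2 ≤ ‖pw z.2‖ → ‖pw z.2‖ ≤ ‖pw (J (t, z))‖
  gc : Continuous g
  gi : ∀ σ σ' c η, Rl σ σ' c → g (σ', act c η) = g (σ, η)
  gf : ∀ z ∈ D, z.2 ≠ 0 → g (z.1, e z) < g z
  gk : ∀ b : ℝ, ∃ R, ∀ z ∈ D, -b ≤ g z → ‖z.2‖ ≤ R
  ln : ∀ z : S × Y, ‖z.2‖ ≤ 1 / 50 → z ∈ D ∧ g z = 1 / 2 * ⟪H0 ε z.2, z.2⟫ ∧
    ∀ t ∈ Icc (0 : ℝ) 1, J (t, z) = z.2 - t • H0 ε z.2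

set_option hygiene false in
/-- quantify over compact bases and Euclidean spaces -/
local macro "∀XE " t:term : term =>
  `(∀ (X E : Type) [TopologicalSpace X] [CompactSpace X] [T2Space X] [NormedAddCommGroup E]
    [InnerProductSpace ℝ E] [FiniteDimensional ℝ E], $t)

/-! ## the leaves -/

def EMB : Prop := ∃ n, Nonempty (Emb n)
def ADS : Prop := ∀XE ∀ (f : X × E → E) (k : ℕ), 1 ≤ k → Sy f → Gf k f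
/-- descent -/
structure DSC : Prop where
  at' : ∀ n (B : Emb n) (f : S × Y → Y) σ e, Ev f →
    B.ds f (B.hp σ, e) = B.am σ (fun η => f (σ, η)) e
  ct : ∀ n (B : Emb n) (f : S × Y → Y), Continuous f → Ev f → Continuous (B.ds f)
  gf : ∀ n (B : Emb n) (Φ : (S × unitInterval) × Y → Y) (k : ℕ), 1 ≤ k → Gf k Φ → (∃ C, ∀ z, ‖Φ z‖ ≤ C) →
    (∀ t, Ev fun z => Φ ((z.1, t), z.2)) → Gf k (B.dsc Φ)
def RH : Prop := ∀ Φ (h : Shape Φ (2 ^ 30)), Sml h →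
  Lv (Fh h) h.w ∧ Rt (up h.s (Fh h)) (Rh h) h.w
def PC1 : Prop := ∀ (T : Pm.Th X22 QQ) Φ (h : Shape Φ (2 ^ 30)) n (B : Emb n), Sml h →
  Continuous (R0 h) → Ev (R0 h) → Gf 21 (B.ds (Rh h)) → (Pm.Ec 21 univ (B.ds (R0 h))).Ok ∧
    T.pa 21 (Pm.sp (Cn n)) (Pm.Ec 21 univ (B.ds (R0 h))) =
      T.pa 21 (Pm.sp (Cn n)) (Pm.Ec 21 univ (B.ds (Rh h)))
def PC0 : Prop := ∀ (T : Pm.Th X22 QQ) Φ (h : Shape Φ (2 ^ 30)) n (B : Emb n),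
  Continuous (R0 h) → Ev (R0 h) → (Pm.Ec 21 univ (B.ds (R0 h))).Ok →
    Pm.Pe (T.pa 21 (Pm.sp Y) (h.pc 21)) (T.pa 21 (Pm.sp (Cn n)) (Pm.Ec 21 univ (B.ds (R0 h))))
def R0K : Prop := ∀ Φ (h : Shape Φ (2 ^ 30)), Continuous (R0 h) ∧ Ev (R0 h)
def PSH : Prop := ∀ s ρ f w w', Lv ρ w → Rt (up s ρ) f w → 0 < w' → w' ≤ w →
  ∃ f', Ch f f' ∧ Rt (up s ρ) f' w'
def CNJ : Prop := ∀ Φ (h : Shape Φ (2 ^ 30)), ∃ w₀ > 0, ∀ w f, w ≤ w₀ →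
  Rt (up h.s (Fh h)) f w → ∃ f', Ch f f' ∧ Rt (up h.s (LL h.M)) f' w
def LLK : Prop := ∀ M, Mz M → Lk M
def GRD : Prop := ∀ M s f w, Lk M → w ≤ 1 / 100 → Rt (up s (LL M)) f w → ∃ ε₀ > 0, ∀ ε, 0 < ε →
  ε ≤ ε₀ → Ch f fun z => Es (LL M) s ε (z.1, f z)
def SQZ : Prop := ∀ M s f w τ, Lk M → w ≤ 1 / 100 → Rt (up s (LL M)) f w →
  st (10 * τ) = 2 / 1000000 → ∃ r, Rr M s r ∧ ∃ ε₀ > 0, ∀ ε, 0 < ε → ε ≤ ε₀ →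
    Ch (fun z => Es (LL M) s ε (z.1, f z)) (f1 M s ε τ r)
def TLF : Prop := ∀ M s τ r, Lk M → st (10 * τ) = 2 / 1000000 → Rr M s r → ∃ ε₀ > 0, ∀ ε, 0 < ε →
  ε ≤ ε₀ → Mm (1 + ε / 500) (mm ε τ) ∧
    ∀ z : S × Y, 19 / 10 ≤ ‖pw z.2‖ → f1 M s ε τ r z = mm ε τ ‖pw z.2‖ • qW z.2
def RGU : Prop := ∀ M s τ r, Lk M → st (10 * τ) = 2 / 1000000 → Rr M s r → ∃ ε₀ > 0, ∀ ε, 0 < ε →
  ε ≤ ε₀ → (∀ z : S × Y, 19 / 10 ≤ ‖pw z.2‖ → ‖pw z.2‖ ≤ 2 →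
    f1 M s ε τ r z = (1 + ε / 500) • qW z.2) → ∃ D J g, Ru ε (e1 M s ε τ r) D J g
def RGD : Prop := ∀ n (B : Emb n) ε e D J g, Ru ε e D J g →
  ∃ (G : Rd.Rg X22 (Cn n) (Cn n)) (c κ R₀ M : ℝ), G.Ok c κ R₀ M ∧ (∀ x y, G.p₁ x y = B.π₁ x y) ∧
    (∀ x y, G.ι' x (G.ι x y) = B.π₂ x y) ∧ G.O = univ ∧
    G.ph = cv (fun z => (1 + ε / 500) • B.π₁ z.1 z.2) (B.ds e)
def FD : Prop := ∀XE ∀ (A : Type) [AddCommGroup A] (T : Pm.Th X A) (π : X → E →L[ℝ] E) μ m (k : ℕ),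
  16 ≤ k → Pr π → Mm μ m → Gf k (fun z : X × E => m ‖π z.1 z.2‖ • π z.1 z.2) ∧
    T.pa k (Pm.sp E) (Pm.Ec k univ fun z : X × E => m ‖π z.1 z.2‖ • π z.1 z.2) = 0
def RIM : Prop := ∀XE ∀ (A : Type) [AddCommGroup A] (T : Pm.Th X A) (π : X → E →L[ℝ] E) μ m (k : ℕ)
  (f e : X × E → E), 16 ≤ k → Pr π → Mm μ m → Gf k f → (∃ C, ∀ z, ‖f z‖ ≤ C) →
  (∀ z, 19 / 10 ≤ ‖π z.1 z.2‖ → π z.1 (f z) = m ‖π z.1 z.2‖ • π z.1 z.2 ∧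
    ‖f z - π z.1 (f z)‖ ≤ 1 / 2 * ‖z.2 - π z.1 z.2‖) →
  (∀ z, ‖π z.1 z.2‖ ≤ 2 → e z = f z) → (∀ z, 2 ≤ ‖π z.1 z.2‖ → π z.1 (e z) = μ • π z.1 z.2) →
  ∃ δ₀ > 0, ∀ δ, 0 < δ → δ < δ₀ →
    ((Pm.Psi k univ (cv (fun z => μ • π z.1 z.2) e)).F (Pm.tau δ)).Ok →
    Pm.Pe (T.pa k (Pm.sp E) (Pm.Ec k univ f))
      (T.pa k (Pm.sp E) ((Pm.Psi k univ (cv (fun z => μ • π z.1 z.2) e)).F (Pm.tau δ)))

end Crest.Agent.N218.Pc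

end
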