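import Crest.Agent.N218.Pc.Defs
import Crest.Agent.N218.Pm.Ecf
import Crest.Agent.N218.Pm.Kit3

/-! Row 218, block PIECE (helper78): removing the rim. -/

set_option autoImplicit false
set_option linter.unusedVariables false
set_option linter.unusedSectionVars false
open Set Topology
open scoped RealInnerProductSpace

noncomputable section

namespace Crest.Agent.N218.Pc
open Pm Sk

namespace Rim
variable {k : ℕ} {B E : Type} [TopologicalSpace B] [NormedAddCommGroup E] [InnerProductSpace ℝ E]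

theorem cyc (p : Ix k → Prop) (j : Ix k) (hj : p j) (st : ∀ i, p i → p (i + 1)) (i : Ix k) :
    p i := by
  have a : ∀ n : ℕ, p (j + n) := fun n => by
    induction n with
    | zero => simpa using hj
    | succ n ih => rw [Nat.cast_succ, ← add_assoc]; exact st _ ih
  simpa using a (i - j).val

theorem pn {π : B → E →L[ℝ] E} (h : Pr π) (b : B) (y : E) : ‖π b y‖ ≤ ‖y‖ := by
  have a := h.sa b y (π b y)
  rw [h.id, real_inner_self_eq_norm_sq] at a
  have c := real_inner_le_norm y (π b y)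
  by_contra n
  nlinarith [norm_nonneg y, norm_nonneg (π b y)]

/-- the normalised point -/
def nx (δ : ℝ) (y : V k E) : V k E := y - (1 - cl (2 * ‖mn y‖ / δ - 1)) • mn y

theorem nx_sh (δ : ℝ) (y : V k E) : nx δ (sh k E y) = sh k E (nx δ y) := by
  simp only [nx, mn_sh, norm_sh, map_sub, map_smul]

theorem nx_ct (δ : ℝ) : Continuous (nx δ : V k E → V k E) := by
  unfold nx; fun_prop

theorem nx_le {δ : ℝ} (h : 0 < δ) (y : V k E) (i : Ix k) : ‖y i - nx δ y i‖ ≤ δ := by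
  have m := cl_mem (2 * ‖mn y‖ / δ - 1)
  have e : y i - nx δ y i = (1 - cl (2 * ‖mn y‖ / δ - 1)) • mn y i := by simp [nx]
  rw [e, norm_smul, Real.norm_of_nonneg (sub_nonneg.2 m.2)]
  rcases le_total δ ‖mn y‖ with c | c
  · rw [cl_of_ge (by rw [le_sub_iff_add_le, le_div_iff₀ h]; linarith)]; simpa using h.le
  · nlinarith [norm_le_pi_norm (mn y) i, m.1, norm_nonneg (mn y i)]

theorem nx_cv (δ : ℝ) (y : V k E) (L : E →L[ℝ] E) {C : ℝ} (h : ∀ i, ‖L (y i)‖ ≤ C) (i : Ix k) :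
    ‖L (nx δ y i)‖ ≤ C := by
  have m := cl_mem (2 * ‖mn y‖ / δ - 1)
  have e : L (nx δ y i) = ((1 + cl (2 * ‖mn y‖ / δ - 1)) / 2) • L (y i) +
      ((1 - cl (2 * ‖mn y‖ / δ - 1)) / 2) • L (y (i + 2 ^ k)) := by
    simp only [nx, Pi.sub_apply, Pi.smul_apply, mn, map_sub, map_smul]
    module
  rw [e]
  refine (norm_add_le _ _).trans ?_
  rw [norm_smul, norm_smul, Real.norm_of_nonneg (by linarith [m.1]),
    Real.norm_of_nonneg (by linarith [m.2])]
  nlinarith [h i, h (i + 2 ^ k), m.1, m.2]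

theorem zer {g : B × E → E} {δ : ℝ} {x : B × V k E} (h : x ∈ ((Psi k univ g).F (tau δ)).Z)
    (i : Ix k) : x.2 (i + 1) = g (x.1, nx δ x.2 i) := by
  have a : nx δ x.2 (i + 1) - g (x.1, nx δ x.2 (i + 1 - 1)) +
      ((1 - cl (2 * ‖mn x.2‖ / δ - 1)) • mn x.2) (i + 1) = 0 := congrFun h.2 (i + 1)
  rw [add_sub_cancel_right] at a
  rw [← sub_eq_zero, ← a]
  simp only [nx, Pi.sub_apply]
  abel

/-- expanding in the direction of `π` -/
theorem out {π : B → E →L[ℝ] E} (h : Pr π) {g : B × E → E} {δ μ : ℝ} (d0 : 0 < δ)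
    (hδ : δ < (μ - 1) * (19 / 10)) {x : B × V k E} (z : x ∈ ((Psi k univ g).F (tau δ)).Z)
    (hg : ∀ y, 19 / 10 ≤ ‖π x.1 y‖ → π x.1 (g (x.1, y)) = μ • π x.1 y) (i : Ix k) :
    ‖π x.1 (nx δ x.2 i)‖ < 19 / 10 := by
  obtain ⟨j, hj⟩ := Finite.exists_max fun i => ‖π x.1 (nx δ x.2 i)‖
  by_contra n
  have a : 19 / 10 ≤ ‖π x.1 (nx δ x.2 j)‖ := (not_lt.1 n).trans (hj i)
  have b := hg _ a
  rw [← zer z] at b
  have c := (pn h x.1 _).trans (nx_le d0 x.2 (j + 1))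
  rw [map_sub, b] at c
  have d := norm_sub_norm_le (μ • π x.1 (nx δ x.2 j)) (π x.1 (nx δ x.2 (j + 1)))
  rw [norm_smul, Real.norm_of_nonneg (by linarith)] at d
  nlinarith [hj (j + 1)]

/-- the rim -/
theorem rim0 [FiniteDimensional ℝ E] [T2Space B] {π : B → E →L[ℝ] E} (h : Pr π) {g : B × E → E} {δ μ : ℝ} {m : ℝ → ℝ} (hm : Mm μ m)
    (d0 : 0 < δ) (hδ : δ < (μ - 1) * (19 / 10)) {x : B × V k E}
    (z : x ∈ ((Psi k univ g).F (tau δ)).Z)
    (hg : ∀ y, 19 / 10 ≤ ‖π x.1 y‖ → π x.1 (g (x.1, y)) = m ‖π x.1 y‖ • π x.1 y ∧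
      ‖g (x.1, y) - π x.1 (g (x.1, y))‖ ≤ 1 / 2 * ‖y - π x.1 y‖)
    (nz : (Psi k univ fun w : B × E => m ‖π w.1 w.2‖ • π w.1 w.2).NoZ δ x.1) (i : Ix k) :
    ‖π x.1 (nx δ x.2 i)‖ < 19 / 10 := by
  by_contra n
  have al : ∀ j, 19 / 10 ≤ ‖π x.1 (nx δ x.2 j)‖ := cyc _ i (not_lt.1 n) fun j a => by
    have b := (hg _ a).1
    rw [← zer z] at b
    have c := (pn h x.1 _).trans (nx_le d0 x.2 (j + 1))
    rw [map_sub, b] at c
    have d := norm_sub_norm_le (m ‖π x.1 (nx δ x.2 j)‖ • π x.1 (nx δ x.2 j))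
      (π x.1 (nx δ x.2 (j + 1)))
    rw [norm_smul, Real.norm_of_nonneg (hm.nn _ (norm_nonneg _))] at d
    have e : m (19 / 10) * (19 / 10) ≤ _ :=
      hm.mono (show (0 : ℝ) ≤ 19 / 10 by norm_num) (norm_nonneg _) a
    rw [hm.eq _ (by norm_num) (by norm_num)] at e
    dsimp only at e
    linarith
  obtain ⟨j, hj⟩ := Finite.exists_max fun i => ‖(1 - π x.1 : E →L[ℝ] E) (nx δ x.2 i)‖
  have r : ∀ i, ‖(1 - π x.1 : E →L[ℝ] E) (x.2 i)‖ ≤
      1 / 2 * ‖(1 - π x.1 : E →L[ℝ] E) (nx δ x.2 j)‖ := fun i => by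
    have a := (hg _ (al (i - 1))).2
    rw [← zer z, sub_add_cancel] at a
    have b : ‖nx δ x.2 (i - 1) - π x.1 (nx δ x.2 (i - 1))‖ ≤ _ := hj (i - 1)
    exact a.trans (by linarith)
  have r0 : ‖(1 - π x.1 : E →L[ℝ] E) (nx δ x.2 j)‖ = 0 := by
    linarith [nx_cv δ x.2 _ r j, norm_nonneg ((1 - π x.1 : E →L[ℝ] E) (nx δ x.2 j))]
  refine nz.notMem (tau_ok d0) ⟨⟨z.1.1, fun _ => mem_univ _⟩, funext fun i => ?_⟩
  have a : ‖x.2 i - π x.1 (x.2 i)‖ ≤ _ := r i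
  rw [r0, mul_zero, norm_le_zero_iff, sub_eq_zero] at a
  have b := (hg _ (al (i - 1))).1
  rw [← zer z, sub_add_cancel, ← a] at b
  change nx δ x.2 i - m ‖π x.1 (nx δ x.2 (i - 1))‖ • π x.1 (nx δ x.2 (i - 1)) +
    ((1 - cl (2 * ‖mn x.2‖ / δ - 1)) • mn x.2) i = 0
  rw [← b]
  simp only [nx, Pi.sub_apply]
  abel

theorem psi_bd {g : B × E → E} {C : ℝ} (h : ∀ z, ‖g z‖ ≤ C) : (Psi k univ g).Bd := by
  refine ⟨C, fun x _ s s0 e => ?_⟩
  have a : x.2 + s • mn x.2 = fun i => g (x.1, x.2 (i - 1)) := funext fun i => by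
    have : x.2 i - g (x.1, x.2 (i - 1)) + (s • mn x.2) i = 0 := congrFun e i
    rw [← sub_eq_zero, ← this, Pi.add_apply]; abel
  have b : ‖x.2 + s • mn x.2‖ ≤ C := a ▸ (pi_norm_le_iff_of_nonempty _).2 fun i => h _
  have c := (norm_mn _).trans b
  rwa [mn_add, mn_smul, mn_mn, show mn x.2 + s • mn x.2 = (1 + s) • mn x.2 by module, norm_smul,
    Real.norm_of_nonneg (by linarith)] at c

theorem cv0 (a b : B × E → E) {x : B} {s : ℝ} (h : s ≤ 0) (y : E) :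
    cv a b ((x, s), y) = a (x, y) := by simp [cv, cl_of_le h]
theorem cv1 (a b : B × E → E) {x : B} {s : ℝ} (h : 1 ≤ s) (y : E) :
    cv a b ((x, s), y) = b (x, y) := by simp [cv, cl_of_ge h]
end Rim

open Rim in
theorem rim (fd : FD) : RIM := by
  intro X E _ _ _ _ _ _ A _ T π μ m k f e hk hπ hm hf ⟨C, hC⟩ h1 h2 h3
  obtain ⟨gm, p0⟩ := fd X E A T π μ m k hk hπ hm
  obtain ⟨C', hC'⟩ := hm.bd
  set a : X × E → E := fun z => m ‖π z.1 z.2‖ • π z.1 z.2 with ha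
  have ac := gm.ct
  have fc := hf.ct
  have bd : ∀ z, ‖cv a f z‖ ≤ max C C' := fun z => by
    have c := cl_mem z.1.2
    have u : ‖a (z.1.1, z.2)‖ ≤ max C C' := by
      rw [ha, norm_smul, Real.norm_of_nonneg (hm.nn _ (norm_nonneg _))]
      exact (hC' _ (norm_nonneg _)).trans (le_max_right _ _)
    have v := (hC (z.1.1, z.2)).trans (le_max_left C C')
    refine (norm_add_le _ _).trans ?_
    rw [norm_smul (1 - cl z.1.2), norm_smul (cl z.1.2), Real.norm_of_nonneg (sub_nonneg.2 c.2),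
      Real.norm_of_nonneg c.1]
    nlinarith [c.1, c.2]
  have ok : ∀ {B : Type} [TopologicalSpace B] [T2Space B] {g : B × E → E} {C : ℝ}, Continuous g →
      (∀ z, ‖g z‖ ≤ C) → (Psi k univ g).Ok := fun c b =>
    psi_ok_lin c (A := fun _ => 0) continuous_const (fun _ v e => funext fun i => by simpa using e i)
      fun _ _ => ⟨_, fun _ _ _ => by simpa using b _⟩
  have e0 : ((Psi k univ (cv a f)).pull fun x => (x, (0 : ℝ))) = Psi k univ a := by
    simp [Psi, PM.pull, cv0 a f le_rfl]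
  have e1 : ((Psi k univ (cv a f)).pull fun x => (x, (1 : ℝ))) = Psi k univ f := by
    simp [Psi, PM.pull, cv1 a f le_rfl]
  obtain ⟨δ₁, d1, hd⟩ := ecf X A T k (sp E) 0 1 (Psi k univ (cv a f)) hk zero_le_one
    (ok (by unfold cv; fun_prop) bd)
    (fun x s hs y => ⟨by simp [Psi], fun _ => by simp [Psi, cv0 a f hs, cv0 a f le_rfl], rfl⟩)
    (fun x s hs y => ⟨by simp [Psi], fun _ => by simp [Psi, cv1 a f hs, cv1 a f le_rfl], rfl⟩)
    (e0 ▸ gm.Adm) (e1 ▸ hf.Adm) (psi_bd bd)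
  obtain ⟨δ₂, d2, nz⟩ := gm.Adm.noz (ok ac (C := C') fun z => by
    rw [ha, norm_smul, Real.norm_of_nonneg (hm.nn _ (norm_nonneg _))]
    exact hC' _ (norm_nonneg _))
  have m1 := hm.hμ
  refine ⟨min (min δ₁ δ₂) ((μ - 1) * (19 / 10)), by positivity, fun δ d0 dl o => ?_⟩
  simp only [lt_min_iff] at dl
  obtain ⟨o', pe⟩ := hd δ d0 dl.1.1
  rw [e0, e1] at pe
  have pc := hπ.ct
  have hπ' : Pr fun b : X × ℝ => π b.1 := ⟨by fun_prop, fun _ => hπ.id _, fun _ => hπ.sa _⟩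
  have nc := nx_ct (k := k) (E := E) δ
  have q := o'.eqv_germ o (N := {x | ∀ i, ‖π x.1.1 (nx δ x.2 i)‖ < 2})
    (by
      simp only [ofPred_forall]
      exact isOpen_iInter_of_finite fun i => isOpen_lt (by fun_prop) continuous_const)
    (fun x hx i => by simpa only [nx_sh, sh_apply] using hx (i - 1))
    (fun x hx i => lt_trans (rim0 hπ' hm d0 dl.2 hx (fun y hy => ?_)
      ((nz x.1.1).mono dl.1.2.le) i) (by norm_num))
    (fun x hx i => lt_trans (out hπ' d0 dl.2 hx (fun y hy => ?_) i) (by norm_num))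
    fun x hx => ⟨Iff.rfl, fun _ => funext fun i => ?_⟩
  · rw [← T.pa_eqv k (sp E) _ _ hk q]
    have : T.pa k (sp E) (Psi k univ a).Ec = 0 := p0
    rw [this, sub_zero] at pe
    exact pe.symm
  · obtain ⟨u, v⟩ := h1 (x.1.1, y) hy
    have c := cl_mem x.1.2
    simp only [cv, ha, map_add, map_smul, hπ.id] at u v ⊢
    refine ⟨by rw [u]; module, le_trans (le_of_eq (congrArg _ ?_)) ((norm_smul_le (cl x.1.2)
      (f (x.1.1, y) - π x.1.1 (f (x.1.1, y)))).trans ?_)⟩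
    · module
    · rw [Real.norm_of_nonneg c.1]
      nlinarith [c.2, norm_nonneg (f (x.1.1, y) - π x.1.1 (f (x.1.1, y)))]
  · have u : π x.1.1 (e (x.1.1, y)) = μ • π x.1.1 y := by
      rcases le_total ‖π x.1.1 y‖ 2 with c | c
      · rw [h2 (x.1.1, y) c, (h1 (x.1.1, y) hy).1, hm.eq _ (norm_nonneg _) c]
      · exact h3 (x.1.1, y) c
    simp only [cv, map_add, map_smul, hπ.id, u]
    module
  · have c := (hx (i - 1)).le
    change nx δ x.2 i - cv a f (x.1, nx δ x.2 (i - 1)) + _ =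
      nx δ x.2 i - cv (fun z => μ • π z.1 z.2) e (x.1, nx δ x.2 (i - 1)) + _
    simp only [cv, ha, h2 (x.1.1, nx δ x.2 (i - 1)) c, hm.eq _ (norm_nonneg _) c]
    rfl

end Crest.Agent.N218.Pc

end
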