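import Crest.Agent.N218.Pm.Adm0

/-! Row 218, block PIECE (helper28): calculus of the strict fibre derivative `Ad.Sd`. -/

set_option autoImplicit false
set_option linter.unusedSectionVars false
set_option maxHeartbeats 400000
open Set Filter Topology Asymptotics

noncomputable section

namespace Crest.Agent.N218.Ad

variable {V : Type*} [NormedAddCommGroup V] [NormedSpace ℝ V] [FiniteDimensional ℝ V]
  {T T' : Type*} [TopologicalSpace T] [TopologicalSpace T'] {P Q : T × V → V} {D D' : V →L[ℝ] V}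
  {x : T × V}

theorem sd_iff : Sd P D x ↔ (fun y : T × V × V => P (y.1, y.2.1) - P (y.1, y.2.2) - D (y.2.1 - y.2.2))
    =o[𝓝 (x.1, x.2, x.2)] fun y => y.2.1 - y.2.2 :=
  ⟨fun h => isLittleO_iff.2 fun c a => h c a, fun h _ a => isLittleO_iff.1 h a⟩

theorem tend1 (x : T × V) : Tendsto (fun y : T × V × V => (y.1, y.2.1)) (𝓝 (x.1, x.2, x.2)) (𝓝 x) :=
  Continuous.tendsto' (by fun_prop) _ _ rfl
theorem tend2 (x : T × V) : Tendsto (fun y : T × V × V => (y.1, y.2.2)) (𝓝 (x.1, x.2, x.2)) (𝓝 x) :=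
  Continuous.tendsto' (by fun_prop) _ _ rfl

theorem Sd.congr (h : Sd P D x) (e : ∀ᶠ y in 𝓝 x, Q y = P y) : Sd Q D x := fun ε a => by
  filter_upwards [h ε a, (tend1 x).eventually e, (tend2 x).eventually e] with y b c d
  rwa [c, d]
theorem Sd.of_eq (h : Sd P D x) (e : ∀ v, D' v = D v) : Sd P D' x := by
  rwa [ContinuousLinearMap.ext e]
/-- base change -/
theorem Sd.pull {φ : T' → T} {t : T'} {v : V} (hφ : ContinuousAt φ t) (h : Sd P D (φ t, v)) :
    Sd (fun y : T' × V => P (φ y.1, y.2)) D (t, v) := fun ε a => by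
  have : Tendsto (fun y : T' × V × V => (φ y.1, y.2)) (𝓝 (t, v, v)) (𝓝 (φ t, v, v)) :=
    (hφ.tendsto.comp (continuous_fst.tendsto (t, v, v))).prodMk_nhds (continuous_snd.tendsto _)
  exact this.eventually (h ε a)
theorem Sd.isO (h : Sd P D x) : (fun y : T × V × V => P (y.1, y.2.1) - P (y.1, y.2.2))
    =O[𝓝 (x.1, x.2, x.2)] fun y => y.2.1 - y.2.2 := by
  simpa using (sd_iff.1 h).isBigO.add (D.isBigO_comp (fun y : T × V × V => y.2.1 - y.2.2) _)
/-- chain rule -/
theorem Sd.comp (h : Sd P D (x.1, Q x)) (h' : Sd Q D' x) (hQ : ContinuousAt Q x) :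
    Sd (fun y => P (y.1, Q y)) (D.comp D') x := by
  have t : Tendsto (fun y : T × V × V => (y.1, Q (y.1, y.2.1), Q (y.1, y.2.2)))
      (𝓝 (x.1, x.2, x.2)) (𝓝 (x.1, Q x, Q x)) :=
    (continuous_fst.tendsto _).prodMk_nhds
      ((hQ.tendsto.comp (tend1 x)).prodMk_nhds (hQ.tendsto.comp (tend2 x)))
  refine sd_iff.2 (((((sd_iff.1 h).comp_tendsto t).trans_isBigO h'.isO).add
    ((D.isBigO_comp _ _).trans_isLittleO (sd_iff.1 h'))).congr_left fun y => ?_)
  simp only [Function.comp_apply, map_sub, ContinuousLinearMap.comp_apply]; abel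
theorem Sd.snd : Sd (Prod.snd : T × V → V) 1 x := fun ε a =>
  Eventually.of_forall fun y => by simp; positivity
theorem Sd.const (c : T → V) : Sd (fun y : T × V => c y.1) 0 x := fun ε a =>
  Eventually.of_forall fun y => by simp; positivity
theorem Sd.add (h : Sd P D x) (h' : Sd Q D' x) : Sd (fun y => P y + Q y) (D + D') x :=
  sd_iff.2 (((sd_iff.1 h).add (sd_iff.1 h')).congr_left fun y => by
    simp only [add_apply]; abel)
theorem Sd.sub (h : Sd P D x) (h' : Sd Q D' x) : Sd (fun y => P y - Q y) (D - D') x :=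
  sd_iff.2 (((sd_iff.1 h).sub (sd_iff.1 h')).congr_left fun y => by
    simp only [sub_apply]; abel)
/-- a linear map that depends on the parameter -/
theorem Sd.clm (h : Sd P D x) {L : T → V →L[ℝ] V} (hL : ContinuousAt L x.1) :
    Sd (fun y => L y.1 (P y)) ((L x.1).comp D) x := by
  have t : Tendsto (fun y : T × V × V => L y.1 - L x.1) (𝓝 (x.1, x.2, x.2)) (𝓝 0) :=
    tendsto_sub_nhds_zero_iff.2 (hL.comp (f := fun y : T × V × V => y.1) continuousAt_fst)
  have a : (fun y : T × V × V => (L y.1 - L x.1) (P (y.1, y.2.1) - P (y.1, y.2.2)))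
      =o[𝓝 (x.1, x.2, x.2)] fun y => y.2.1 - y.2.2 := by
    refine IsLittleO.trans_isBigO (isLittleO_iff.2 fun c c0 => ?_) h.isO
    filter_upwards [t.norm.eventually (gt_mem_nhds (by simpa using c0 : ‖(0 : V →L[ℝ] V)‖ < c))]
      with y hy
    exact ((L y.1 - L x.1).le_opNorm _).trans (mul_le_mul_of_nonneg_right hy.le (norm_nonneg _))
  refine sd_iff.2 ((a.add (((L x.1).isBigO_comp _ _).trans_isLittleO (sd_iff.1 h))).congr_left
    fun y => ?_)
  simp only [map_sub, sub_apply, ContinuousLinearMap.comp_apply]; abel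
/-- a scalar that depends on the parameter -/
theorem Sd.smul (h : Sd P D x) {c : T → ℝ} (hc : ContinuousAt c x.1) :
    Sd (fun y => c y.1 • P y) (c x.1 • D) x :=
  (h.clm (L := fun t => c t • 1) (hc.smul continuousAt_const)).of_eq fun _ => rfl
/-- a Lipschitz scalar times a map that vanishes at the point -/
theorem Sd.smul0 (h : Sd P D x) (hP : ContinuousAt P x) (h0 : P x = 0) {c : T × V → ℝ}
    (hc : ContinuousAt c x) (lc : (fun y : T × V × V => c (y.1, y.2.1) - c (y.1, y.2.2))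
      =O[𝓝 (x.1, x.2, x.2)] fun y => y.2.1 - y.2.2) : Sd (fun y => c y • P y) (c x • D) x := by
  have a : (fun y : T × V × V => c (y.1, y.2.1) - c x) =o[𝓝 (x.1, x.2, x.2)] fun _ => (1 : ℝ) :=
    (isLittleO_one_iff ℝ).2 (tendsto_sub_nhds_zero_iff.2 (hc.tendsto.comp (tend1 x)))
  have b : (fun y : T × V × V => P (y.1, y.2.2)) =o[𝓝 (x.1, x.2, x.2)] fun _ => (1 : ℝ) :=
    (isLittleO_one_iff ℝ).2 (h0 ▸ hP.tendsto.comp (tend2 x))
  have u := a.smul_isBigO h.isO
  have v := lc.norm_right.smul_isLittleO b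
  simp only [one_smul, smul_eq_mul, mul_one, isLittleO_norm_right] at u v
  refine sd_iff.2 (((u.add v).add ((sd_iff.1 h).const_smul_left (c x))).congr_left fun y => ?_)
  simp only [smul_apply, map_sub, Pi.smul_apply]; module
/-- smooth families -/
theorem Sd.of_contDiffAt {N : Type*} [NormedAddCommGroup N] [NormedSpace ℝ N] {F : N × V → V}
    {p : N × V} (h : ContDiffAt ℝ 1 F p) :
    Sd F ((fderiv ℝ F p).comp (ContinuousLinearMap.inr ℝ N V)) p := by
  have t : Tendsto (fun y : N × V × V => ((y.1, y.2.1), (y.1, y.2.2))) (𝓝 (p.1, p.2, p.2))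
      (𝓝 (p, p)) := (tend1 p).prodMk_nhds (tend2 p)
  refine sd_iff.2 ((((h.hasStrictFDerivAt one_ne_zero).isLittleO.comp_tendsto t).congr_left
    fun y => ?_).trans_isBigO (IsBigO.of_bound 1 (Eventually.of_forall fun y => ?_)))
  · simp [-map_sub]
  · simp
theorem Sd.of_contDiff {N : Type*} [NormedAddCommGroup N] [NormedSpace ℝ N] {F : N × V → V}
    {φ : T → N} (h : ContDiffAt ℝ 1 F (φ x.1, x.2)) (hφ : ContinuousAt φ x.1) :
    Sd (fun y : T × V => F (φ y.1, y.2))
      ((fderiv ℝ F (φ x.1, x.2)).comp (ContinuousLinearMap.inr ℝ N V)) x :=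
  (Sd.of_contDiffAt h).pull hφ
theorem Sd.of_strict {f : V → V} (h : HasStrictFDerivAt f D x.2) :
    Sd (fun y : T × V => f y.2) D x :=
  sd_iff.2 (h.isLittleO.comp_tendsto (continuous_snd.tendsto (x.1, x.2, x.2)))
/-- the strict fibre derivative is the derivative of the slice -/
theorem Sd.strict (h : Sd P D x) : HasStrictFDerivAt (fun v => P (x.1, v)) D x.2 :=
  .of_isLittleO ((sd_iff.1 h).comp_tendsto (Continuous.tendsto'
    (f := fun y : V × V => (x.1, y)) (by fun_prop) _ _ rfl))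
theorem Sd.unique (h : Sd P D x) (h' : Sd P D' x) : D = D' :=
  h.strict.hasFDerivAt.unique h'.strict.hasFDerivAt
/-- conjugation: the derivatives of a fibrewise right inverse cancel -/
theorem Sd.inv (h : Sd P D (x.1, Q x)) (h' : Sd Q D' x) (hQ : ContinuousAt Q x)
    (e : ∀ᶠ y in 𝓝 x, P (y.1, Q y) = y.2) : D.comp D' = 1 :=
  (h.comp h' hQ).unique (Sd.snd.congr e)

end Crest.Agent.N218.Ad
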