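import Crest.Agent.N218.Pc.Ads
import Crest.Agent.N218.Pc.Sd0

/-! Row 218, block PIECE (helper28): kit for `Sy`, `Rt`, `Ch`. -/

set_option autoImplicit false
set_option linter.unusedVariables false
set_option maxHeartbeats 400000
open Set Topology
open scoped RealInnerProductSpace

noncomputable section

namespace Crest.Agent.N218.Pc
open P Sk

/-- Lyapunov criterion: on a set that contains the image, `g` drops except at fixed points -/
theorem per_lya {E : Type} {f : E → E} {D : Set E} {g : E → ℝ} (hD : ∀ y, f y ∈ D)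
    (h : ∀ y ∈ D, f y = y ∨ g (f y) < g y) (y : E) (N : ℕ) (hN : 0 < N) (e : f^[N] y = y) :
    f y = y := by
  obtain ⟨N, rfl⟩ := Nat.exists_eq_succ_of_ne_zero hN.ne'
  have y0 : y ∈ D := by rw [← e, Function.iterate_succ_apply']; exact hD _
  refine (h y y0).resolve_right fun a => ?_
  have : ∀ n, g (f^[n + 1] y) < g y := fun n => by
    induction n with
    | zero => exact a
    | succ n ih =>
      rw [Function.iterate_succ_apply']
      rcases h (f^[n + 1] y) (by rw [Function.iterate_succ_apply']; exact hD _) with b | b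
      · rwa [b]
      · exact b.trans ih
  exact (this N).ne (congrArg g e)

section
variable {B B' E : Type} [TopologicalSpace B] [TopologicalSpace B'] [NormedAddCommGroup E]
  [InnerProductSpace ℝ E]

theorem Sy.pull [FiniteDimensional ℝ E] {f : B × E → E} (h : Sy f) {φ : B' → B} (hφ : Continuous φ) :
    Sy fun z : B' × E => f (φ z.1, z.2) :=
  ⟨h.ct.comp (by fun_prop), h.bd.imp fun _ a z => a _, fun b => h.per (φ b), fun b y e =>
    let ⟨M, a, c⟩ := h.sym (φ b) y e; ⟨M, a, c.pull hφ.continuousAt⟩⟩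

/-- `Sy` from a Lyapunov function -/
theorem Sy.of_lya {f : B × E → E} (ct : Continuous f) (bd : ∃ C, ∀ z, ‖f z‖ ≤ C) {D : Set (B × E)}
    {g : B × E → ℝ} (hD : ∀ z, (z.1, f z) ∈ D) (h : ∀ z ∈ D, f z = z.2 ∨ g (z.1, f z) < g z)
    (s : ∀ z ∈ D, f z = z.2 → ∃ M : E →L[ℝ] E, (∀ a a', ⟪M a, a'⟫ = ⟪a, M a'⟫) ∧ Ad.Sd f M z) :
    Sy f :=
  ⟨ct, bd, fun b => per_lya (D := {y | (b, y) ∈ D}) (g := fun y => g (b, y)) (fun y => hD (b, y))
    fun y a => h (b, y) a, fun b y e => s (b, y) (by simpa [e] using hD (b, y)) e⟩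

/-- `Sy` for inward families: the identity on `{ρ ≤ 0}`, `ρ` drops on the collar -/
theorem Sy.of_inw {f : B × E → E} (ct : Continuous f) (bd : ∃ C, ∀ z, ‖f z‖ ≤ C) {ρ : B × E → ℝ}
    {w : B → ℝ} (id : ∀ z, ρ z ≤ 0 → f z = z.2)
    (lt : ∀ z, 0 < ρ z → ρ z ≤ w z.1 → ρ (z.1, f z) < ρ z) (inn : ∀ z, ρ (z.1, f z) ≤ w z.1)
    (sd : ∀ z, ρ z ≤ 0 → Ad.Sd f 1 z) : Sy f :=
  Sy.of_lya ct bd (D := {z | ρ z ≤ w z.1}) (g := ρ) inn
    (fun z a => (le_or_gt (ρ z) 0).imp (id z) fun c => lt z c a) fun z a e =>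
      ⟨1, fun _ _ => rfl, sd z (le_of_not_gt fun c => by simpa [e] using lt z c a)⟩
end

theorem Rt.sy {ρ : S × Y → ℝ} {f : S × Y → Y} {w : ℝ} (h : Rt ρ f w) : Sy f :=
  Sy.of_inw h.ct h.bd (w := fun _ => w) h.id h.lt h.inn h.sd
theorem Rt.gf {ρ : S × Y → ℝ} {f : S × Y → Y} {w : ℝ} (h : Rt ρ f w) {k : ℕ} (hk : 1 ≤ k) :
    Gf k f := h.sy.gf hk
/-- the fixed points of an inward map -/
theorem Rt.fix {ρ : S × Y → ℝ} {f : S × Y → Y} {w : ℝ} (h : Rt ρ f w) {z : S × Y} (e : f z = z.2) :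
    ρ z ≤ 0 := le_of_not_gt fun c => by
  simpa [e] using h.lt z c (by simpa [e] using h.inn z)
/-- on the collar `ρ` does not increase -/
theorem Rt.le {ρ : S × Y → ℝ} {f : S × Y → Y} {w : ℝ} (h : Rt ρ f w) {z : S × Y} (a : ρ z ≤ w) :
    ρ (z.1, f z) ≤ ρ z :=
  (le_or_gt (ρ z) 0).elim (fun c => by rw [h.id z c]) fun c => (h.lt z c a).le

theorem Ch.refl {f : S × Y → Y} (h : Sy f) (e : Ev f) : Ch f f :=
  ⟨fun z => f (z.1.1, z.2), h.pull continuous_fst, fun _ => e, fun _ => rfl, fun _ => rfl⟩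
theorem Ch.symm {f g : S × Y → Y} (h : Ch f g) : Ch g f :=
  let ⟨Φ, a, b, c, d⟩ := h
  ⟨fun z => Φ ((z.1.1, unitInterval.symm z.1.2), z.2), a.pull (φ := fun x : S × unitInterval =>
    (x.1, unitInterval.symm x.2)) (by fun_prop), fun t => b (unitInterval.symm t), fun z => by simpa using d z,
    fun z => by simpa using c z⟩
theorem Ch.left {f g : S × Y → Y} (h : Ch f g) : Sy f ∧ Ev f := by
  obtain ⟨Φ, a, b, c, d⟩ := h
  obtain rfl := funext c
  exact ⟨a.pull (φ := fun σ : S => (σ, (0 : unitInterval))) (by fun_prop), b 0⟩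
theorem Ch.right {f g : S × Y → Y} (h : Ch f g) : Sy g ∧ Ev g := h.symm.left

end Crest.Agent.N218.Pc
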