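import Crest.Agent.N218.Pc.Defs
import Crest.Agent.N218.Pc.Ll
import Crest.Agent.N218.A.Ana

/-! Row 218, block PIECE (helper84): the squeeze lowers `LL`. -/

set_option autoImplicit false
open Set Filter Topology
open scoped ContDiff RealInnerProductSpace

namespace Crest.Agent.N218.Pc.Sq
open P Ll A.Rs

theorem qW_eq (y : Y) : qW y = pW y := (pW_eq y).symm
theorem qV_eq (y : Y) : qV y = pV y := (pV_eq y).symm

theorem vp_eq (τ t : ℝ) (y : Y) : vp τ t y =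
    dg (1 - t * chi ‖pw y‖) (1 - t * (1 - cf τ ‖pw y‖)) (1 - t * chi ‖pw y‖) y := by
  rw [vp, dg_apply, qW_eq]; module

theorem chi_mem (ρ : ℝ) : 0 ≤ chi ρ ∧ chi ρ ≤ 1 :=
  ⟨le_max_left _ _, max_le zero_le_one (min_le_left _ _)⟩
theorem chi_lo {ρ : ℝ} (h : ρ ≤ 9 / 5) : chi ρ = 0 :=
  max_eq_left ((min_le_right _ _).trans (by linarith))
theorem chi_hi {ρ : ℝ} (h : 19 / 10 ≤ ρ) : chi ρ = 1 := by
  rw [chi, Pm.cl, min_eq_left (by linarith), max_eq_right zero_le_one]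

theorem tau_pos {τ : ℝ} (h : st (10 * τ) = 2 / 1000000) : 0 < τ := by
  by_contra a
  rw [st, Real.smoothTransition.zero_of_nonpos (by linarith)] at h
  norm_num at h

theorem rr_sq {τ : ℝ} (h : 0 < τ) : rr τ ^ 2 = 4 + τ := Real.sq_sqrt (by linarith)
theorem two_lt {τ : ℝ} (h : 0 < τ) : 2 < rr τ := Real.lt_sqrt_of_sq_lt (by linarith)
theorem cf_one {τ ρ : ℝ} (h : 0 < τ) (a : ρ ≤ rr τ) : cf τ ρ = 1 := by
  rw [cf, max_eq_right a, div_self (by linarith [two_lt h])]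

theorem vp_cont {τ : ℝ} (h : 0 < τ) : Continuous fun z : ℝ × Y => vp τ z.1 z.2 := by
  have a : Continuous fun z : ℝ × Y => ‖pw z.2‖ := (pw_sm.continuous.comp continuous_snd).norm
  have b : Continuous fun z : ℝ × Y => qW z.2 := by simp only [qW_eq]; fun_prop
  have c : Continuous fun z : ℝ × Y => chi ‖pw z.2‖ := by unfold chi Pm.cl; fun_prop
  have d : Continuous fun z : ℝ × Y => cf τ ‖pw z.2‖ :=
    continuous_const.div (a.max continuous_const) fun z =>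
      ((by linarith [two_lt h] : 0 < rr τ).trans_le (le_max_right _ _)).ne'
  unfold vp
  fun_prop

theorem vp_act (τ t : ℝ) {c : ℂ} (hc : ‖c‖ = 1) (y : Y) : vp τ t (act c y) = act c (vp τ t y) := by
  rw [vp_eq, vp_eq, pw_act, norm_aW hc, dg_act]

theorem Ee_gap {x y : ℝ} (h : x ≤ y) : 1000 * st (10 * x) * (y - x) ≤ Ee y - Ee x :=
  (convex_Ici x).mul_sub_le_image_sub_of_le_deriv Ee_sm.continuous.continuousOn
    (Ee_sm.differentiable (by simp)).differentiableOn (fun z hz => by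
      rw [(Ee_d z).deriv]
      exact mul_le_mul_of_nonneg_left (Real.smoothTransition.monotone
        (by linarith [mem_Ici.1 (interior_subset hz)])) (by norm_num)) x (mem_Ici.2 le_rfl) y h h

variable {M : ℂ × V → V}

theorem LL_hi (hL : Lk M) (ζ : ℂ) {y : Y} (h : 3 ≤ ta y) : LL M (ζ, y) =
    ‖pv y‖ ^ 2 + (u2 y ^ 2 + u1 y ^ 2) - ta y / 1000 - 1 / 100 + Ee (ta y - 4) := by
  have := hL.hi (ζ, y) h
  simp only [LL', qW_eq, sq_rest, ta_eq] at this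
  linarith

theorem LL_zero (hL : Lk M) (ζ : ℂ) : LL M (ζ, 0) = -(1 / 100) := by
  have e : ta 0 = 0 := le_antisymm (by simpa using ta_le 0) (by unfold ta; positivity)
  have := hL.lo (ζ, 0) (by simp only [ta_eq, e]; norm_num)
  simp only [LL', qV_eq, ta_eq, e, map_zero, sub_zero, norm_zero] at this
  rw [Ee_z (by norm_num)] at this
  linarith

theorem dg_le (hL : Lk M) {τ a b : ℝ} (hτ : st (10 * τ) = 2 / 1000000) (ζ : ℂ) (y : Y)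
    (W0 : 3 ≤ ‖pw y‖ ^ 2) (a0 : 0 ≤ a) (a1 : a ≤ 1)
    (hb' : b = 1 ∨ (0 ≤ b ∧ b ≤ 1 ∧ 4 + τ ≤ b ^ 2 * ‖pw y‖ ^ 2)) :
    LL M (ζ, dg a b a y) ≤ LL M (ζ, y) ∧ (LL M (ζ, y) ≤ LL M (ζ, dg a b a y) → dg a b a y = y) := by
  have τ0 := tau_pos hτ
  have e1 : ‖pv (dg a b a y)‖ ^ 2 = a ^ 2 * ‖pv y‖ ^ 2 := by
    rw [pv_dg, norm_smul, mul_pow, Real.norm_eq_abs, sq_abs]
  have e2 : ‖pw (dg a b a y)‖ ^ 2 = b ^ 2 * ‖pw y‖ ^ 2 := by
    rw [pw_dg, norm_smul, mul_pow, Real.norm_eq_abs, sq_abs]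
  have pV0 := sq_nonneg ‖pv y‖
  have aV : 0 ≤ a ^ 2 * ‖pv y‖ ^ 2 := by positivity
  have aa : 0 ≤ 1 - a ^ 2 := sub_nonneg.2 (pow_le_one₀ a0 a1)
  have aV' : 0 ≤ (1 - a ^ 2) * ‖pv y‖ ^ 2 := by positivity
  have aU : 0 ≤ (1 - a ^ 2) * u2 y ^ 2 := by positivity
  have aU' : 0 ≤ (1 - a ^ 2) * u1 y ^ 2 := by positivity
  have key : 0 ≤ (1 - b ^ 2) * ‖pw y‖ ^ 2 ∧ 3 ≤ b ^ 2 * ‖pw y‖ ^ 2 ∧
      2 / 1000 * ((1 - b ^ 2) * ‖pw y‖ ^ 2) ≤ Ee (a ^ 2 * ‖pv y‖ ^ 2 + ‖pw y‖ ^ 2 - 4) -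
        Ee (a ^ 2 * ‖pv y‖ ^ 2 + b ^ 2 * ‖pw y‖ ^ 2 - 4) := by
    rcases hb' with q | ⟨q0, q1, q2⟩
    · rw [q]; simpa using W0
    have bb : 0 ≤ (1 - b ^ 2) * ‖pw y‖ ^ 2 :=
      mul_nonneg (sub_nonneg.2 (pow_le_one₀ q0 q1)) (sq_nonneg _)
    refine ⟨bb, by linarith, le_trans ?_ (Ee_gap (by linarith))⟩
    have := Real.smoothTransition.monotone (show 10 * τ ≤
      10 * (a ^ 2 * ‖pv y‖ ^ 2 + b ^ 2 * ‖pw y‖ ^ 2 - 4) by linarith)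
    rw [show Real.smoothTransition (10 * τ) = 2 / 1000000 from hτ] at this
    rw [show a ^ 2 * ‖pv y‖ ^ 2 + ‖pw y‖ ^ 2 - 4 - (a ^ 2 * ‖pv y‖ ^ 2 + b ^ 2 * ‖pw y‖ ^ 2 - 4) =
      (1 - b ^ 2) * ‖pw y‖ ^ 2 by ring]
    exact mul_le_mul_of_nonneg_right (by rw [st]; linarith) bb
  obtain ⟨k1, k2, k3⟩ := key
  have k4 := Ee_mono (show a ^ 2 * ‖pv y‖ ^ 2 + ‖pw y‖ ^ 2 - 4 ≤ ‖pv y‖ ^ 2 + ‖pw y‖ ^ 2 - 4 by
    linarith)
  rw [LL_hi hL ζ (y := y) (by unfold ta; linarith),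
    LL_hi hL ζ (y := dg a b a y) (by unfold ta; rw [e1, e2]; linarith), ta, ta, e1, e2, u2_dg, u1_dg,
    mul_pow, mul_pow]
  refine ⟨by linarith, fun q => ?_⟩
  have z : ∀ x : ℝ, (1 - a ^ 2) * x ^ 2 = 0 → (a - 1) * x = 0 := fun x hx => by
    rcases mul_eq_zero.1 hx with r | r
    · rw [(pow_eq_one_iff_of_nonneg a0 two_ne_zero).1 (by linarith)]; simp
    · rw [pow_eq_zero_iff two_ne_zero |>.1 r, mul_zero]
  have b1 : b = 1 := by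
    rcases hb' with r | ⟨r0, r1, -⟩
    · exact r
    · have : (1 - b ^ 2) * ‖pw y‖ ^ 2 = 0 := by linarith
      rcases mul_eq_zero.1 this with r | r
      · exact (pow_eq_one_iff_of_nonneg r0 two_ne_zero).1 (by linarith)
      · linarith
  refine Y_ext' ?_ (by rw [pw_dg, b1, one_smul]) ?_ ?_
  · rw [pv_dg, ← sub_eq_zero, ← norm_eq_zero]
    have := z ‖pv y‖ (by linarith)
    rw [show a • pv y - pv y = (a - 1) • pv y by module, norm_smul, Real.norm_eq_abs,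
      abs_of_nonpos (by linarith)]
    linarith
  · rw [u2_dg]; linarith [z (u2 y) (by linarith)]
  · rw [u1_dg]; linarith [z (u1 y) (by linarith)]

theorem vp_le (hL : Lk M) {τ t : ℝ} (hτ : st (10 * τ) = 2 / 1000000) (t0 : 0 ≤ t) (t1 : t ≤ 1)
    (ζ : ℂ) (y : Y) : LL M (ζ, vp τ t y) ≤ LL M (ζ, y) ∧
      (LL M (ζ, y) ≤ LL M (ζ, vp τ t y) → vp τ t y = y) := by
  have τ0 := tau_pos hτ
  have r2 := two_lt τ0
  rcases le_or_gt ‖pw y‖ (9 / 5) with h | h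
  · have : vp τ t y = y := by simp [vp, chi_lo h, cf_one τ0 (h.trans (by linarith))]
    rw [this]; exact ⟨le_rfl, fun _ => rfl⟩
  rw [vp_eq]
  obtain ⟨c0, c1⟩ := chi_mem ‖pw y‖
  refine dg_le hL hτ ζ y (by nlinarith) (sub_nonneg.2 (mul_le_one₀ t1 c0 c1))
    (sub_le_self _ (mul_nonneg t0 c0)) ?_
  rcases le_total ‖pw y‖ (rr τ) with q | q
  · left; rw [cf_one τ0 q]; ring
  right
  have e : cf τ ‖pw y‖ * ‖pw y‖ = rr τ := by
    rw [cf, max_eq_left q, div_mul_cancel₀ _ (by linarith)]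
  have f0 : 0 ≤ cf τ ‖pw y‖ := nonneg_of_mul_nonneg_left (by linarith) (by linarith : 0 < ‖pw y‖)
  have f1 : cf τ ‖pw y‖ ≤ 1 := le_of_mul_le_mul_right (by linarith) (by linarith : 0 < ‖pw y‖)
  have f2 : cf τ ‖pw y‖ ≤ 1 - t * (1 - cf τ ‖pw y‖) := by
    linarith [mul_le_of_le_one_left (sub_nonneg.2 f1) t1]
  refine ⟨f0.trans f2, sub_le_self _ (mul_nonneg t0 (sub_nonneg.2 f1)), ?_⟩
  rw [← rr_sq τ0, ← e, ← mul_pow]
  exact pow_le_pow_left₀ (by positivity) (mul_le_mul_of_nonneg_right f2 (norm_nonneg _)) 2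

end Crest.Agent.N218.Pc.Sq
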