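import Crest.Agent.N218.Pc.Defs
import Crest.Agent.N218.Pc.Ll

/-! Row 218, block PIECE (helper48): the derivative of the squeezed step at its fixed points. -/

set_option autoImplicit false
open Set Filter Topology
open scoped ContDiff RealInnerProductSpace

noncomputable section

namespace Crest.Agent.N218.Pc.Sq1
open P Ll

theorem sd_congr {T V : Type*} [TopologicalSpace T] [NormedAddCommGroup V] [NormedSpace ℝ V]
    {P Q : T × V → V} {D : V →L[ℝ] V} {x : T × V} (h : Ad.Sd P D x)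
    (e : ∀ᶠ z in 𝓝 x, Q z = P z) : Ad.Sd Q D x := fun ε e0 => by
  have t1 : Tendsto (fun y : T × V × V => (y.1, y.2.1)) (𝓝 (x.1, x.2, x.2)) (𝓝 x) :=
    Continuous.tendsto' (by fun_prop) _ _ rfl
  have t2 : Tendsto (fun y : T × V × V => (y.1, y.2.2)) (𝓝 (x.1, x.2, x.2)) (𝓝 x) :=
    Continuous.tendsto' (by fun_prop) _ _ rfl
  filter_upwards [h ε e0, t1.eventually e, t2.eventually e] with y a b c
  rwa [b, c]

theorem sd_lin {T V : Type*} [TopologicalSpace T] [NormedAddCommGroup V] [NormedSpace ℝ V]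
    [FiniteDimensional ℝ V] {F : V → V} (hF : ContDiff ℝ ∞ F) {L : T → V →L[ℝ] V} (hL : Continuous L) (x : T × V) :
    Ad.Sd (fun z : T × V => F (L z.1 z.2)) ((fderiv ℝ F (L x.1 x.2)).comp (L x.1)) x :=
  Ad.Sd.of_c1 (D := fun z => (fderiv ℝ F (L z.1 z.2)).comp (L z.1))
    (((hF.continuous_fderiv (by simp)).comp (by fun_prop)).clm_comp (by fun_prop)).continuousAt
    (.of_forall fun z => (hF.differentiable (by simp) _).hasFDerivAt.comp z.2 (L z.1).hasFDerivAt)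

theorem qV_eq (y : Y) : qV y = pV y := (pV_eq y).symm
theorem qW_eq (y : Y) : qW y = pW y := (pW_eq y).symm

theorem tau_pos {τ : ℝ} (ht : st (10 * τ) = 2 / 1000000) : 0 < τ :=
  lt_of_not_ge fun a => by rw [st_z (by linarith)] at ht; norm_num at ht

theorem cf_one {τ ρ : ℝ} (h0 : 0 < τ) (h : ρ ^ 2 ≤ 4 + τ) : cf τ ρ = 1 := by
  rw [cf, rr, max_eq_right (Real.le_sqrt_of_sq_le h), div_self]
  exact (Real.sqrt_pos.2 (by linarith)).ne'

theorem vp_lo {τ : ℝ} (h0 : 0 < τ) (t : ℝ) {y : Y} (h : ‖pw y‖ ≤ 1) : vp τ t y = y := by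
  rw [vp, cf_one h0 (by nlinarith [norm_nonneg (pw y)]), chi, Pm.cl,
    max_eq_left ((min_le_right _ _).trans (by linarith))]
  simp

theorem vp_hi {τ : ℝ} (h0 : 0 < τ) (t : ℝ) {y : Y} (h : 19 / 10 ≤ ‖pw y‖)
    (h' : ‖pw y‖ ^ 2 ≤ 4 + τ) : vp τ t y = dg (1 - t) 1 (1 - t) y := by
  rw [vp, cf_one h0 h', chi, Pm.cl, min_eq_left (by linarith), max_eq_right zero_le_one, qW_eq,
    dg_apply]
  module

/-- the profile of the rim term -/
def ps (u : ℝ) : ℝ := 2000 * st (10 * (2 * u - 4))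

theorem ps_sm : ContDiff ℝ ∞ ps := contDiff_const.mul (st_sm.comp (by fun_prop))

/-- the step near the rim -/
def E0 (ε : ℝ) (y : Y) : Y :=
  y - ε • (dg (999 / 500) (-(1 / 500)) 2 y + ps (1 / 2 * ⟪dg 1 1 0 y, y⟫) • dg 1 1 0 y)

theorem E0_sm (ε : ℝ) : ContDiff ℝ ∞ (E0 ε) :=
  contDiff_id.sub (((dg _ _ _).contDiff.add ((ps_sm.comp (contDiff_const.mul
    ((dg 1 1 0).contDiff.inner ℝ contDiff_id))).smul (dg 1 1 0).contDiff)).const_smul ε)

theorem E0_d (ε : ℝ) (y ξ : Y) : fderiv ℝ (E0 ε) y ξ = ξ - ε • (dg (999 / 500) (-(1 / 500)) 2 ξ +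
    (ps (1 / 2 * ⟪dg 1 1 0 y, y⟫) • dg 1 1 0 ξ +
      (deriv ps (1 / 2 * ⟪dg 1 1 0 y, y⟫) * ⟪dg 1 1 0 y, ξ⟫) • dg 1 1 0 y)) := by
  have a := ((ps_sm.differentiable (by simp) _).hasDerivAt.comp_hasFDerivAt y (quad_d 1 1 0 y)).smul
    (dg 1 1 0).hasFDerivAt
  rw [show fderiv ℝ (E0 ε) y = _ from ((hasFDerivAt_id y).sub
    (((dg (999 / 500) (-(1 / 500)) 2).hasFDerivAt.add a).const_smul ε)).fderiv]
  simp

variable {M : ℂ × P.V → P.V} (hM : Lk M)
include hM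

theorem Es_lo (s ε : ℝ) {z : S × Y} (h : ta z.2 < 1) :
    Es (LL M) s ε z = (1 - ε • dg (-(1 / 500)) (999 / 500) 2) z.2 := by
  rw [Es, up, hM.gr, hM.glo ((lb s z.1).1, z.2) h, ta_eq, st_z (by linarith), qV_eq, qW_eq]
  simp only [ContinuousLinearMap.sub_apply, ContinuousLinearMap.smul_apply, dg_apply,
    ContinuousLinearMap.one_apply]
  module

theorem Es_hi (s ε : ℝ) {z : S × Y} (h : 3 < ta z.2) : Es (LL M) s ε z = E0 ε z.2 := by
  rw [Es, up, hM.gr, hM.ghi ((lb s z.1).1, z.2) h, ta_eq, qV_eq, qW_eq, E0, quad_eq, ps, ta,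
    show 2 * (1 / 2 * ‖pv z.2‖ ^ 2 + 1 / 2 * ‖pw z.2‖ ^ 2 + 0 / 2 * (u2 z.2 ^ 2 + u1 z.2 ^ 2)) =
      ‖pv z.2‖ ^ 2 + ‖pw z.2‖ ^ 2 by ring]
  simp only [dg_apply]
  module

omit hM in
theorem cw : Continuous fun z : (S × unitInterval) × Y => ‖pw z.2‖ :=
  (pw_sm.continuous.comp continuous_snd).norm

theorem LL_zero (ζ : ℂ) : LL M (ζ, 0) = -(1 / 100) := by
  have a : ta 0 = 0 := by simp [ta, ← pvL_apply, ← pwL_apply]
  have := hM.lo (ζ, 0) (by rw [ta_eq, a]; norm_num)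
  rw [LL', ta_eq, a, Ee_z (by norm_num), qV_eq] at this
  simp only [map_zero, sub_zero, norm_zero] at this
  linarith

theorem sd0 {τ : ℝ} (t0 : 0 < τ) (s ε : ℝ) (b : S × unitInterval) :
    Ad.Sd (fun z : (S × unitInterval) × Y => Es (LL M) s ε (z.1.1, vp τ z.1.2 z.2))
      (1 - ε • dg (-(1 / 500)) (999 / 500) 2) (b, 0) := by
  have a : ta 0 = 0 := by simp [ta, ← pvL_apply, ← pwL_apply]
  have w : pw 0 = 0 := pwL.map_zero
  have c : Continuous fun z : (S × unitInterval) × Y => ta z.2 := ta_cont.comp continuous_snd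
  refine Ad.Sd.of_lin (c := fun _ => 0) (L := fun _ => 1 - ε • dg (-(1 / 500)) (999 / 500) 2)
    (x := (b, 0)) continuousAt_const ?_
  filter_upwards [cw.continuousAt.eventually_lt (continuousAt_const (y := 1)) (by simp [w]),
    c.continuousAt.eventually_lt (continuousAt_const (y := 1)) (by simp [a])] with z b c
  rw [vp_lo t0 _ b.le, zero_add]
  exact Es_lo hM s ε (z := (z.1.1, z.2)) c

omit hM in
theorem cont_dgL {T : Type*} [TopologicalSpace T] {a b c : T → ℝ} (ha : Continuous a)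
    (hb : Continuous b) (hc : Continuous c) : Continuous fun t => dg (a t) (b t) (c t) :=
  ((hc.smul continuous_const).add ((ha.sub hc).smul continuous_const)).add
    ((hb.sub hc).smul continuous_const)

omit hM in
theorem sd1 (ε : ℝ) (x : (S × unitInterval) × Y) :
    Ad.Sd (fun z : (S × unitInterval) × Y => E0 ε (dg (1 - z.1.2) 1 (1 - z.1.2) z.2))
      ((fderiv ℝ (E0 ε) (dg (1 - x.1.2) 1 (1 - x.1.2) x.2)).comp (dg (1 - x.1.2) 1 (1 - x.1.2)))
      x :=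
  have c : Continuous fun b : S × unitInterval => 1 - (b.2 : ℝ) := by fun_prop
  sd_lin (E0_sm ε) (cont_dgL c continuous_const c) x

omit hM in
theorem sy1 (ε b : ℝ) {y : Y} (e : pW y = y) (a a' : Y) :
    ⟪fderiv ℝ (E0 ε) y (dg b 1 b a), a'⟫ = ⟪a, fderiv ℝ (E0 ε) y (dg b 1 b a')⟫ := by
  have fx : ∀ a c : ℝ, dg a 1 c y = y := fun a c => by
    rw [← e, dg_apply, pV_pW, pW_pW]; module
  simp only [E0_d, fx, dg_dg, inner_sub_left, inner_sub_right,
    inner_add_left, inner_add_right, real_inner_smul_left, real_inner_smul_right, ← dg_sa _ _ _ y]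
  simp only [dg_sa, real_inner_comm y]
  ring

theorem sym {τ : ℝ} (ht : st (10 * τ) = 2 / 1000000) (s ε : ℝ) (σ : S) (t : unitInterval) (y : Y)
    (h0 : up s (LL M) (σ, y) ≤ 1 / 100) (hy : up s (A.Rs.vgr (LL M)) (σ, y) = 0) :
    up s (LL M) (σ, y) < 0 ∧ vp τ t y = y ∧ ∃ L : Y →L[ℝ] Y, (∀ a a', ⟪L a, a'⟫ = ⟪a, L a'⟫) ∧
      Ad.Sd (fun z : (S × unitInterval) × Y => Es (LL M) s ε (z.1.1, vp τ z.1.2 z.2)) L
        ((σ, t), y) := by
  have t0 := tau_pos ht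
  rcases hM.cr ((lb s σ).1, y) h0 hy with e | ⟨e1, e2, e3⟩
  · obtain rfl : y = 0 := e
    refine ⟨(LL_zero hM (lb s σ).1).trans_lt (by norm_num), vp_lo t0 _ (by simp [← pwL_apply]),
      1 - ε • dg (-(1 / 500)) (999 / 500) 2, fun a a' => ?_, sd0 hM t0 s ε (σ, t)⟩
    simp [inner_sub_left, inner_sub_right, real_inner_smul_left, real_inner_smul_right, dg_sa]
  dsimp only at e2 e3
  have a1 : 4 < ‖pw y‖ ^ 2 := lt_of_not_ge fun a => by
    rw [st_z (by linarith)] at e3; norm_num at e3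
  have a2 : ‖pw y‖ ^ 2 < 4 + τ := lt_of_not_ge fun a => by
    have : st (10 * τ) ≤ st (10 * (‖pw y‖ ^ 2 - 4)) := Real.smoothTransition.monotone (by linarith)
    rw [ht, e3] at this; norm_num at this
  have a3 : 2 < ‖pw y‖ := lt_of_pow_lt_pow_left₀ 2 (norm_nonneg _) (by linarith)
  rw [qW_eq] at e2
  have fx : dg (1 - t) 1 (1 - t) y = y := by
    rw [← e2, dg_apply, pV_pW, pW_pW]; module
  have k := sd1 ε ((σ, t), y)
  dsimp only at k
  rw [fx] at k
  refine ⟨e1.trans_lt (by norm_num), (vp_hi t0 _ (by linarith) a2.le).trans fx,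
    (fderiv ℝ (E0 ε) y).comp (dg (1 - t) 1 (1 - t)), sy1 ε (1 - t) e2, sd_congr k ?_⟩
  filter_upwards [continuousAt_const.eventually_lt cw.continuousAt a3,
    (cw.pow 2).continuousAt.eventually_lt continuousAt_const a2] with z b c
  rw [vp_hi t0 _ (by linarith) c.le]
  refine Es_hi hM s ε (z := (z.1.1, dg (1 - z.1.2) 1 (1 - z.1.2) z.2)) ?_
  dsimp only
  rw [ta, pw_dg, one_smul]
  nlinarith [sq_nonneg ‖pv (dg (1 - z.1.2) 1 (1 - z.1.2) z.2)‖]

end Crest.Agent.N218.Pc.Sq1
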